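import Vale.Agent.P167.N.NET.Rough

/-!
# P167, `q < 1`: the box lemma, statement
-/

set_option autoImplicit false

namespace Vale.Agent.P167.H366

open Finset Vale.Agent.P167 Vale.Agent.P167.FK Vale.Agent.P167.H262 Vale.Agent.P167.H632
  Vale.Agent.P167.H871 Vale.Agent.P167.H192.TA Vale.Agent.P167.N.NET

/-- The squares of the ring `s ≤ |v - z| < 6 s`. -/
noncomputable def Rg (z : Pt) (s : ℤ) : Finset Pt :=
  Rsq (z.1 - 6 * s) (z.1 + 6 * s) (z.2 - 6 * s) (z.2 + 6 * s) \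
    Rsq (z.1 - s) (z.1 + s) (z.2 - s) (z.2 + s)

/-- `K` joins the inner box to the outside of the outer box by corners of the colour `e`. -/
def Wl (e : Bool) (K : Set Pt) (z : Pt) (s : ℤ) : Prop :=
  ∃ u v : Pt, (u.1 + u.2) % 2 = pr e ∧ (z.1 - s ≤ u.1 ∧ u.1 ≤ z.1 + s ∧ z.2 - s ≤ u.2 ∧ u.2 ≤ z.2 + s) ∧
    (v.1 ≤ z.1 - 6 * s ∨ z.1 + 6 * s ≤ v.1 ∨ v.2 ≤ z.2 - 6 * s ∨ z.2 + 6 * s ≤ v.2) ∧ Pw K u v

/-- **The box lemma**: two sets of squares `K₁`, `K₂` which both cross the ring are joined by squares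
of the ring off `K₁ ∪ K₂` of the colour `e` with probability at least `κ`, for every configuration
outside. -/
def TA (Q : ℝ) : Prop := ∃ κ : ℝ, 0 < κ ∧ κ ≤ 1 ∧ ∀ (e : Bool) (z : Pt) (s : ℤ), 1 ≤ s →
  ∀ (K₁ K₂ D : Finset Pt) (η : Cfg), Good η → Wl e ↑K₁ z s → Wl e ↑K₂ z s →
    Rg z s \ (K₁ ∪ K₂) ⊆ D →
    κ ≤ Pr Q D η (Jn e ↑(Rg z s \ (K₁ ∪ K₂)) (Vc e ↑K₁) (Vc e ↑K₂))

end Vale.Agent.P167.H366
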