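import Vale.Agent.P167.H366.Step1
import Vale.Agent.P167.H997.E1

/-!
# P167, Russo-Seymour-Welsh for `0 < Q < 1`

`vr : 0 < Q → Q < 1 → VR Q`.
-/

set_option autoImplicit false
set_option linter.unusedSectionVars false

namespace Vale.Agent.P167.H366

open Finset Vale.Agent.P167.H623 Vale.Agent.P167.H92 Vale.Agent.P167.H816 Vale.Agent.P167.FK
open Vale.Agent.P167.H262 (Rsq mem_Rsq CI CD mm Pb Db)
open Vale.Agent.P167.H997 (sdX sdY)
open Vale.Agent.P145.FB (PStep PConn)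
open Relation (ReflTransGen)

variable {Q : ℝ} {n H K d : ℤ}

/-- (E1) in the notation of H366. -/
theorem E1_m (hQ : 0 < Q) (hQ1 : Q < 1) (hn : n % 2 = 0) (hn0 : 0 ≤ n) (hK : 1 ≤ K)
    (hKH : K * (n + 2) ≤ H) {T : Set (ℤ × ℤ)} (hT : ∀ t ∈ T, K * (n + 2) ≤ t.2) :
    m Q (Rsq (-n - 1) 1 0 H) (Dn 0) (Dn 0) T ≤ 1 / (Q * (1 - Q)) / K := by
  refine le_trans ?_ (H997.e1 hQ hQ1 hn hn0 hK hKH)
  rw [← m_eq_mm hQ]
  have hpos : 0 < K * (n + 2) := by positivity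
  have h1 : m Q (Rsq (-n - 1) 1 0 H) (Dn 0) (Dn 0) T ≤
      m Q (Rsq (-n - 1) 1 0 H) (Dn 0) (sdY 0 0 (-n - 1) 1) {t | K * (n + 2) ≤ t.2} := by
    refine mu_mono hQ fun S hS => ?_
    rintro ⟨s, hs, t, ht, h⟩
    have h2 := hT t ht
    have hne : t ≠ s := by
      rintro rfl
      have := hs.2
      omega
    have h3 := EvS_box (EvS_mono hS (mem_EvS_of_conf (Setoid.symm' _ h) hne))
    exact ⟨s, ⟨le_antisymm hs.2 h3.2.2.1, h3.1, h3.2.1, Int.even_iff.1 hs.1⟩, t, h2, h⟩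
  refine h1.trans_eq ?_
  refine mu_congr hQ (fun x hx y hy => ?_) fun _ _ => Iff.rfl
  have key : ∀ z ∈ EvS (Rsq (-n - 1) 1 0 H), z ∈ Dn 0 ↔ z ∈ sdY 0 0 (-n - 1) 1 := by
    intro z hz
    have h3 := EvS_box hz
    constructor
    · exact fun h => ⟨le_antisymm h.2 h3.2.2.1, h3.1, h3.2.1, Int.even_iff.1 h.1⟩
    · exact fun h => ⟨Int.even_iff.2 h.2.2.2, h.1.le⟩
  constructor
  · rintro (h | ⟨h, h'⟩)
    · exact Or.inl h
    · exact Or.inr ⟨(key x hx).1 h, (key y hy).1 h'⟩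
  · rintro (h | ⟨h, h'⟩)
    · exact Or.inl h
    · exact Or.inr ⟨(key x hx).2 h, (key y hy).2 h'⟩

/-- Dual connections in terms of `Jd`. -/
theorem CD_Jd {D : Finset (ℤ × ℤ)} {η : Cfg} {A B : Set (ℤ × ℤ)}
    (hA : ∀ s ∈ A, Odd (s.1 + s.2)) {S : Finset (ℤ × ℤ)} (hS : S ⊆ D) :
    cf D η S ∈ CD D A B ↔ Jd (D \ S) A B := by
  classical
  have h1 := H262.CD_iff' (E := D) (η := η) (B := B) hA (S := D \ S) sdiff_subset
  rw [Finset.sdiff_sdiff_eq_self hS] at h1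
  rw [h1]
  unfold H816.Sep
  push Not
  constructor
  · rintro ⟨s, hs, t, ht, h⟩
    rw [conf_iff_con] at h
    exact ⟨s, hs, t, ht, h⟩
  · rintro ⟨s, hs, t, ht, h⟩
    rw [← conf_iff_con] at h
    exact ⟨s, hs, t, ht, h⟩

theorem odd_sdY {a b c : ℤ} : ∀ s ∈ sdY 1 c a b, Odd (s.1 + s.2) :=
  fun _ h => Int.odd_iff.2 h.2.2.2

/-- The dual cluster of the bottom side does not reach far. -/
theorem first_le (hQ : 0 < Q) (hQ1 : Q < 1) (hn : n % 2 = 0) (hn0 : 0 ≤ n) (hK : 1 ≤ K)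
    (hH : H % 2 = 1) (hKH : K * (n + 2) ≤ H) (hd : 0 ≤ d) :
    mu Q (Rsq (-n - 1) 1 (-H) d) ⊥ (fun S => Jd (Rsq (-n - 1) 1 (-H) d \ S)
      (sdY 1 (-H) (-n - 1) 1) (sdY 1 0 (-n - 1) 1)) ≤ 1 / (Q * (1 - Q)) / K := by
  classical
  have h1 : mu Q (Rsq (-n - 1) 1 (-H) d) ⊥ (fun S => Jd (Rsq (-n - 1) 1 (-H) d \ S)
      (sdY 1 (-H) (-n - 1) 1) (sdY 1 0 (-n - 1) 1)) = Pr Q (Rsq (-n - 1) 1 (-H) d) eta0
        (CD (Rsq (-n - 1) 1 (-H) d) (sdY 1 (-H) (-n - 1) 1) (sdY 1 0 (-n - 1) 1)) := by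
    rw [Pr_eq_GP hQ good_eta0, H262.PCs_bot]
    exact mu_congr hQ (fun _ _ _ _ => Iff.rfl) fun S hS => (CD_Jd odd_sdY hS).symm
  rw [h1, rect_mm_dual hQ odd_sdY]
  have h2 : sdY 1 (-H) (-n - 1) 1 ⊆ Db (Rsq (-n - 1) 1 (-H) d) := fun s hs =>
    H262.mem_Db_rect (odd_sdY s hs) (Or.inr (Or.inr (Or.inl hs.1.le)))
  refine (H262.mm_anti da db _ (fun _ => hQ) (pow_pos hQ 2) (pow_le_one₀ hQ.le hQ1.le) _ h2
    h2).trans ?_
  have h3 := H997.mm_DP (Q := Q) (D := Rsq (-n - 1) 1 (-H) d) (D' := Rsq (-n - 1) 1 0 (d + H))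
    (Z := sdY 1 (-H) (-n - 1) 1) (A := sdY 1 (-H) (-n - 1) 1) (B := sdY 1 0 (-n - 1) 1)
    (Z' := sdY 0 0 (-n - 1) 1) (A' := sdY 0 0 (-n - 1) 1) (B' := sdY 0 H (-n - 1) 1) hQ
    (H997.sy_tr 0 H) (by omega)
    (fun b => by
      rw [mem_Rsq, mem_Rsq]
      simp only [H997.tr, Equiv.coe_fn_mk]
      omega)
    (fun x => by
      simp only [sdY, Set.mem_ofPred_eq, H997.tr, Equiv.coe_fn_mk]
      omega)
    (fun x => by
      simp only [sdY, Set.mem_ofPred_eq, H997.tr, Equiv.coe_fn_mk]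
      omega)
    (fun x => by
      simp only [sdY, Set.mem_ofPred_eq, H997.tr, Equiv.coe_fn_mk]
      omega)
  rw [← h3]
  refine le_trans ?_ (H997.e1 (H := d + H) hQ hQ1 hn hn0 hK (by omega))
  refine H997.mm_mono pa pb _ (fun _ => hQ.le) (pow_pos hQ 2) subset_rfl fun t ht => ?_
  show K * (n + 2) ≤ t.2
  rw [ht.1]
  exact hKH

/-- Crossings of long rectangles with free walls. -/
theorem free_le (hQ : 0 < Q) (hQ1 : Q < 1) (hn : n % 2 = 0) (hn0 : 0 ≤ n) (hK : 1 ≤ K)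
    (hH : H % 2 = 1) (hKH : K * (n + 2) ≤ H) (hKd : K * (n + 2) ≤ d) :
    mu Q (Rsq (-n - 1) 1 (-H) d) ⊥ (fun S => J S (Dn (-H)) (Up d)) ≤
      2 * (1 / (Q * (1 - Q)) / K) := by
  have hpos : 0 < K * (n + 2) := by positivity
  refine (explore hQ hQ1.le (by omega) (by omega) (by omega)).trans ?_
  have h1 := first_le (d := d) hQ hQ1 hn hn0 hK hH hKH (by omega)
  have h2 := E1_m (T := Up d) hQ hQ1 hn hn0 hK hKd fun t ht => hKd.trans ht.2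
  rw [m_symm hQ] at h2
  linarith

/-- Crossings of tall rectangles in the short direction, everything outside open. -/
theorem cH_ge (hQ : 0 < Q) (hQ1 : Q < 1) (hn : n % 2 = 0) (hn0 : 0 ≤ n) (hK : 1 ≤ K)
    (hH : H % 2 = 1) (hKH : K * (n + 2) ≤ H) (hKd : K * (n + 2) ≤ d) :
    1 - 2 * (1 / (Q * (1 - Q)) / K) ≤ cH Q (-n - 2) 0 (-H) d := by
  classical
  have hpos : 0 < K * (n + 2) := by positivity
  set R := Rsq (-n - 2) 0 (-H) d with hR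
  have h1 : (CI R (Lf (-n - 2)) (Rg 0))ᶜ ⊆
      CD R (sdY 1 (-H) (-n - 2) 0) (sdY 1 d (-n - 2) 0) := by
    intro ω hω
    rcases P145.FB.hard (op ω) (a := -n - 2) (b := 0) (c := -H) (d := d) (by omega) (by omega)
      with ⟨u, v, h1, h2, h3, h4⟩ | ⟨u, v, h1, h2, h3, h4⟩
    · refine absurd ?_ hω
      have hp := h4.parity
      exact ⟨u, ⟨Int.even_iff.2 h3, h1.le⟩, v, ⟨Int.even_iff.2 (by omega), h2.ge⟩,
        (H262.rtg_rect h4.left_mem).2 h4⟩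
    · have hp := h4.parity
      have hu := h4.left_mem
      have hv := h4.right_mem
      rw [H997.Rect_eq] at hu hv
      exact ⟨u, ⟨h1, hu.1, hu.2.1, h3⟩, v, ⟨h2, hv.1, hv.2.1, by omega⟩,
        (H262.rtg_rect h4.left_mem).2 h4⟩
  have h2 : 1 - cH Q (-n - 2) 0 (-H) d = Pr Q R eta1 (CI R (Lf (-n - 2)) (Rg 0))ᶜ := by
    rw [FKA.Pr_compl hQ, cH]
  have h3 : Pr Q R eta1 (CD R (sdY 1 (-H) (-n - 2) 0) (sdY 1 d (-n - 2) 0)) =
      mm da db (fun _ => Q) (Q ^ 2) R ∅ (sdY 1 (-H) (-n - 2) 0) (sdY 1 d (-n - 2) 0) := by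
    rw [Pr_eq_GP_dual hQ good_eta1, H262.DCs_bot]
    refine GP_congr da db R (pow_pos hQ 2) (fun x _ y _ => ?_) fun S hS =>
      H262.CD_iff' odd_sdY hS
    constructor
    · exact fun h => Or.inl h
    · rintro (h | ⟨h, -⟩)
      · exact h
      · exact h.elim
  have h4 := H997.mm_DP (Q := Q) (D := R) (D' := Rsq (-n - 1) 1 (-H) d)
    (Z := ∅) (A := sdY 1 (-H) (-n - 2) 0) (B := sdY 1 d (-n - 2) 0)
    (Z' := ∅) (A' := sdY 0 (-H) (-n - 1) 1) (B' := sdY 0 d (-n - 1) 1) hQ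
    (H997.sy_tr 1 0) (by omega)
    (fun b => by
      rw [hR, mem_Rsq, mem_Rsq]
      simp only [H997.tr, Equiv.coe_fn_mk]
      omega)
    (fun x => Iff.rfl)
    (fun x => by
      simp only [sdY, Set.mem_ofPred_eq, H997.tr, Equiv.coe_fn_mk]
      omega)
    (fun x => by
      simp only [sdY, Set.mem_ofPred_eq, H997.tr, Equiv.coe_fn_mk]
      omega)
  have h5 : mm pa pb (fun _ => Q) (Q ^ 2) (Rsq (-n - 1) 1 (-H) d) ∅ (sdY 0 (-H) (-n - 1) 1)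
      (sdY 0 d (-n - 1) 1) ≤
      mu Q (Rsq (-n - 1) 1 (-H) d) ⊥ (fun S => J S (Dn (-H)) (Up d)) := by
    rw [← m_eq_mm hQ]
    refine (m_mono_sets hQ (A' := Dn (-H)) (B' := Up d)
      (fun s hs => ⟨Int.even_iff.2 hs.2.2.2, hs.1.le⟩)
      (fun s hs => ⟨Int.even_iff.2 hs.2.2.2, hs.1.ge⟩)).trans_eq ?_
    refine mu_congr hQ (fun x _ y _ => ?_) fun _ _ => Iff.rfl
    constructor
    · rintro (h | ⟨h, -⟩)
      · exact h
      · exact h.elim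
    · exact fun h => Or.inl h
  have h6 := (FKA.Pr_mono (D := R) (η := eta1) hQ h1)
  rw [← h2, h3, ← h4] at h6
  have h7 := free_le hQ hQ1 hn hn0 hK hH hKH hKd
  linarith

/-- **(A)**: easy crossings, everything outside open. -/
theorem easy (hQ : 0 < Q) (hQ1 : Q < 1) : ∃ κ : ℝ, 0 < κ ∧ ∃ (K₀ : ℕ) (n₀ : ℤ),
    ∀ n : ℤ, n₀ ≤ n → κ ≤ cV Q (-(K₀ * n)) (K₀ * n) 0 n := by
  have hC : 0 < 1 / (Q * (1 - Q)) := by
    have : 0 < 1 - Q := by linarith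
    positivity
  set C := 1 / (Q * (1 - Q)) with hCdef
  obtain ⟨K, hK⟩ := exists_nat_gt (4 * C)
  have hK0 : (0 : ℝ) < K := by linarith
  have hK1 : 1 ≤ K := by
    rcases Nat.eq_zero_or_pos K with h | h
    · rw [h] at hK0
      exact absurd hK0 (by simp)
    · exact h
  have hK1' : (1 : ℤ) ≤ K := by exact_mod_cast hK1
  have hCK : 2 * (C / (K : ℤ)) ≤ 1 / 2 := by
    have : (((K : ℤ) : ℝ)) = K := by push_cast; rfl
    rw [this, ← mul_div_assoc, div_le_iff₀ hK0]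
    linarith
  refine ⟨1 / 2, by norm_num, 2 * K + 1, 2, fun N hN => ?_⟩
  obtain ⟨n, hn, h1, h2⟩ : ∃ n : ℤ, n % 2 = 0 ∧ n ≤ N ∧ N < n + 2 :=
    ⟨2 * (N / 2), by omega, by omega, by omega⟩
  have hn0 : 0 ≤ n := by omega
  have he : (K * (n + 2)) % 2 = 0 := by
    rw [Int.mul_emod, show (n + 2) % 2 = 0 by omega, mul_zero, Int.zero_emod]
  have h3 := cH_ge (H := K * (n + 2) + 1) (d := K * (n + 2)) hQ hQ1 hn hn0 hK1' (by omega)
    (by omega) le_rfl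
  have h4 : 1 / 2 ≤ cH Q (-n - 2) 0 (-(K * (n + 2) + 1)) (K * (n + 2)) := by linarith
  have h5 := cH_shift (Q := Q) (a := -n - 2) (b := 0) (c := -(K * (n + 2) + 1))
    (d := K * (n + 2)) hQ (t := (n + 2, 0)) (by rw [Int.even_iff]; simp only; omega)
  simp only [add_zero, zero_add] at h5
  rw [← h5, show -n - 2 + (n + 2) = 0 by ring] at h4
  rw [cV_eq hQ]
  have h6 : K * (n + 2) + 1 ≤ ((2 * K + 1 : ℕ) : ℤ) * N := by
    push_cast
    nlinarith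
  refine h4.trans (cH_mono hQ hQ1.le le_rfl (by omega) (by omega) (by omega))

/-- **Russo-Seymour-Welsh**, `0 < Q < 1`. -/
theorem vr (hQ : 0 < Q) (hQ1 : Q < 1) : VR Q := vr_of_easy hQ hQ1.le (easy hQ hQ1)

end Vale.Agent.P167.H366
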