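import Vale.Agent.P167.H366.TA3
import Vale.Agent.P167.H366.Step2

/-!
# P167, `q < 1`: the box lemma, unconditional
-/

set_option autoImplicit false

namespace Vale.Agent.P167.H366

open Vale.Agent.P167.N.NET

/-- **The box lemma** for `0 < Q < 1`. -/
theorem ta_lt {Q : ℝ} (hQ : 0 < Q) (hQ1 : Q < 1) : TA Q :=
  ta hQ hQ1.le (vrs_of hQ hQ1.le (vr hQ hQ1))

end Vale.Agent.P167.H366
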