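import Vale.Agent.P167.H366.Strip

/-!
# P167, v-RSW: the strip `0 ≤ y ≤ n`
-/

set_option autoImplicit false
set_option linter.unusedSectionVars false

namespace Vale.Agent.P167.H366

open Finset Vale.Agent.P167.H623 Vale.Agent.P167.H92 Vale.Agent.P167.H816 Vale.Agent.P167.FK
open Vale.Agent.P167.H262 (Rsq mem_Rsq)

variable {Q : ℝ} {S : Finset (ℤ × ℤ)} {A A' B B' : Set (ℤ × ℤ)} {a b c d a' b' c' d' n : ℤ}

/-! ### Symmetries -/

/-- Reflection in a vertical line. -/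
def rx (r : ℤ) : ℤ × ℤ ≃ ℤ × ℤ where
  toFun p := (r - p.1, p.2)
  invFun p := (r - p.1, p.2)
  left_inv p := by simp
  right_inv p := by simp

/-- Reflection in a horizontal line. -/
def ry (r : ℤ) : ℤ × ℤ ≃ ℤ × ℤ where
  toFun p := (p.1, r - p.2)
  invFun p := (p.1, r - p.2)
  left_inv p := by simp
  right_inv p := by simp

theorem rx_apply (r : ℤ) (p : ℤ × ℤ) : rx r p = (r - p.1, p.2) := rfl

theorem ry_apply (r : ℤ) (p : ℤ × ℤ) : ry r p = (p.1, r - p.2) := rfl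

theorem rx_ends {r : ℤ} (hr : Even r) (e : ℤ × ℤ) :
    (pa (rx (r - 1) e) = rx r (pa e) ∧ pb (rx (r - 1) e) = rx r (pb e)) ∨
    (pa (rx (r - 1) e) = rx r (pb e) ∧ pb (rx (r - 1) e) = rx r (pa e)) := by
  right
  obtain ⟨i, j⟩ := e
  have e1 : rx (r - 1) (i, j) = (r - 1 - i, j) := rfl
  rw [e1, pa_mk, pb_mk, pa_mk, pb_mk]
  have : Even (r - 1 - i + j) ↔ ¬ Even (i + j) := by
    rw [Int.even_iff] at *
    rw [Int.even_iff]
    omega
  by_cases h : Even (i + j)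
  · rw [if_pos h, if_neg fun k => this.1 k h, if_pos h, if_neg fun k => this.1 k h, rx_apply,
      rx_apply]
    refine ⟨?_, ?_⟩ <;> ext <;> simp only <;> ring
  · rw [if_neg h, if_pos (this.2 h), if_neg h, if_pos (this.2 h), rx_apply, rx_apply]
    refine ⟨?_, ?_⟩ <;> ext <;> simp only <;> ring

theorem ry_ends {r : ℤ} (hr : Even r) (e : ℤ × ℤ) :
    (pa (ry (r - 1) e) = ry r (pa e) ∧ pb (ry (r - 1) e) = ry r (pb e)) ∨
    (pa (ry (r - 1) e) = ry r (pb e) ∧ pb (ry (r - 1) e) = ry r (pa e)) := by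
  left
  obtain ⟨i, j⟩ := e
  have e1 : ry (r - 1) (i, j) = (i, r - 1 - j) := rfl
  rw [e1, pa_mk, pb_mk, pa_mk, pb_mk]
  have : Even (i + (r - 1 - j)) ↔ ¬ Even (i + j) := by
    rw [Int.even_iff] at *
    rw [Int.even_iff]
    omega
  by_cases h : Even (i + j)
  · rw [if_pos h, if_neg fun k => this.1 k h, if_pos h, if_neg fun k => this.1 k h, ry_apply,
      ry_apply]
    refine ⟨?_, ?_⟩ <;> ext <;> simp only <;> ring
  · rw [if_neg h, if_pos (this.2 h), if_neg h, if_pos (this.2 h), ry_apply, ry_apply]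
    refine ⟨?_, ?_⟩ <;> ext <;> simp only <;> ring

/-- Invariance of the crossing probabilities. -/
theorem M_map (hQ : 0 < Q) (τ σ : ℤ × ℤ ≃ ℤ × ℤ)
    (he : ∀ e, (pa (τ e) = σ (pa e) ∧ pb (τ e) = σ (pb e)) ∨
      (pa (τ e) = σ (pb e) ∧ pb (τ e) = σ (pa e)))
    (hD : ∀ e, τ e ∈ Rsq a' b' c' d' ↔ e ∈ Rsq a b c d)
    (hY : ∀ x, σ x ∈ Yo a' b' c' d' ↔ x ∈ Yo a b c d) (hA : ∀ x, σ x ∈ A' ↔ x ∈ A)
    (hB : ∀ x, σ x ∈ B' ↔ x ∈ B) : M Q a' b' c' d' A' B' = M Q a b c d A B := by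
  have h1 : Rsq a' b' c' d' = (Rsq a b c d).map τ.toEmbedding := by
    ext v
    rw [mem_map_equiv, ← hD, Equiv.apply_symm_apply]
  rw [M, M, m_eq_mm hQ, m_eq_mm hQ, h1]
  exact mm_symm hQ (pow_pos hQ 2) τ σ (fun e _ => he e) hY hA hB

/-! ### The strip -/

theorem mem_TI {p : ℤ × ℤ} {m u v : ℤ} :
    p ∈ TI m u v ↔ p.2 = m ∧ u ≤ p.1 ∧ p.1 ≤ v ∧ Even (p.1 + p.2) := Iff.rfl

/-- The sites outside of the open strip. -/
def Ho (n : ℤ) : Set (ℤ × ℤ) := {p | p.2 ≤ 0 ∨ n ≤ p.2}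

theorem Ho_Yo : Ho n ⊆ Yo a b 0 n := fun _ h => Or.inr (Or.inr h)

theorem TI_top {u v : ℤ} : TI n u v ⊆ Ho n := fun _ h => Or.inr h.1.ge

theorem TI_bot {u v : ℤ} : TI 0 u v ⊆ Ho n := fun _ h => Or.inl h.1.le

/-- Crossing probabilities of the strip. -/
def G (Q : ℝ) (n : ℤ) (x : ℝ) (A B : Set (ℤ × ℤ)) : Prop := ∃ a b, x ≤ M Q a b 0 n A B

theorem G.box {x : ℝ} (h : G Q n x A B) (hQ : 0 < Q) (hQ1 : Q ≤ 1) (hA : A ⊆ Ho n) :
    ∃ L : ℤ, 0 ≤ L ∧ ∀ a b, a ≤ -L → L ≤ b → x ≤ M Q a b 0 n A B := by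
  obtain ⟨a, b, h⟩ := h
  refine ⟨|a| + |b|, by positivity, fun a' b' h1 h2 => h.trans ?_⟩
  have k1 := neg_abs_le a
  have k2 := le_abs_self b
  have k3 := abs_nonneg a
  have k4 := abs_nonneg b
  exact M_mono hQ hQ1 (by omega) (by omega) le_rfl le_rfl (hA.trans Ho_Yo)

theorem G.symm {x : ℝ} (h : G Q n x A B) (hQ : 0 < Q) : G Q n x B A := by
  obtain ⟨a, b, h⟩ := h
  exact ⟨a, b, by rwa [M_symm hQ]⟩

theorem G.mono {x y : ℝ} (h : G Q n x A B) (hxy : y ≤ x) : G Q n y A B := by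
  obtain ⟨a, b, h⟩ := h
  exact ⟨a, b, hxy.trans h⟩

theorem G.mono_sets {x : ℝ} (h : G Q n x A B) (hQ : 0 < Q) (hA : A ⊆ A') (hB : B ⊆ B') :
    G Q n x A' B' := by
  obtain ⟨a, b, h⟩ := h
  exact ⟨a, b, h.trans (M_mono_sets hQ hA hB)⟩

variable {p u v p' u' v' t r : ℤ}

theorem G.shift {x : ℝ} (h : G Q n x (TI p u v) (TI p' u' v')) (hQ : 0 < Q) (ht : Even t) :
    G Q n x (TI p (u + t) (v + t)) (TI p' (u' + t) (v' + t)) := by
  obtain ⟨a, b, h⟩ := h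
  have h0 : Even ((t, (0 : ℤ)).1 + (t, (0 : ℤ)).2) := by simpa using ht
  refine ⟨a + t, b + t, h.trans_eq (Eq.symm ?_)⟩
  rw [Int.even_iff] at ht
  refine M_map hQ (tr (t, 0)) (tr (t, 0)) (fun e => tr_ends h0 e) (fun e => ?_) (fun x => ?_)
    (fun x => ?_) fun x => ?_
  · rw [mem_Rsq, mem_Rsq, tr_apply]; simp only; omega
  · simp only [Yo, Set.mem_ofPred_eq, tr_apply]; omega
  · rw [mem_TI, mem_TI, Int.even_iff, Int.even_iff, tr_apply]; simp only; omega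
  · rw [mem_TI, mem_TI, Int.even_iff, Int.even_iff, tr_apply]; simp only; omega

theorem G.refl {x : ℝ} (h : G Q n x (TI p u v) (TI p' u' v')) (hQ : 0 < Q) (hr : Even r) :
    G Q n x (TI p (r - v) (r - u)) (TI p' (r - v') (r - u')) := by
  obtain ⟨a, b, h⟩ := h
  refine ⟨r - b, r - a, h.trans_eq (Eq.symm ?_)⟩
  have hr' := Int.even_iff.1 hr
  refine M_map hQ (rx (r - 1)) (rx r) (fun e => rx_ends hr e) (fun e => ?_) (fun x => ?_)
    (fun x => ?_) fun x => ?_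
  · rw [mem_Rsq, mem_Rsq, rx_apply]; simp only; omega
  · simp only [Yo, Set.mem_ofPred_eq, rx_apply]; omega
  · rw [mem_TI, mem_TI, Int.even_iff, Int.even_iff, rx_apply]; simp only; omega
  · rw [mem_TI, mem_TI, Int.even_iff, Int.even_iff, rx_apply]; simp only; omega

theorem G.flip {x : ℝ} (h : G Q n x (TI p u v) (TI p' u' v')) (hQ : 0 < Q) (hn : Even n) :
    G Q n x (TI (n - p) u v) (TI (n - p') u' v') := by
  obtain ⟨a, b, h⟩ := h
  refine ⟨a, b, h.trans_eq (Eq.symm ?_)⟩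
  have hn' := Int.even_iff.1 hn
  refine M_map hQ (ry (n - 1)) (ry n) (fun e => ry_ends hn e) (fun e => ?_) (fun x => ?_)
    (fun x => ?_) fun x => ?_
  · rw [mem_Rsq, mem_Rsq, ry_apply]; simp only; omega
  · simp only [Yo, Set.mem_ofPred_eq, ry_apply]; omega
  · rw [mem_TI, mem_TI, Int.even_iff, Int.even_iff, ry_apply]; simp only; omega
  · rw [mem_TI, mem_TI, Int.even_iff, Int.even_iff, ry_apply]; simp only; omega

/-! ### The odd corners next to a site -/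

theorem EC_row {s e : ℤ × ℤ} (h : EC s e) :
    ((da e).1 = 2 * e.1 + 1 - s.1 ∧ (da e).2 = s.2) ∨
      ((db e).1 = 2 * e.1 + 1 - s.1 ∧ (db e).2 = s.2) := by
  obtain ⟨i, j⟩ := e
  rcases h with rfl | rfl
  · rw [pa_mk, da_mk, db_mk]
    by_cases h : Even (i + j)
    · rw [if_pos h, if_pos h, if_pos h]
      exact Or.inr ⟨show i + 1 = 2 * i + 1 - i by ring, rfl⟩
    · rw [if_neg h, if_neg h, if_neg h]
      exact Or.inr ⟨show i + 1 = 2 * i + 1 - i by ring, rfl⟩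
  · rw [pb_mk, da_mk, db_mk]
    by_cases h : Even (i + j)
    · rw [if_pos h, if_pos h, if_pos h]
      exact Or.inl ⟨show i = 2 * i + 1 - (i + 1) by ring, rfl⟩
    · rw [if_neg h, if_neg h, if_neg h]
      exact Or.inl ⟨show i = 2 * i + 1 - (i + 1) by ring, rfl⟩

theorem EC_col {s e : ℤ × ℤ} (h : EC s e) :
    ((da e).1 = s.1 ∧ (da e).2 = 2 * e.2 + 1 - s.2) ∨
      ((db e).1 = s.1 ∧ (db e).2 = 2 * e.2 + 1 - s.2) := by
  obtain ⟨i, j⟩ := e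
  rcases h with rfl | rfl
  · rw [pa_mk, da_mk, db_mk]
    by_cases h : Even (i + j)
    · rw [if_pos h, if_pos h, if_pos h]
      exact Or.inl ⟨rfl, show j + 1 = 2 * j + 1 - j by ring⟩
    · rw [if_neg h, if_neg h, if_neg h]
      exact Or.inl ⟨rfl, show j = 2 * j + 1 - (j + 1) by ring⟩
  · rw [pb_mk, da_mk, db_mk]
    by_cases h : Even (i + j)
    · rw [if_pos h, if_pos h, if_pos h]
      exact Or.inr ⟨rfl, show j = 2 * j + 1 - (j + 1) by ring⟩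
    · rw [if_neg h, if_neg h, if_neg h]
      exact Or.inr ⟨rfl, show j + 1 = 2 * j + 1 - j by ring⟩

theorem OB_row {P : ℤ × ℤ → Prop} {s e : ℤ × ℤ} (h : EC s e) (he : e ∈ Rsq a b 0 n)
    (h0 : 0 ≤ s.2) (hn : s.2 ≤ n)
    (hP : ∀ g : ℤ × ℤ, g.2 = s.2 → (g.1 = s.1 - 1 ∨ g.1 = s.1 + 1) → a ≤ g.1 → g.1 ≤ b → P g) :
    da e ∈ OB a b n P ∨ db e ∈ OB a b n P := by
  have h1 := EC_bd h
  rw [mem_Rsq] at he
  rcases EC_row h with ⟨h2, h3⟩ | ⟨h2, h3⟩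
  · left
    exact ⟨odd_da e, by omega, by omega, by omega, by omega,
      hP _ h3 (by omega) (by omega) (by omega)⟩
  · right
    exact ⟨odd_db e, by omega, by omega, by omega, by omega,
      hP _ h3 (by omega) (by omega) (by omega)⟩

theorem OB_col {P : ℤ × ℤ → Prop} {s e : ℤ × ℤ} (h : EC s e) (he : e ∈ Rsq a b 0 n)
    (h0 : a ≤ s.1) (hn : s.1 ≤ b)
    (hP : ∀ g : ℤ × ℤ, g.1 = s.1 → (g.2 = s.2 - 1 ∨ g.2 = s.2 + 1) → 0 ≤ g.2 → g.2 ≤ n → P g) :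
    da e ∈ OB a b n P ∨ db e ∈ OB a b n P := by
  have h1 := EC_bd h
  rw [mem_Rsq] at he
  rcases EC_col h with ⟨h2, h3⟩ | ⟨h2, h3⟩
  · left
    exact ⟨odd_da e, by omega, by omega, by omega, by omega,
      hP _ h2 (by omega) (by omega) (by omega)⟩
  · right
    exact ⟨odd_db e, by omega, by omega, by omega, by omega,
      hP _ h2 (by omega) (by omega) (by omega)⟩

/-! ### Gluing -/

theorem Quad.swap {D : Finset (ℤ × ℤ)} {A A' B B' : Set (ℤ × ℤ)} (h : Quad D A A' B B') :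
    Quad D A A' B' B := by
  intro S hS
  rw [h S hS]
  refine not_congr ⟨?_, ?_⟩
  · rintro ⟨s, hs, t, ht, k⟩
    exact ⟨t, ht, s, hs, Setoid.symm' _ k⟩
  · rintro ⟨s, hs, t, ht, k⟩
    exact ⟨t, ht, s, hs, Setoid.symm' _ k⟩

theorem G.glueTT (hTT : QuadTT) (hQ : 0 < Q) (hQ1 : Q ≤ 1) (hn : 1 ≤ n)
    {u₁ v₁ u₂ v₂ u₃ v₃ u₄ v₄ : ℤ} (p1 : Even (u₁ + n)) (p2 : Even (v₁ + n)) (p3 : Even (u₃ + n))
    (p4 : Even (v₃ + n)) (h1 : u₁ < v₁) (h12 : v₁ + 2 ≤ u₂) (h23 : v₂ + 2 ≤ u₃) (h3 : u₃ < v₃)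
    (h34 : v₃ + 2 ≤ u₄) {x y : ℝ} (hy : 0 ≤ y)
    (g : G Q n x (TI n u₁ v₁) (TI n u₃ v₃)) (g' : G Q n y (TI n u₂ v₂) (TI n u₄ v₄)) :
    G Q n (x * y) (TI n u₁ v₁) (TI n u₄ v₄) := by
  by_cases h2 : u₂ ≤ v₂
  swap
  · -- empty
    obtain ⟨a, b, k⟩ := g'
    have e : TI n u₂ v₂ = ∅ := by
      ext p
      rw [mem_TI]
      simp only [Set.mem_empty_iff_false, iff_false]
      omega
    rw [e, M_symm hQ, M_empty hQ] at k
    have : y = 0 := le_antisymm k hy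
    refine ⟨a, b, ?_⟩
    rw [this, mul_zero]
    exact M_nonneg hQ
  obtain ⟨L, hL, k⟩ := g.box hQ hQ1 TI_top
  obtain ⟨L', hL', k'⟩ := g'.box hQ hQ1 TI_top
  obtain ⟨a, ha1, ha2, ha3⟩ : ∃ a : ℤ, a ≤ -L ∧ a ≤ -L' ∧ a < u₁ :=
    ⟨min (-L) (min (-L') (u₁ - 1)), by omega, by omega, by omega⟩
  obtain ⟨b, hb1, hb2, hb3⟩ : ∃ b : ℤ, L ≤ b ∧ L' ≤ b ∧ v₃ < b :=
    ⟨max L (max L' (v₃ + 1)), by omega, by omega, by omega⟩
  refine ⟨a, b, ?_⟩
  have hq := hTT a b n u₁ v₁ u₃ v₃ hn p1 p2 p3 p4 ha3 h1 (by omega) h3 hb3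
  refine (mul_le_mul (k a b ha1 hb1) (k' a b ha2 hb2) hy (M_nonneg hQ)).trans ?_
  refine glue hQ hQ1 hq (fan_box a b 0 n) (TI_top.trans Ho_Yo) (TI_top.trans Ho_Yo)
    (TI_top.trans Ho_Yo) (fun s hs => ?_) fun s hs e he hse => ?_
  · rw [mem_TI] at hs
    refine ⟨mem_EvS_box hs.2.2.2 (by omega) (by omega) (by omega) (by omega) (by omega)
      (by omega), fun e he hse => OB_row hse he (by omega) (by omega) fun g h5 h6 h7 h8 => ?_⟩
    have := Int.even_iff.1 hs.2.2.2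
    have := Int.even_iff.1 p2
    have := Int.even_iff.1 p3
    omega
  · rw [mem_TI] at hs
    refine OB_row hse he (by omega) (by omega) fun g h5 h6 h7 h8 => ?_
    omega

/-- Top-bottom crossings give arches. -/
theorem G.arch (hTB : QuadTB) (hQ : 0 < Q) (hQ1 : Q ≤ 1) (hn : 1 ≤ n) (hne : Even n)
    {s α : ℤ} (hs : Even s) (hα : Even α) (h0 : 0 < s) (h1 : s + 2 ≤ α) {x : ℝ} (hx : 0 ≤ x)
    (g : G Q n x (TI n 0 s) (TI 0 α (α + s))) : G Q n (x * x) (TI n 0 s) (TI n α (α + s)) := by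
  have g' := g.flip hQ hne
  rw [sub_self, sub_zero] at g'
  obtain ⟨L, hL, k⟩ := g.box hQ hQ1 TI_top
  obtain ⟨L', hL', k'⟩ := g'.box hQ hQ1 TI_bot
  obtain ⟨a, ha1, ha2, ha3⟩ : ∃ a : ℤ, a ≤ -L ∧ a ≤ -L' ∧ a < 0 :=
    ⟨min (-L) (min (-L') (-1)), by omega, by omega, by omega⟩
  obtain ⟨b, hb1, hb2, hb3⟩ : ∃ b : ℤ, L ≤ b ∧ L' ≤ b ∧ α + s < b :=
    ⟨max L (max L' (α + s + 1)), by omega, by omega, by omega⟩
  refine ⟨a, b, ?_⟩
  have hq := hTB a b n 0 s α (α + s) hn (by rwa [zero_add]) (hs.add hne) hα (hα.add hs) ha3 h0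
    (by omega) (by omega) (by omega) hb3
  refine (mul_le_mul (k a b ha1 hb1) (k' a b ha2 hb2) hx (M_nonneg hQ)).trans ?_
  refine glue hQ hQ1 hq (fan_box a b 0 n) (TI_top.trans Ho_Yo) (TI_bot.trans Ho_Yo)
    (TI_top.trans Ho_Yo) (fun s hs => ?_) fun s hs e he hse => ?_
  · rw [mem_TI] at hs
    refine ⟨mem_EvS_box hs.2.2.2 (by omega) (by omega) (by omega) (by omega) (by omega)
      (by omega), fun e he hse => OB_row hse he (by omega) (by omega) fun g h5 h6 h7 h8 => ?_⟩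
    omega
  · rw [mem_TI] at hs
    refine OB_row hse he (by omega) (by omega) fun g h5 h6 h7 h8 => ?_
    omega

/-- Chains of arches. -/
theorem G.chain (hTT : QuadTT) (hQ : 0 < Q) (hQ1 : Q ≤ 1) (hn : 1 ≤ n) (hne : Even n)
    {s α : ℤ} (hs : Even s) (hα : Even α) (h0 : 4 ≤ s) (h1 : 3 * s ≤ α) {x : ℝ} (hx : 0 ≤ x)
    (g : G Q n x (TI n 0 s) (TI n α (α + s))) (j : ℕ) :
    G Q n (x ^ (j + 1)) (TI n 0 s)
      (TI n (α + j * (α - s - 2)) (α + j * (α - s - 2) + s)) := by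
  induction j with
  | zero => simpa using g
  | succ j ih =>
    set β : ℤ := α + j * (α - s - 2) with hβ
    have hβe : Even β := by
      refine hα.add (Even.mul_left ?_ _)
      exact (hα.sub hs).sub even_two
    have hβ1 : α ≤ β := by
      have : (0 : ℤ) ≤ j * (α - s - 2) := mul_nonneg (Nat.cast_nonneg j) (by omega)
      omega
    have g1 := g.shift hQ (t := β - s - 2) ((hβe.sub hs).sub even_two)
    have g2 := ih.glueTT hTT hQ hQ1 hn (by rwa [zero_add]) (hs.add hne) (hβe.add hne)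
      ((hβe.add hs).add hne) (by omega) (by omega) (by omega) (by omega) (by omega)
      hx g1
    rw [← pow_succ] at g2
    have e1 : α + ((j + 1 : ℕ) : ℤ) * (α - s - 2) = α + (β - s - 2) := by
      rw [hβ]
      push_cast
      ring
    rw [e1]
    rw [show α + (β - s - 2) + s = α + s + (β - s - 2) by ring]
    exact g2

/-- Arches give crossings of long rectangles. -/
theorem G.cross (hQ : 0 < Q) (hQ1 : Q ≤ 1) {s β ℓ : ℤ} (hs : Even s)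
    (h1 : s + ℓ ≤ β) {x : ℝ}
    (g : G Q n x (TI n 0 s) (TI n β (β + s))) : x ≤ cH Q 0 ℓ 0 n := by
  obtain ⟨L, hL, k⟩ := g.box hQ hQ1 TI_top
  obtain ⟨a, ha1, ha2⟩ : ∃ a : ℤ, a ≤ -L ∧ a ≤ s := ⟨min (-L) s, by omega, by omega⟩
  obtain ⟨b, hb1, hb2⟩ : ∃ b : ℤ, L ≤ b ∧ s + ℓ ≤ b := ⟨max L (s + ℓ), by omega, by omega⟩
  refine (k a b ha1 hb1).trans ?_
  refine (M_left hQ hQ1 (a' := s) (by omega) (TI_top.trans Ho_Yo) (TI_top.trans Ho_Yo)
    fun p hp => ⟨hp.2.2.2, hp.2.2.1⟩).trans ?_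
  refine (M_right hQ hQ1 (b' := s + ℓ) (by omega) (fun p hp => Or.inl hp.2)
    (TI_top.trans Ho_Yo) fun p hp => ⟨hp.2.2.2, h1.trans hp.2.1⟩).trans_eq ?_
  rw [M_eq_cH hQ]
  have h3 := cH_shift (Q := Q) (a := 0) (b := ℓ) (c := 0) (d := n) hQ (t := (s, 0))
    (by simpa using hs)
  simp only [zero_add, add_zero] at h3
  rw [← h3, add_comm s ℓ]

end Vale.Agent.P167.H366
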