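import Vale.Agent.P167.H816.Wire

/-!
# P167, v-RSW: generic facts about the measure `GE` (Markov property with a random set of unexplored
edges, restriction, symmetries)
-/

set_option autoImplicit false
set_option linter.unusedSectionVars false

namespace Vale.Agent.P167.H366

open Finset Vale.Agent.P167.H623 Vale.Agent.P167.H92 Vale.Agent.P167.H816

variable {X ι : Type*} [DecidableEq ι] {a b : ι → X} {w : ι → ℝ} {q : ℝ}

theorem conf_union' (S T : Finset ι) : conf a b (S ∪ T) = conf a b S ⊔ conf a b T := by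
  rw [conf, conf, conf, Finset.sup_union]

theorem con_con (r : Setoid X) (S T : Finset ι) :
    con a b (con a b r S) T = con a b r (S ∪ T) := by
  rw [con, con, con, sup_assoc, conf_union']

/-- Squares whose ends are related by `r` do not change the connections. -/
theorem con_loops {r : Setoid X} {S : Finset ι} (h : ∀ e ∈ S, r (a e) (b e)) :
    con a b r S = r := by
  rw [con, sup_eq_left]
  exact Finset.sup_le fun e he => join_le_iff'.2 (h e he)

theorem conf_iff_con (S : Finset ι) : con a b ⊥ S = conf a b S := by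
  rw [con, bot_sup_eq]

/-! ### Markov property -/

theorem gw_union_rec (hq : q ≠ 0) {D U S : Finset ι} (r : Setoid X) (hU : U ⊆ D)
    (hS : S ⊆ D) (hSU : Disjoint S U) :
    Rec a b w q U (con a b r S) fun T => gw a b w q D r (S ∪ T) := by
  intro T hT e he heT
  have h1 : S ∪ T ⊆ D := union_subset hS (hT.trans hU)
  have h2 : e ∉ S ∪ T := by
    rw [mem_union]
    rintro (h | h)
    · exact disjoint_left.1 hSU h he
    · exact heT h
  have h3 := gw_rec (a := a) (b := b) (w := w) (r := r) hq (S ∪ T) h1 e (hU he) h2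
  beta_reduce
  rw [union_insert, h3, con_con]

theorem gw_sum_eq (hw : ∀ e, 0 < w e) (hq : 0 < q) {D U S : Finset ι} (r : Setoid X)
    (hU : U ⊆ D) (hS : S ⊆ D) (hSU : Disjoint S U) (F : Finset ι → ℝ) :
    ∑ T ∈ U.powerset, gw a b w q D r (S ∪ T) * F T =
      GE a b w q U (con a b r S) F * ∑ T ∈ U.powerset, gw a b w q D r (S ∪ T) := by
  have h1 := (gw_union_rec (a := a) (b := b) (w := w) hq.ne' r hU hS hSU).sum_div hq
    (gw_pos hw hq _).ne' F
  have h2 : 0 < ∑ T ∈ U.powerset, gw a b w q D r (S ∪ T) :=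
    sum_pos (fun _ _ => gw_pos hw hq _) ⟨∅, empty_mem_powerset _⟩
  rw [← h1]
  exact (div_mul_cancel₀ _ h2.ne').symm

/-- **Tower property** for a self-determined set `E S` of unexplored edges. -/
theorem tower (hw : ∀ e, 0 < w e) (hq : 0 < q) {D : Finset ι} (r : Setoid X)
    (E : Finset ι → Finset ι) (hE : ∀ S ⊆ D, E S ⊆ D)
    (hs : ∀ S ⊆ D, ∀ S' ⊆ D, S' \ E S = S \ E S → E S' = E S) (F : Finset ι → ℝ) :
    GE a b w q D r F = GE a b w q D r fun S =>
      GE a b w q (E S) (con a b r (S \ E S)) fun T => F (S \ E S ∪ T) := by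
  rw [GE, GE]
  congr 1
  rw [← sum_fiberwise_of_maps_to (g := fun S => ((E S, S \ E S) : Finset ι × Finset ι))
    (t := D.powerset.image fun S => ((E S, S \ E S) : Finset ι × Finset ι))
    (fun S hS => mem_image_of_mem _ hS),
    ← sum_fiberwise_of_maps_to (g := fun S => ((E S, S \ E S) : Finset ι × Finset ι))
    (t := D.powerset.image fun S => ((E S, S \ E S) : Finset ι × Finset ι))
    (fun S hS => mem_image_of_mem _ hS)
    (f := fun S => gw a b w q D r S * GE a b w q (E S) (con a b r (S \ E S))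
      fun T => F (S \ E S ∪ T))]
  refine sum_congr rfl fun p hp => ?_
  obtain ⟨S0, hS0, rfl⟩ := mem_image.1 hp
  rw [mem_powerset] at hS0
  set U := E S0 with hU
  set V := S0 \ U with hV
  have hUD : U ⊆ D := hE S0 hS0
  have hVD : V ⊆ D := sdiff_subset.trans hS0
  have hVU : Disjoint V U := sdiff_disjoint
  -- the fiber
  have hfib : D.powerset.filter (fun S => ((E S, S \ E S) : Finset ι × Finset ι) = (U, V)) =
      U.powerset.image (fun T => V ∪ T) := by
    ext S
    rw [mem_filter, mem_powerset, mem_image]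
    constructor
    · rintro ⟨hS, h⟩
      rw [Prod.mk.injEq] at h
      obtain ⟨h1, h2⟩ := h
      rw [h1] at h2
      refine ⟨S ∩ U, mem_powerset.2 inter_subset_right, ?_⟩
      rw [← h2]
      exact sdiff_union_inter S U
    · rintro ⟨T, hT, rfl⟩
      rw [mem_powerset] at hT
      have h1 : V ∪ T ⊆ D := union_subset hVD (hT.trans hUD)
      have h2 : (V ∪ T) \ U = V := by
        rw [union_sdiff_distrib, sdiff_eq_self_of_disjoint hVU, sdiff_eq_empty_iff_subset.2 hT,
          union_empty]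
      have h3 : E (V ∪ T) = U := hs S0 hS0 _ h1 h2
      exact ⟨h1, by rw [h3, h2]⟩
  have hinj : Set.InjOn (fun T => V ∪ T) (U.powerset : Set (Finset ι)) := by
    intro T hT T' hT' h
    rw [mem_coe, mem_powerset] at hT hT'
    have h1 : ∀ T ⊆ U, (V ∪ T) ∩ U = T := by
      intro T hT
      rw [union_inter_distrib_right, disjoint_iff_inter_eq_empty.1 hVU, empty_union,
        inter_eq_left.2 hT]
    have h' : V ∪ T = V ∪ T' := h
    rw [← h1 T hT, ← h1 T' hT', h']
  rw [hfib, sum_image hinj, sum_image hinj]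
  have h4 : ∀ T ∈ U.powerset, E (V ∪ T) = U ∧ (V ∪ T) \ U = V := by
    intro T hT
    rw [mem_powerset] at hT
    have h1 : V ∪ T ⊆ D := union_subset hVD (hT.trans hUD)
    have h2 : (V ∪ T) \ U = V := by
      rw [union_sdiff_distrib, sdiff_eq_self_of_disjoint hVU, sdiff_eq_empty_iff_subset.2 hT,
        union_empty]
    exact ⟨hs S0 hS0 _ h1 h2, h2⟩
  have h5 : ∑ T ∈ U.powerset, gw a b w q D r (V ∪ T) *
      GE a b w q (E (V ∪ T)) (con a b r ((V ∪ T) \ E (V ∪ T)))
        (fun T' => F ((V ∪ T) \ E (V ∪ T) ∪ T')) =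
      ∑ T ∈ U.powerset, gw a b w q D r (V ∪ T) *
        GE a b w q U (con a b r V) (fun T' => F (V ∪ T')) := by
    refine sum_congr rfl fun T hT => ?_
    obtain ⟨h1, h2⟩ := h4 T hT
    rw [h1, h2]
  rw [h5, ← sum_mul, mul_comm, ← gw_sum_eq hw hq r hUD hVD hVU]

/-- Lower bounds from lower bounds of the conditional expectations. -/
theorem tower_le (hw : ∀ e, 0 < w e) (hq : 0 < q) {D : Finset ι} (r : Setoid X)
    (E : Finset ι → Finset ι) (hE : ∀ S ⊆ D, E S ⊆ D)
    (hs : ∀ S ⊆ D, ∀ S' ⊆ D, S' \ E S = S \ E S → E S' = E S) {F G : Finset ι → ℝ}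
    (h : ∀ S ⊆ D, G S ≤ GE a b w q (E S) (con a b r (S \ E S)) fun T => F (S \ E S ∪ T)) :
    GE a b w q D r G ≤ GE a b w q D r F := by
  rw [tower hw hq r E hE hs F]
  exact GE_mono (fun e => (hw e).le) hq h

theorem GE_mul_const (c : ℝ) (D : Finset ι) (r : Setoid X) (F : Finset ι → ℝ) :
    GE a b w q D r (fun S => c * F S) = c * GE a b w q D r F := by
  rw [GE, GE, ← mul_div_assoc, mul_sum]
  congr 1
  exact sum_congr rfl fun S _ => by ring

theorem GE_add (D : Finset ι) (r : Setoid X) (F G : Finset ι → ℝ) :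
    GE a b w q D r (fun S => F S + G S) = GE a b w q D r F + GE a b w q D r G := by
  rw [GE, GE, GE, ← add_div, ← sum_add_distrib]
  congr 1
  exact sum_congr rfl fun S _ => by ring

/-- **Restriction**: edges whose ends are identified are irrelevant. -/
theorem GE_restrict (hw : ∀ e, 0 < w e) (hq : 0 < q) {D U : Finset ι} (r : Setoid X)
    (hU : U ⊆ D) (hr : ∀ e ∈ D \ U, r (a e) (b e)) {F : Finset ι → ℝ}
    (hF : ∀ S ⊆ D, F S = F (S ∩ U)) : GE a b w q D r F = GE a b w q U r F := by
  rw [tower hw hq r (fun _ => U) (fun _ _ => hU) (fun _ _ _ _ _ => rfl) F]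
  have h1 : ∀ S ⊆ D, GE a b w q U (con a b r (S \ U)) (fun T => F (S \ U ∪ T)) =
      GE a b w q U r F := by
    intro S hS
    rw [con_loops fun e he => hr e (sdiff_subset_sdiff hS (Subset.refl U) he)]
    refine GE_congr hq (fun _ _ _ _ => Iff.rfl) fun T hT => ?_
    have h2 : (S \ U ∪ T) ∩ U = T := by
      rw [union_inter_distrib_right, disjoint_iff_inter_eq_empty.1 sdiff_disjoint, empty_union,
        inter_eq_left.2 hT]
    rw [hF _ (union_subset (sdiff_subset.trans hS) (hT.trans hU)), h2]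
  rw [GE_congr (F' := fun _ => GE a b w q U r F) hq (fun _ _ _ _ => Iff.rfl) h1]
  exact GE_const (fun e => (hw e).le) hq _

/-! ### Symmetries -/

theorem con_map {κ Z : Type*} [DecidableEq κ] {a' b' : κ → Z} (τ : ι ↪ κ) (σ : X ≃ Z)
    (hab : ∀ e, (a' (τ e) = σ (a e) ∧ b' (τ e) = σ (b e)) ∨
      (a' (τ e) = σ (b e) ∧ b' (τ e) = σ (a e)))
    (r : Setoid Z) (S : Finset ι) (x y : X) :
    con a' b' r (S.map τ) (σ x) (σ y) ↔ con a b (r.comap σ) S x y := by
  induction S using Finset.induction_on generalizing x y with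
  | empty =>
    rw [map_empty, con_empty, con_empty]
    exact Iff.rfl
  | insert e S _ ih =>
    rw [map_insert, con_insert_iff, con_insert_iff]
    rcases hab e with ⟨h1, h2⟩ | ⟨h1, h2⟩
    · rw [h1, h2, ih, ih, ih, ih, ih]
    · rw [h1, h2, ih, ih, ih, ih, ih]
      tauto

/-- Invariance under an isomorphism. -/
theorem GE_map {κ Z : Type*} [DecidableEq κ] {a' b' : κ → Z} {w' : κ → ℝ} (τ : ι ↪ κ)
    (σ : X ≃ Z) (hab : ∀ e, (a' (τ e) = σ (a e) ∧ b' (τ e) = σ (b e)) ∨
      (a' (τ e) = σ (b e) ∧ b' (τ e) = σ (a e))) (hww : ∀ e, w' (τ e) = w e)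
    (hw : ∀ e, 0 < w' e) (hq : 0 < q) (D : Finset ι) (r : Setoid Z) (F : Finset κ → ℝ) :
    GE a' b' w' q (D.map τ) r F = GE a b w q D (r.comap σ) fun S => F (S.map τ) := by
  have h1 : Rec a b w q D (r.comap σ) fun S => gw a' b' w' q (D.map τ) r (S.map τ) := by
    intro S hS e he heS
    have h2 := gw_rec (a := a') (b := b') (w := w') (D := D.map τ) (r := r) hq.ne' (S.map τ)
      (map_subset_map.2 hS) (τ e) (mem_map_of_mem τ he)
      (fun h => heS ((mem_map' τ).1 h))
    beta_reduce
    rw [map_insert, h2, hww]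
    have h3 : con a' b' r (S.map τ) (a' (τ e)) (b' (τ e)) ↔
        con a b (r.comap σ) S (a e) (b e) := by
      rcases hab e with ⟨h1, h2⟩ | ⟨h1, h2⟩
      · rw [h1, h2]
        exact con_map τ σ hab r S _ _
      · rw [h1, h2]
        refine (con_map τ σ hab r S _ _).trans ⟨fun h => Setoid.symm' _ h,
          fun h => Setoid.symm' _ h⟩
    by_cases h4 : con a b (r.comap σ) S (a e) (b e)
    · rw [if_pos h4, if_pos (h3.2 h4)]
    · rw [if_neg h4, if_neg fun h => h4 (h3.1 h)]
  have h2 := h1.sum_div hq (gw_pos hw hq _).ne' fun S => F (S.map τ)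
  rw [← h2, GE]
  have h3 : (D.map τ).powerset = D.powerset.map (mapEmbedding τ).toEmbedding := by
    ext S
    rw [mem_powerset, mem_map]
    constructor
    · intro h
      obtain ⟨T, hT, rfl⟩ := subset_map_iff.1 h
      exact ⟨T, mem_powerset.2 hT, rfl⟩
    · rintro ⟨T, hT, rfl⟩
      exact map_subset_map.2 (mem_powerset.1 hT)
  rw [h3, sum_map, sum_map]
  rfl

end Vale.Agent.P167.H366
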