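import Vale.Agent.P167.H366.Mirror

/-!
# P167, v-RSW: boxes and sides
-/

set_option autoImplicit false
set_option linter.unusedSectionVars false

namespace Vale.Agent.P167.H366

open Finset Vale.Agent.P167.H623 Vale.Agent.P167.H92 Vale.Agent.P167.H816 Vale.Agent.P167.FK
open Vale.Agent.P167.H262 (Rsq mem_Rsq)

/-- The even sites of the line `y = n` between `u` and `v`. -/
def TI (n u v : ℤ) : Set (ℤ × ℤ) := {p | p.2 = n ∧ u ≤ p.1 ∧ p.1 ≤ v ∧ Even (p.1 + p.2)}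

/-- The even sites of the line `x = b`, `0 ≤ y ≤ n`. -/
def RI (n b : ℤ) : Set (ℤ × ℤ) := {p | p.1 = b ∧ 0 ≤ p.2 ∧ p.2 ≤ n ∧ Even (p.1 + p.2)}

/-- The odd sites of the box `[a, b] × [0, n]` with the property `P`. -/
def OB (a b n : ℤ) (P : ℤ × ℤ → Prop) : Set (ℤ × ℤ) :=
  {p | Odd (p.1 + p.2) ∧ a ≤ p.1 ∧ p.1 ≤ b ∧ 0 ≤ p.2 ∧ p.2 ≤ n ∧ P p}

/-- Two intervals of the top side. -/
def QuadTT : Prop := ∀ a b n u₁ v₁ u₃ v₃ : ℤ, 1 ≤ n → Even (u₁ + n) → Even (v₁ + n) →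
  Even (u₃ + n) → Even (v₃ + n) → a < u₁ → u₁ < v₁ → v₁ < u₃ → u₃ < v₃ → v₃ < b →
  Quad (Rsq a b 0 n) (TI n u₁ v₁) (TI n u₃ v₃) (OB a b n fun p => p.2 = n ∧ v₁ < p.1 ∧ p.1 < u₃)
    (OB a b n fun p => (p.2 = n ∧ (p.1 < u₁ ∨ v₃ < p.1)) ∨ p.1 = a ∨ p.1 = b ∨ p.2 = 0)

/-- An interval of the top side and an interval of the bottom side. -/
def QuadTB : Prop := ∀ a b n u v u' v' : ℤ, 1 ≤ n → Even (u + n) → Even (v + n) →
  Even u' → Even v' → a < u → u < v → v < b → a < u' → u' < v' → v' < b →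
  Quad (Rsq a b 0 n) (TI n u v) (TI 0 u' v')
    (OB a b n fun p => p.1 = a ∨ (p.2 = n ∧ p.1 < u) ∨ (p.2 = 0 ∧ p.1 < u'))
    (OB a b n fun p => p.1 = b ∨ (p.2 = n ∧ v < p.1) ∨ (p.2 = 0 ∧ v' < p.1))

/-- An interval of the top side and the right side. -/
def QuadTR : Prop := ∀ a b n u v : ℤ, 1 ≤ n → Even (u + n) → Even (v + n) →
  a < u → u < v → v < b →
  Quad (Rsq a b 0 n) (TI n u v) (RI n b) (OB a b n fun p => p.2 = n ∧ v < p.1)
    (OB a b n fun p => (p.2 = n ∧ p.1 < u) ∨ p.1 = a ∨ p.2 = 0)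

/-- The squares of a box around a site are linked. -/
theorem fan_box (a b c d : ℤ) : Fan (Rsq a b c d) := by
  classical
  intro s e he hse f hf hsf
  -- the squares around `s`
  have hsq : ∀ g, EC s g → (g.1 = s.1 ∨ g.1 = s.1 - 1) ∧ (g.2 = s.2 ∨ g.2 = s.2 - 1) := by
    intro g hg
    rcases hg with rfl | rfl
    · have h1 : (pa g).1 = g.1 := by simp only [pa]; split_ifs <;> rfl
      have h2 : (pa g).2 = g.2 ∨ (pa g).2 = g.2 + 1 := by
        simp only [pa]; split_ifs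
        · left; rfl
        · right; rfl
      omega
    · have h1 : (pb g).1 = g.1 + 1 := by simp only [pb]; split_ifs <;> rfl
      have h2 : (pb g).2 = g.2 ∨ (pb g).2 = g.2 + 1 := by
        simp only [pb]; split_ifs
        · right; rfl
        · left; rfl
      omega
  have hev : Even (s.1 + s.2) := by
    rcases hse with rfl | rfl
    · exact even_pa e
    · exact even_pb e
  have hEC : ∀ g : ℤ × ℤ, (g.1 = s.1 ∨ g.1 = s.1 - 1) → (g.2 = s.2 ∨ g.2 = s.2 - 1) → EC s g := by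
    rintro ⟨g1, g2⟩ h1 h2
    simp only at h1 h2
    obtain ⟨k, hk⟩ := hev
    by_cases hp : Even (g1 + g2)
    · have h3 : (g1 = s.1 ∧ g2 = s.2) ∨ (g1 = s.1 - 1 ∧ g2 = s.2 - 1) := by
        obtain ⟨l, hl⟩ := hp
        omega
      rcases h3 with ⟨h3, h4⟩ | ⟨h3, h4⟩
      · left
        simp only [pa, if_pos hp]
        exact Prod.ext h3 h4
      · right
        simp only [pb, if_pos hp]
        exact Prod.ext (by simp only; omega) (by simp only; omega)
    · have hp' := Int.not_even_iff_odd.1 hp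
      have h3 : (g1 = s.1 ∧ g2 = s.2 - 1) ∨ (g1 = s.1 - 1 ∧ g2 = s.2) := by
        obtain ⟨l, hl⟩ := hp'
        omega
      rcases h3 with ⟨h3, h4⟩ | ⟨h3, h4⟩
      · left
        simp only [pa, if_neg hp]
        exact Prod.ext h3 (by simp only; omega)
      · right
        simp only [pb, if_neg hp]
        exact Prod.ext (by simp only; omega) (by simp only; omega)
  set G := (Rsq a b c d).filter (EC s) with hG
  have hmem : ∀ g : ℤ × ℤ, g ∈ Rsq a b c d → (g.1 = s.1 ∨ g.1 = s.1 - 1) →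
      (g.2 = s.2 ∨ g.2 = s.2 - 1) → conf da db G (da g) (db g) := by
    intro g hg h1 h2
    exact cf_edge' da db (mem_filter.2 ⟨hg, hEC g h1 h2⟩)
  have he' := hsq e hse
  have hf' := hsq f hsf
  have hgoal : ∀ g h : ℤ × ℤ, g ∈ Rsq a b c d → h ∈ Rsq a b c d →
      (g.1 = s.1 ∨ g.1 = s.1 - 1) → (g.2 = s.2 ∨ g.2 = s.2 - 1) →
      (h.1 = s.1 ∨ h.1 = s.1 - 1) → (h.2 = s.2 ∨ h.2 = s.2 - 1) →
      (g.1 = h.1 ∨ g.2 = h.2) → conf da db G (da g) (da h) := by
    rintro ⟨g1, g2⟩ ⟨h1, h2⟩ hg hh k1 k2 k3 k4 k5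
    have hgg := hmem _ hg k1 k2
    have hhh := hmem _ hh k3 k4
    simp only at k1 k2 k3 k4 k5
    -- the common odd corner
    have hc : da (g1, g2) = da (h1, h2) ∨ da (g1, g2) = db (h1, h2) ∨
        db (g1, g2) = da (h1, h2) ∨ db (g1, g2) = db (h1, h2) := by
      obtain ⟨k, hk⟩ := hev
      by_cases hp : Even (g1 + g2) <;> by_cases hp' : Even (h1 + h2)
      · simp only [da, db, if_pos hp, if_pos hp', Prod.mk.injEq]
        obtain ⟨l, hl⟩ := hp
        obtain ⟨l', hl'⟩ := hp'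
        omega
      · simp only [da, db, if_pos hp, if_neg hp', Prod.mk.injEq]
        obtain ⟨l, hl⟩ := hp
        obtain ⟨l', hl'⟩ := Int.not_even_iff_odd.1 hp'
        omega
      · simp only [da, db, if_neg hp, if_pos hp', Prod.mk.injEq]
        obtain ⟨l, hl⟩ := Int.not_even_iff_odd.1 hp
        obtain ⟨l', hl'⟩ := hp'
        omega
      · simp only [da, db, if_neg hp, if_neg hp', Prod.mk.injEq]
        obtain ⟨l, hl⟩ := Int.not_even_iff_odd.1 hp
        obtain ⟨l', hl'⟩ := Int.not_even_iff_odd.1 hp'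
        omega
    rcases hc with hc | hc | hc | hc
    · rw [hc]
    · rw [hc]; exact Setoid.symm' _ hhh
    · rw [← hc]; exact hgg
    · refine Setoid.trans' _ hgg ?_
      rw [hc]; exact Setoid.symm' _ hhh
  by_cases h : e.1 = f.1 ∨ e.2 = f.2
  · exact hgoal e f he hf he'.1 he'.2 hf'.1 hf'.2 h
  · push Not at h
    have hg : ((e.1, f.2) : ℤ × ℤ) ∈ Rsq a b c d := by
      rw [mem_Rsq] at he hf ⊢
      simp only
      omega
    exact Setoid.trans' _
      (hgoal e (e.1, f.2) he hg he'.1 he'.2 he'.1 hf'.2 (Or.inl rfl))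
      (hgoal (e.1, f.2) f hg hf he'.1 hf'.2 hf'.1 hf'.2 (Or.inr rfl))

end Vale.Agent.P167.H366
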