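import Vale.Agent.P167.H366.Box
import Vale.Agent.P167.H640.Pl

/-!
# P167, v-RSW: planar duality of a box, two intervals of the top side
-/

set_option autoImplicit false
set_option linter.unusedSectionVars false

namespace Vale.Agent.P167.H366

open Finset Vale.Agent.P167.H623 Vale.Agent.P167.H92 Vale.Agent.P167.H816 Vale.Agent.P167.FK
open Vale.Agent.P167.H262 (Rsq mem_Rsq)
open Vale.Agent.P167.H640.Pl

theorem quadTT : QuadTT := by
  intro a b n u₁ v₁ u₃ v₃ hn hu1 hv1 hu3 hv3 h1 h2 h3 h4 h5 S hS
  set A := TI n u₁ v₁ with hA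
  set A' := TI n u₃ v₃ with hA'
  set B := OB a b n (fun p => p.2 = n ∧ v₁ < p.1 ∧ p.1 < u₃) with hB
  set B' := OB a b n (fun p => (p.2 = n ∧ (p.1 < u₁ ∨ v₃ < p.1)) ∨ p.1 = a ∨ p.1 = b ∨ p.2 = 0)
    with hB'
  constructor
  · -- not both
    rintro ⟨α, hα, α', hα', hc⟩ ⟨β, hβ, β', hβ', hd⟩
    obtain ⟨hα2, hα1, hα1', hαe⟩ := hα
    obtain ⟨hα2', hα3, hα3', hαe'⟩ := hα'
    obtain ⟨ε, e1, e2⟩ := exists_chain hc
    set E : ℤ × ℤ → ZMod 2 := fun p => (ε p + upR α p) + upR α' p with hE
    have hεD : ∀ m y, (m < a ∨ b ≤ m ∨ y < 0 ∨ n ≤ y) → ε (m, y) = 0 := fun m y h => by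
      apply e1
      intro h'
      have h'' := hS h'
      rw [mem_Rsq] at h''
      simp only at h''
      omega
    have hL : ∀ m y, m < a → E (m, y) = 0 := fun m y h => by
      simp only [hE, upR]
      rw [hεD m y (by omega), if_neg (by omega), if_neg (by omega)]
      decide
    have hbd : ∀ s : ℤ × ℤ, Even (s.1 + s.2) → bd E s = 0 := fun s hs => by
      rw [hE, bd_add, bd_add, e2 s hs, bd_upR hαe hs, bd_upR hαe' hs]
      linear_combination z2 (H640.Pl.dl α s) + z2 (H640.Pl.dl α' s)
    have hT : ∀ e ∈ Rsq a b 0 n \ S, E e = 0 := fun e he => by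
      rw [mem_sdiff, mem_Rsq] at he
      simp only [hE, upR]
      rw [e1 e he.2, if_neg (by omega), if_neg (by omega)]
      decide
    have hN := NN_const hL hbd hT hd
    have hval : ∀ x y, NN a E (x, y) = (NN a ε (x, y) + if α.1 < x ∧ α.2 ≤ y then 1 else 0) +
        if α'.1 < x ∧ α'.2 ≤ y then 1 else 0 := fun x y => by
      rw [hE, NN_add, NN_add, NN_upR (by omega), NN_upR (by omega)]
    have hrow : ∀ x y, (y < 0 ∨ n ≤ y) → NN a ε (x, y) = 0 := fun x y h =>
      NN_zero_row (fun m => hεD m y (by omega)) x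
    have hbot : ∀ x, Odd (x + 0) → NN a E (x, 0) = NN a E (x, -1) := fun x hx => by
      have := NN_up hL hbd (x := x) (y := -1) (by rw [Int.odd_iff] at hx; rw [Int.even_iff]; omega)
      simpa using this
    have hβ0 : NN a E β = 1 := by
      obtain ⟨x, y⟩ := β
      obtain ⟨k1, k2, k3, k4, k5, rfl, k6, k7⟩ := hβ
      simp only at k1 k2 k3 k4 k5 k6 k7
      rw [hval, hrow _ _ (by omega), if_pos (by omega), if_neg (by omega)]
      decide
    have hβ1 : NN a E β' = 0 := by
      obtain ⟨x, y⟩ := β'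
      obtain ⟨k1, k2, k3, k4, k5, k6⟩ := hβ'
      simp only at k1 k2 k3 k4 k5 k6
      rcases k6 with ⟨rfl, k6 | k6⟩ | rfl | rfl | rfl
      · rw [hval, hrow _ _ (by omega), if_neg (by omega), if_neg (by omega)]
        decide
      · rw [hval, hrow _ _ (by omega), if_pos (by omega), if_pos (by omega)]
        decide
      · exact NN_left le_rfl y
      · have hb : ∀ y, E (x, y) = 0 := fun y => by
          simp only [hE, upR]
          rw [hεD x y (by omega), if_neg (by omega), if_neg (by omega)]
          decide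
        rw [NN_col hL hbd hb y n, hval, hrow _ _ (by omega), if_pos (by omega),
          if_pos (by omega)]
        decide
      · rw [hbot x k1, hval, hrow _ _ (by omega), if_neg (by omega), if_neg (by omega)]
        decide
    rw [hβ0, hβ1] at hN
    exact absurd hN (by decide)
  · -- at least one
    intro hnd
    by_contra hnj
    set f := fC (Rsq a b 0 n) S A B with hf
    have hst := stokes (f := f) (a := a) (b := b) (c := 0) (d := n) (by omega) (by omega)
      fun v hv => fC_sq hv
    -- the top side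
    have t1 : ∑ x ∈ Ico a u₁, f (x, n) * f (x + 1, n) = 0 :=
      side_o0 (φ := fun x => f (x, n)) (t := n) fun x hx hx' ho => by
        rcases eq_or_lt_of_le hx' with rfl | hlt
        · rw [Int.odd_iff] at ho; rw [Int.even_iff] at hu1; omega
        · exact fC_B' hnd ⟨ho, by simp only; omega, by simp only; omega, by simp only; omega,
            by simp only; omega, Or.inl ⟨rfl, Or.inl hlt⟩⟩ ho
    have t2 : ∑ x ∈ Ico u₁ v₁, f (x, n) * f (x + 1, n) = 0 :=
      side_e1 (φ := fun x => f (x, n)) (t := n) (by omega) hu1 hv1 fun x hx hx' he =>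
        fC_A ⟨rfl, hx, hx', he⟩ he
    have t3 : ∑ x ∈ Ico v₁ u₃, f (x, n) * f (x + 1, n) =
        (if Even (v₁ + n) then f (v₁, n) else 0) + (if Even (u₃ + n) then f (u₃, n) else 0) :=
      side_o1 (φ := fun x => f (x, n)) (t := n) (by omega) fun x hx hx' ho => by
        rcases eq_or_lt_of_le hx with rfl | hlt
        · rw [Int.odd_iff] at ho; rw [Int.even_iff] at hv1; omega
        · rcases eq_or_lt_of_le hx' with rfl | hlt'
          · rw [Int.odd_iff] at ho; rw [Int.even_iff] at hu3; omega
          · exact fC_B ⟨ho, by simp only; omega, by simp only; omega, by simp only; omega,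
              by simp only; omega, rfl, hlt, hlt'⟩ ho
    have t4 : ∑ x ∈ Ico u₃ v₃, f (x, n) * f (x + 1, n) = 0 :=
      side_e0 (φ := fun x => f (x, n)) (t := n) fun x hx hx' he =>
        fC_A' hnj ⟨rfl, hx, hx', he⟩ he
    have t5 : ∑ x ∈ Ico v₃ b, f (x, n) * f (x + 1, n) = 0 :=
      side_o0 (φ := fun x => f (x, n)) (t := n) fun x hx hx' ho => by
        rcases eq_or_lt_of_le hx with rfl | hlt
        · rw [Int.odd_iff] at ho; rw [Int.even_iff] at hv3; omega
        · exact fC_B' hnd ⟨ho, by simp only; omega, by simp only; omega, by simp only; omega,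
            by simp only; omega, Or.inl ⟨rfl, Or.inr hlt⟩⟩ ho
    -- the bottom side
    have b0 : ∑ x ∈ Ico a b, f (x, 0) * f (x + 1, 0) = 0 :=
      side_o0 (φ := fun x => f (x, 0)) (t := 0) fun x hx hx' ho =>
        fC_B' hnd ⟨ho, by simp only; omega, by simp only; omega, by simp only; omega,
            by simp only; omega, Or.inr (Or.inr (Or.inr rfl))⟩ ho
    -- the left and the right side
    have l1 : ∑ y ∈ Ico 0 n, f (a, y) * f (a, y + 1) = 0 :=
      side_o0 (φ := fun y => f (a, y)) (t := a) fun y hy hy' ho => by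
        rw [add_comm] at ho
        exact fC_B' hnd ⟨ho, by simp only; omega, by simp only; omega, by simp only; omega,
            by simp only; omega, Or.inr (Or.inl rfl)⟩ ho
    have r1 : ∑ y ∈ Ico 0 n, f (b, y) * f (b, y + 1) = 0 :=
      side_o0 (φ := fun y => f (b, y)) (t := b) fun y hy hy' ho => by
        rw [add_comm] at ho
        exact fC_B' hnd ⟨ho, by simp only; omega, by simp only; omega, by simp only; omega,
            by simp only; omega, Or.inr (Or.inr (Or.inl rfl))⟩ ho
    have t0 := sum_split (fun x => f (x, n) * f (x + 1, n)) (show a ≤ u₁ by omega)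
      (show u₁ ≤ b by omega)
    rw [sum_split (fun x => f (x, n) * f (x + 1, n)) (show u₁ ≤ v₁ by omega)
      (show v₁ ≤ b by omega), sum_split (fun x => f (x, n) * f (x + 1, n))
      (show v₁ ≤ u₃ by omega) (show u₃ ≤ b by omega),
      sum_split (fun x => f (x, n) * f (x + 1, n)) (show u₃ ≤ v₃ by omega)
      (show v₃ ≤ b by omega), t1, t2, t3, t4, t5] at t0
    rw [t0, b0, l1, r1] at hst
    have c1 : f (v₁, n) = 1 := fC_A ⟨rfl, by simp only; omega, le_rfl, hv1⟩ hv1
    have c2 : f (u₃, n) = 0 := fC_A' hnj ⟨rfl, le_rfl, by simp only; omega, hu3⟩ hu3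
    rw [if_pos hv1, if_pos hu3, c1, c2] at hst
    exact absurd hst (by decide)

end Vale.Agent.P167.H366
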