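import Vale.Agent.P167.H366.Tube
import Vale.Agent.P167.H366.QTB
import Vale.Agent.P167.H366.QTR
import Vale.Agent.P167.H366.QTT

/-!
# P167, v-RSW: from the easy crossings to all the rectangles
-/

set_option autoImplicit false
set_option linter.unusedSectionVars false

namespace Vale.Agent.P167.H366

open Finset Vale.Agent.P167.H623 Vale.Agent.P167.H92 Vale.Agent.P167.H816 Vale.Agent.P167.FK
open Vale.Agent.P167.H262 (Rsq mem_Rsq CI)
open Vale.Agent.P145.FB (PStep PConn)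
open Relation (ReflTransGen)

variable {Q : ℝ} {a b c d n : ℤ}

/-- 816's reduction, from `cH`. -/
theorem vr_of_cH (hQ : 0 < Q) (hQ1 : Q ≤ 1) (h : ∀ k : ℕ, ∃ c : ℝ, 0 < c ∧ ∃ n₀ : ℤ,
    ∀ n : ℤ, n₀ ≤ n → c ≤ cH Q 0 (k * n) 0 n) : VR Q := by
  -- all `n`
  have h1 : ∀ k : ℕ, ∃ c : ℝ, 0 < c ∧ ∀ n : ℤ, 1 ≤ n → c ≤ cH Q 0 (k * n) 0 n := by
    intro k
    obtain ⟨c, hc, n₀, h0⟩ := h k
    refine ⟨min c (cH Q 0 (k * |n₀|) 0 1), lt_min hc
      (cH_pos hQ (by positivity) one_pos), fun n hn => ?_⟩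
    rcases le_total n₀ n with h2 | h2
    · exact (min_le_left _ _).trans (h0 n h2)
    · refine (min_le_right _ _).trans (cH_mono hQ hQ1 le_rfl ?_ le_rfl hn)
      exact mul_le_mul_of_nonneg_left (h2.trans (le_abs_self n₀)) (by positivity)
  -- all positions
  have h2 : ∀ k : ℕ, ∃ c : ℝ, 0 < c ∧ ∀ n x y : ℤ, 1 ≤ n →
      c ≤ cH Q x (x + k * n) y (y + n) := by
    intro k
    obtain ⟨c, hc, h0⟩ := h1 (k + 1)
    refine ⟨c, hc, fun n x y hn => (h0 n hn).trans ?_⟩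
    by_cases hxy : Even (x + y)
    · have h3 := cH_shift (Q := Q) (a := 0) (b := k * n) (c := 0) (d := n) hQ (t := (x, y)) hxy
      simp only [zero_add] at h3
      rw [add_comm x, add_comm y, h3]
      exact cH_mono hQ hQ1 le_rfl (by push_cast; nlinarith) le_rfl le_rfl
    · have h3 := cH_shift (Q := Q) (a := 0) (b := (k + 1 : ℕ) * n) (c := 0) (d := n) hQ
        (t := (x - 1, y)) (by
          rw [Int.even_iff] at *
          simp only
          omega)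
      simp only [zero_add] at h3
      rw [← h3]
      refine cH_mono hQ hQ1 (by omega) ?_ le_rfl (by omega)
      push_cast
      nlinarith
  intro k
  obtain ⟨c, hc, h0⟩ := h2 k
  refine ⟨c, hc, fun n x y hn => ⟨h0 n x y hn, ?_, ?_, ?_⟩⟩
  · rw [cV_eq hQ]
    exact h0 n y x hn
  · rw [dH_eq hQ]
    have := h0 n (x + 1) y hn
    rwa [show x + 1 + k * n = x + k * n + 1 by ring] at this
  · rw [dV_eq hQ, cV_eq hQ]
    have := h0 n y (x + 1) hn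
    rwa [show x + 1 + n = x + n + 1 by ring] at this

theorem M_ends (hQ : 0 < Q) (hn : 0 < n) :
    M Q a b 0 n (Dn 0) (Up n) ≤ M Q a b 0 n (TI n a b) (TI 0 a b) := by
  rw [M_symm hQ (A := TI n a b)]
  refine mu_mono hQ fun S hS => ?_
  rintro ⟨s, hs, t, ht, h⟩
  have hne : s ≠ t := by
    rintro rfl
    have := hs.2
    have := ht.2
    omega
  have h1 := EvS_box (EvS_mono hS (mem_EvS_of_conf h hne))
  have h2 := EvS_box (EvS_mono hS (mem_EvS_of_conf (Setoid.symm' _ h) hne.symm))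
  have := hs.2
  have := ht.2
  exact ⟨s, ⟨by omega, by omega, by omega, hs.1⟩, t, ⟨by omega, by omega, by omega, ht.1⟩, h⟩

/-- **Russo-Seymour-Welsh**: easy crossings with everything outside identified imply all the
crossings. -/
theorem vr_of_easy (hQ : 0 < Q) (hQ1 : Q ≤ 1)
    (h : ∃ κ : ℝ, 0 < κ ∧ ∃ (K₀ : ℕ) (n₀ : ℤ), ∀ n : ℤ, n₀ ≤ n →
      κ ≤ cV Q (-(K₀ * n)) (K₀ * n) 0 n) : VR Q := by
  obtain ⟨κ, hκ, K₀, n₀, h⟩ := h
  refine vr_of_cH hQ hQ1 (cross_of quadTT quadTB quadTR hQ hQ1 (K := 20 * (K₀ + 1)) (by omega) hκ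
    (s₀ := |n₀|) fun s n hs h4 hse hn => ?_)
  have hn₀ : n₀ ≤ n := by
    have := le_abs_self n₀
    omega
  have h1 := h n hn₀
  have h2 : (K₀ : ℤ) * n ≤ ((20 * (K₀ + 1) : ℕ) : ℤ) * s := by
    push_cast
    rw [hn]
    nlinarith
  refine (h1.trans (cV_mono hQ hQ1 (neg_le_neg h2) h2 le_rfl le_rfl)).trans ?_
  rw [← M_eq_cV hQ]
  exact M_ends hQ (by omega)

/-- The form of the easy crossings with paths. -/
theorem vr_of_paths (hQ : 0 < Q) (hQ1 : Q ≤ 1)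
    (h : ∃ κ : ℝ, 0 < κ ∧ ∃ (K₀ : ℕ) (n₀ : ℤ), ∀ n : ℤ, n₀ ≤ n →
      κ ≤ Pr Q (Rsq (-(K₀ * n)) (K₀ * n) 0 n) eta1
        {ω | ∃ u v, u.2 = 0 ∧ v.2 = n ∧ (u.1 + u.2) % 2 = 0 ∧
          PConn (op ω) (Vale.Agent.P153.Topo.Rect (-(K₀ * n)) (K₀ * n) 0 n) u v}) : VR Q := by
  obtain ⟨κ, hκ, K₀, n₀, h⟩ := h
  refine vr_of_easy hQ hQ1 ⟨κ, hκ, K₀, n₀, fun n hn => (h n hn).trans
    (FKA.Pr_mono hQ ?_)⟩
  rintro ω ⟨u, v, hu, hv, hp, h3⟩
  have h4 := h3.parity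
  refine ⟨u, ⟨?_, hu.le⟩, v, ⟨?_, hv.ge⟩, (H262.rtg_rect h3.left_mem).2 h3⟩
  · rw [Int.even_iff]; exact hp
  · rw [Int.even_iff]; omega

end Vale.Agent.P167.H366
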