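import Vale.Agent.P167.H366.Quad

/-!
# P167, v-RSW: gluing

`m Q D Y A B`: the probability that `A` and `B` are joined by open squares of `D`, all the sites of `Y`
being wired together (paths may touch `Y`).
-/

set_option autoImplicit false
set_option linter.unusedSectionVars false

namespace Vale.Agent.P167.H366

open Finset Vale.Agent.P167.H623 Vale.Agent.P167.H92 Vale.Agent.P167.H816 Vale.Agent.P167.FK

variable {Q : ℝ} {D S S' : Finset (ℤ × ℤ)} {A A' B B' Y : Set (ℤ × ℤ)}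

/-- The measure with exterior relation `r`. -/
noncomputable def mu (Q : ℝ) (D : Finset (ℤ × ℤ)) (r : Setoid (ℤ × ℤ))
    (P : Finset (ℤ × ℤ) → Prop) : ℝ :=
  GP pa pb (fun _ => Q) (Q ^ 2) D r P

/-- The crossing probability, `Y` wired. -/
noncomputable def m (Q : ℝ) (D : Finset (ℤ × ℤ)) (Y A B : Set (ℤ × ℤ)) : ℝ :=
  mu Q D (wir Y) fun S => J S A B

theorem mu_nonneg (hQ : 0 < Q) {r : Setoid (ℤ × ℤ)} (P : Finset (ℤ × ℤ) → Prop) :
    0 ≤ mu Q D r P := GP_nonneg pa pb D (fun _ => hQ.le) (pow_pos hQ 2) P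

theorem mu_mono (hQ : 0 < Q) {r : Setoid (ℤ × ℤ)} {P P' : Finset (ℤ × ℤ) → Prop}
    (h : ∀ S ⊆ D, P S → P' S) : mu Q D r P ≤ mu Q D r P' :=
  GP_mono pa pb D (fun _ => hQ.le) (pow_pos hQ 2) h

theorem mu_not (hQ : 0 < Q) {r : Setoid (ℤ × ℤ)} (P : Finset (ℤ × ℤ) → Prop) :
    mu Q D r (fun S => ¬ P S) = 1 - mu Q D r P := by
  classical
  rw [mu, mu, GP, GP, eq_sub_iff_add_eq, ← GE_add]
  refine Eq.trans ?_ (GE_const (a := pa) (b := pb) (D := D) (r := r) (w := fun _ => Q)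
    (fun _ => hQ.le) (pow_pos hQ 2) 1)
  refine GE_congr (pow_pos hQ 2) (fun _ _ _ _ => Iff.rfl) fun S _ => ?_
  by_cases h : P S
  · rw [if_pos h, if_neg (not_not.2 h), zero_add]
  · rw [if_neg h, if_pos h, add_zero]

theorem mu_le_one (hQ : 0 < Q) {r : Setoid (ℤ × ℤ)} (P : Finset (ℤ × ℤ) → Prop) :
    mu Q D r P ≤ 1 := by
  have h := mu_nonneg (D := D) hQ (r := r) fun S => ¬ P S
  rw [mu_not hQ] at h
  linarith

theorem mu_congr (hQ : 0 < Q) {r r' : Setoid (ℤ × ℤ)} {P P' : Finset (ℤ × ℤ) → Prop}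
    (h : ∀ x ∈ EvS D, ∀ y ∈ EvS D, (r x y ↔ r' x y)) (hP : ∀ S ⊆ D, (P S ↔ P' S)) :
    mu Q D r P = mu Q D r' P' := by
  refine GP_congr pa pb D (pow_pos hQ 2) (fun x hx y hy => ?_) hP
  rw [mem_ends] at hx hy
  obtain ⟨e, he, hx⟩ := hx
  obtain ⟨f, hf, hy⟩ := hy
  exact h x ⟨e, he, hx.imp Eq.symm Eq.symm⟩ y ⟨f, hf, hy.imp Eq.symm Eq.symm⟩

theorem mu_union_le (hQ : 0 < Q) {r : Setoid (ℤ × ℤ)} {P P' P'' : Finset (ℤ × ℤ) → Prop}
    (h : ∀ S ⊆ D, P S → P' S ∨ P'' S) : mu Q D r P ≤ mu Q D r P' + mu Q D r P'' := by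
  classical
  rw [mu, mu, mu, GP, GP, GP, ← GE_add]
  refine GE_mono (fun _ => hQ.le) (pow_pos hQ 2) fun S hS => ?_
  by_cases h1 : P S
  · rw [if_pos h1]
    rcases h S hS h1 with h2 | h2
    · rw [if_pos h2]
      split_ifs <;> norm_num
    · rw [if_pos h2]
      split_ifs <;> norm_num
  · rw [if_neg h1]
    split_ifs <;> norm_num

/-- Restriction to a subset. -/
theorem mu_restrict (hQ : 0 < Q) {U : Finset (ℤ × ℤ)} {r : Setoid (ℤ × ℤ)}
    {P : Finset (ℤ × ℤ) → Prop} (hU : U ⊆ D) (hr : ∀ e ∈ D \ U, r (pa e) (pb e))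
    (hP : ∀ S ⊆ D, (P S ↔ P (S ∩ U))) : mu Q D r P = mu Q U r P := by
  classical
  refine GE_restrict (fun _ => hQ) (pow_pos hQ 2) r hU hr fun S hS => ?_
  by_cases h : P S
  · rw [if_pos h, if_pos ((hP S hS).1 h)]
  · rw [if_neg h, if_neg fun h' => h ((hP S hS).2 h')]

theorem sep_iff {T W : Set (ℤ × ℤ)} : Sep pa pb ⊥ T W S ↔ ¬ J S W T := by
  constructor
  · rintro h ⟨x, hx, t, ht, h'⟩
    refine h t ht x hx ?_
    rw [conf_iff_con]
    exact Setoid.symm' _ h'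
  · intro h t ht x hx h'
    rw [conf_iff_con] at h'
    exact h ⟨x, hx, t, ht, Setoid.symm' _ h'⟩

/-- **T1 with wired target and bystanders.** -/
theorem m_grow (hQ : 0 < Q) (hQ1 : Q ≤ 1) (hA : A ⊆ Y) (hB : B ⊆ Y) (h : A ⊆ A') :
    m Q D Y A B ≤ m Q D (Y ∪ A') A' B := by
  have h1 := t1_by pa pb D (w := fun _ => Q) (fun _ => hQ.le) (pow_pos hQ 2)
    (pow_le_one₀ hQ.le hQ1) ⊥ B Y h
  rw [bot_sup_eq, bot_sup_eq] at h1
  have e1 : A ∪ B ∪ Y = Y := by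
    rw [Set.union_eq_right]
    exact Set.union_subset hA hB
  have e2 : A' ∪ B ∪ Y = Y ∪ A' := by
    rw [Set.union_assoc, Set.union_eq_right.2 hB, Set.union_comm]
  rw [e1, e2] at h1
  have h2 := mu_not (D := D) (r := wir Y) hQ fun S => J S A B
  have h3 := mu_not (D := D) (r := wir (Y ∪ A')) hQ fun S => J S A' B
  have h4 : mu Q D (wir Y) (fun S => ¬ J S A B) =
      GP pa pb (fun _ => Q) (Q ^ 2) D (wir Y) (Sep pa pb ⊥ B A) :=
    mu_congr hQ (fun _ _ _ _ => Iff.rfl) fun S _ => sep_iff.symm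
  have h5 : mu Q D (wir (Y ∪ A')) (fun S => ¬ J S A' B) =
      GP pa pb (fun _ => Q) (Q ^ 2) D (wir (Y ∪ A')) (Sep pa pb ⊥ B A') :=
    mu_congr hQ (fun _ _ _ _ => Iff.rfl) fun S _ => sep_iff.symm
  rw [m, m]
  linarith

theorem J_symm : J S A B ↔ J S B A := ⟨J.symm, J.symm⟩

theorem m_symm (hQ : 0 < Q) : m Q D Y A B = m Q D Y B A :=
  mu_congr hQ (fun _ _ _ _ => Iff.rfl) fun _ _ => J_symm

theorem m_mono_sets (hQ : 0 < Q) (hA : A ⊆ A') (hB : B ⊆ B') : m Q D Y A B ≤ m Q D Y A' B' :=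
  mu_mono hQ fun _ _ h => h.mono_sets hA hB

/-- A path which starts in `A` meets `X` before it leaves `U`. -/
theorem J_inter {U : Finset (ℤ × ℤ)} {X : Set (ℤ × ℤ)} (hX : EvS (D \ U) ⊆ X) (hS : S ⊆ D) :
    J S A X ↔ J (S ∩ U) A X := by
  refine ⟨?_, fun h => h.mono inter_subset_left⟩
  rintro ⟨s, hs, x, hx, h⟩
  by_contra hn
  let C : Set (ℤ × ℤ) := {y | ∃ s ∈ A, conf pa pb (S ∩ U) s y}
  have hCX : ∀ y ∈ C, y ∉ X := fun y ⟨s, hs, h1⟩ h2 => hn ⟨s, hs, y, h2, h1⟩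
  have hC : ∀ e ∈ S, (pa e ∈ C ↔ pb e ∈ C) := by
    intro e he
    by_cases heU : e ∈ U
    · have h1 : conf pa pb (S ∩ U) (pa e) (pb e) := cf_edge' pa pb (mem_inter.2 ⟨he, heU⟩)
      constructor
      · rintro ⟨s, hs, h2⟩
        exact ⟨s, hs, Setoid.trans' _ h2 h1⟩
      · rintro ⟨s, hs, h2⟩
        exact ⟨s, hs, Setoid.trans' _ h2 (Setoid.symm' _ h1)⟩
    · have h1 : e ∈ D \ U := mem_sdiff.2 ⟨hS he, heU⟩
      exact ⟨fun h2 => absurd (hX (mem_EvS_pa h1)) (hCX _ h2),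
        fun h2 => absurd (hX (mem_EvS_pb h1)) (hCX _ h2)⟩
  have h1 : s ∈ C := ⟨s, hs, Setoid.refl' _ s⟩
  exact hCX x ((conf_mem_closed hC h).1 h1) hx

/-- Growing `A` by all the corners of the squares outside of `U`. -/
theorem m_restrict (hQ : 0 < Q) {U : Finset (ℤ × ℤ)} {X : Set (ℤ × ℤ)} (hU : U ⊆ D)
    (hX : EvS (D \ U) ⊆ X) (hXY : X ⊆ Y) : m Q D Y A X = m Q U Y A X := by
  refine mu_restrict hQ hU (fun e he => Or.inr ⟨hXY (hX (mem_EvS_pa he)),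
    hXY (hX (mem_EvS_pb he))⟩) fun S hS => ?_
  exact J_inter hX hS

open Classical in
/-- The unexplored region. -/
noncomputable def EE (D : Finset (ℤ × ℤ)) (B B' : Set (ℤ × ℤ)) (S : Finset (ℤ × ℤ)) :
    Finset (ℤ × ℤ) :=
  if Disjoint (KK D B S) B' then UU D B' (KK D B S) else ∅

theorem EE_sub : EE D B B' S ⊆ D := by
  classical
  rw [EE]
  split_ifs
  · exact UU_sub _ _ _
  · exact empty_subset _

theorem EE_self (h : S' \ EE D B B' S = S \ EE D B B' S) : EE D B B' S' = EE D B B' S := by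
  classical
  by_cases hK : Disjoint (KK D B S) B'
  · have h1 : EE D B B' S = UU D B' (KK D B S) := by rw [EE, if_pos hK]
    rw [h1] at h ⊢
    have h2 := KK_of_sdiff hK h
    rw [EE, h2, if_pos hK]
  · have h1 : EE D B B' S = ∅ := by rw [EE, if_neg hK]
    rw [h1, sdiff_empty, sdiff_empty] at h
    rw [h]

theorem GP_pull (hQ : 0 < Q) {r : Setoid (ℤ × ℤ)} (P : Finset (ℤ × ℤ) → Prop) (c : ℝ)
    (F : Finset (ℤ × ℤ) → ℝ) (hF : ∀ S ⊆ D, P S → F S = c) (hF' : ∀ S ⊆ D, ¬ P S → F S = 0) :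
    GE pa pb (fun _ => Q) (Q ^ 2) D r F = c * mu Q D r P := by
  classical
  rw [mu, GP, ← GE_mul_const]
  refine GE_congr (pow_pos hQ 2) (fun _ _ _ _ => Iff.rfl) fun S hS => ?_
  by_cases h : P S
  · rw [if_pos h, hF S hS h, mul_one]
  · rw [if_neg h, hF' S hS h, mul_zero]

variable {A₁ A₂ A₃ A₄ : Set (ℤ × ℤ)}

/-- **Gluing.** `A₁, A₂, A₃, A₄` in cyclic order. -/
theorem glue (hQ : 0 < Q) (hQ1 : Q ≤ 1) (hq : Quad D A₁ A₃ B B') (hF : Fan D) (h1 : A₁ ⊆ Y)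
    (h2 : A₂ ⊆ Y) (h4 : A₄ ⊆ Y)
    (k2 : ∀ s ∈ A₂, s ∈ EvS D ∧ ∀ e ∈ D, EC s e → da e ∈ B ∨ db e ∈ B)
    (k4 : ∀ s ∈ A₄, ∀ e ∈ D, EC s e → da e ∈ B' ∨ db e ∈ B') :
    m Q D Y A₁ A₃ * m Q D Y A₂ A₄ ≤ m Q D Y A₁ A₄ := by
  classical
  have h0 : m Q D Y A₂ A₄ * m Q D Y A₁ A₃ = GE pa pb (fun _ => Q) (Q ^ 2) D (wir Y)
      (fun S => if J S A₁ A₃ then m Q D Y A₂ A₄ else 0) := by
    rw [m, m]
    exact (GP_pull hQ (fun S => J S A₁ A₃) _ _ (fun S _ h => if_pos h)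
      (fun S _ h => if_neg h)).symm
  rw [mul_comm, h0, m, mu, GP]
  refine tower_le (fun _ => hQ) (pow_pos hQ 2) (wir Y) (EE D B B') (fun _ _ => EE_sub)
    (fun S _ S' _ h => EE_self h) fun S hS => ?_
  split_ifs with hJ
  swap
  · exact mu_nonneg (D := EE D B B' S) hQ
      (fun T => J (S \ EE D B B' S ∪ T) A₁ A₄)
  have hK : Disjoint (KK D B S) B' := disj_of_not_Jd ((hq S hS).1 hJ)
  have hE : EE D B B' S = UU D B' (KK D B S) := by rw [EE, if_pos hK]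
  rw [hE]
  set K := KK D B S with hKdef
  set U := UU D B' K with hU
  have hUD : U ⊆ D := UU_sub _ _ _
  set X := EvS (D \ U) with hX
  have hKM := Set.disjoint_left.1 (MM_disj (D := D) hK)
  -- the contact sites
  have hcut : ∀ x ∈ X, (x ∈ EvS U ∨ x ∈ A₄) → ∃ s ∈ A₁, conf pa pb (S \ U) x s := by
    intro x hx h
    obtain ⟨e, he, hxe⟩ : ∃ e, Cut D B' K e ∧ EC x e := by
      rcases h with h | h
      · exact hF.cut h hx
      · obtain ⟨e, he, hxe⟩ := hx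
        rw [mem_sdiff] at he
        refine ⟨e, cut_of he.1 he.2 ?_, hxe⟩
        exact (k4 x h e he.1 hxe).imp (fun k => sub_MM k) (fun k => sub_MM k)
    exact cut_site hq hS hK he hxe
  -- A₂ is outside of the unexplored region
  have hA2 : A₂ ⊆ X := by
    intro s hs
    obtain ⟨⟨e, he, hse⟩, k⟩ := k2 s hs
    refine ⟨e, mem_sdiff.2 ⟨he, fun h => ?_⟩, hse⟩
    have h' := mem_UU.1 h
    rcases k e he hse with k | k
    · exact hKM (sub_KK k) h'.2.1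
    · exact hKM (sub_KK k) h'.2.2
  have s1 : m Q D Y A₂ A₄ ≤ m Q D (Y ∪ X) X A₄ := m_grow hQ hQ1 h2 h4 hA2
  have s2 : m Q D (Y ∪ X) X A₄ = m Q U (Y ∪ X) A₄ X := by
    rw [m_symm hQ]
    exact m_restrict hQ hUD (subset_refl _) Set.subset_union_right
  refine (s1.trans_eq s2).trans ?_
  -- comparison of the relations
  have s3 : m Q U (Y ∪ X) A₄ X = mu Q U (con pa pb (wir Y) (S \ U)) (fun T => J T A₄ X) := by
    refine mu_congr hQ (fun x hx y hy => ?_) (fun _ _ => Iff.rfl)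
    constructor
    · rintro (h | ⟨h, h'⟩)
      · rw [h]
      · have key : ∀ z ∈ EvS U, z ∈ Y ∪ X → ∃ v ∈ Y, con pa pb (wir Y) (S \ U) z v := by
          rintro z hz (hz' | hz')
          · exact ⟨z, hz', Setoid.refl' _ z⟩
          · obtain ⟨s, hs, h1'⟩ := hcut z hz' (Or.inl hz)
            have h3 : conf pa pb (S \ U) ≤ con pa pb (wir Y) (S \ U) := le_sup_right
            exact ⟨s, h1 hs, h3 h1'⟩
        obtain ⟨v, hv, hxv⟩ := key x hx h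
        obtain ⟨v', hv', hyv'⟩ := key y hy h'
        have h3 : wir Y ≤ con pa pb (wir Y) (S \ U) := le_con pa pb _ _
        exact Setoid.trans' _ hxv (Setoid.trans' _ (h3 (Or.inr ⟨hv, hv'⟩))
          (Setoid.symm' _ hyv'))
    · have h3 : con pa pb (wir Y) (S \ U) ≤ wir (Y ∪ X) := by
        rw [con]
        refine sup_le ?_ (conf_le' fun e he => ?_)
        · rintro u v (h | ⟨h, h'⟩)
          · exact Or.inl h
          · exact Or.inr ⟨Or.inl h, Or.inl h'⟩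
        · have h4 : e ∈ D \ U := sdiff_subset_sdiff hS (Subset.refl U) he
          exact Or.inr ⟨Or.inr (mem_EvS_pa h4), Or.inr (mem_EvS_pb h4)⟩
      exact fun h => h3 h
  rw [s3]
  refine mu_mono hQ fun T hT => ?_
  rintro ⟨α, hα, x, hx, h⟩
  have hx' : x ∈ EvS U ∨ x ∈ A₄ := by
    by_cases h3 : x ∈ EvS U
    · exact Or.inl h3
    · right
      have h5 : x = α := conf_eq_of_notMem (fun e he => ?_) (Setoid.symm' _ h)
      · rw [h5]; exact hα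
      · exact ⟨fun h6 => h3 ⟨e, hT he, Or.inl h6⟩, fun h6 => h3 ⟨e, hT he, Or.inr h6⟩⟩
  obtain ⟨s, hs, h3⟩ := hcut x hx hx'
  exact ⟨s, hs, α, hα, Setoid.trans' _
    (Setoid.symm' _ (conf_mono'' subset_union_left h3))
    (Setoid.symm' _ (conf_mono'' subset_union_right h))⟩

end Vale.Agent.P167.H366
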