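import Vale.Agent.P167.H366.Glue
import Vale.Agent.P167.H262.R0

/-!
# P167, v-RSW: the mirror step
-/

set_option autoImplicit false
set_option linter.unusedSectionVars false

namespace Vale.Agent.P167.H366

open Finset Vale.Agent.P167.H623 Vale.Agent.P167.H92 Vale.Agent.P167.H816 Vale.Agent.P167.FK

variable {Q : ℝ} {D S S' : Finset (ℤ × ℤ)} {A A' B B' Y Z : Set (ℤ × ℤ)}

theorem m_eq_mm (hQ : 0 < Q) : m Q D Z A B = H262.mm pa pb (fun _ => Q) (Q ^ 2) D Z A B := by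
  refine mu_congr hQ (fun _ _ _ _ => Iff.rfl) fun S _ => ?_
  rw [sep_iff, not_not, J_symm]

/-- **Theorem W**: the wiring of everything is the worst exterior relation. -/
theorem m_le_mu (hQ : 0 < Q) (hQ1 : Q ≤ 1) {r : Setoid (ℤ × ℤ)} (hr : r ≤ wir Z) (hA : A ⊆ Z) :
    m Q D Z A B ≤ mu Q D r fun S => J S A B := by
  rw [m_eq_mm hQ]
  refine (H262.mm_le pa pb D (fun _ => hQ) (pow_pos hQ 2) (pow_le_one₀ hQ.le hQ1) B hr hA).trans_eq
    ?_
  refine mu_congr hQ (fun _ _ _ _ => Iff.rfl) fun S _ => ?_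
  rw [sep_iff, not_not, J_symm]

theorem con_le_wir {Z : Set (ℤ × ℤ)} (hY : Y ⊆ Z) (hS : EvS S ⊆ Z) :
    con pa pb (wir Y) S ≤ wir Z := by
  rw [con]
  refine sup_le ?_ (conf_le' fun e he => Or.inr ⟨hS (mem_EvS_pa he), hS (mem_EvS_pb he)⟩)
  rintro u v (h | ⟨h, h'⟩)
  · exact Or.inl h
  · exact Or.inr ⟨hY h, hY h'⟩

/-- Crossings of a subset, all the other squares being immune. -/
theorem m_inner (hQ : 0 < Q) (hQ1 : Q ≤ 1) {T : Finset (ℤ × ℤ)} (hT : T ⊆ D) (hY : Y ⊆ Z)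
    (hZ : EvS (D \ T) ⊆ Z) (hA : A ⊆ Z) :
    m Q T Z A B ≤ mu Q D (wir Y) fun S => J (S ∩ T) A B := by
  classical
  have h0 : m Q T Z A B = GE pa pb (fun _ => Q) (Q ^ 2) D (wir Y) (fun _ => m Q T Z A B) :=
    (GE_const (fun _ => hQ.le) (pow_pos hQ 2) _).symm
  rw [h0, mu, GP]
  refine tower_le (fun _ => hQ) (pow_pos hQ 2) (wir Y) (fun _ => T) (fun _ _ => hT)
    (fun _ _ _ _ _ => rfl) fun S hS => ?_
  have h1 : con pa pb (wir Y) (S \ T) ≤ wir Z :=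
    con_le_wir hY ((EvS_mono (sdiff_subset_sdiff hS (Subset.refl T))).trans hZ)
  refine (m_le_mu hQ hQ1 h1 hA).trans ?_
  refine mu_mono hQ fun S' hS' h => h.mono ?_
  exact subset_inter subset_union_right hS'

/-- An involution of the squares and of the sites. -/
structure Inv (τ σ : (ℤ × ℤ) ≃ (ℤ × ℤ)) : Prop where
  tt : ∀ e, τ (τ e) = e
  ss : ∀ x, σ (σ x) = x
  ab : ∀ e, (pa (τ e) = σ (pa e) ∧ pb (τ e) = σ (pb e)) ∨
    (pa (τ e) = σ (pb e) ∧ pb (τ e) = σ (pa e))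

variable {τ σ : (ℤ × ℤ) ≃ (ℤ × ℤ)}

theorem Inv.EC (h : Inv τ σ) {x e : ℤ × ℤ} (hx : EC x e) : EC (σ x) (τ e) := by
  rcases hx with rfl | rfl <;> rcases h.ab e with ⟨h1, h2⟩ | ⟨h1, h2⟩
  · exact Or.inl h1
  · exact Or.inr h2
  · exact Or.inr h2
  · exact Or.inl h1

theorem mem_map_inv (h : Inv τ σ) {e : ℤ × ℤ} : e ∈ D.map τ.toEmbedding ↔ τ e ∈ D := by
  rw [mem_map]
  constructor
  · rintro ⟨f, hf, rfl⟩
    have : τ (τ f) = f := h.tt f
    show τ (τ f) ∈ D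
    rw [this]; exact hf
  · intro h'
    exact ⟨τ e, h', h.tt e⟩

theorem conf_map (h : Inv τ σ) (S : Finset (ℤ × ℤ)) (x y : ℤ × ℤ) :
    conf pa pb (S.map τ.toEmbedding) (σ x) (σ y) ↔ conf pa pb S x y := by
  have h1 := con_map (a := pa) (b := pb) (a' := pa) (b' := pb) τ.toEmbedding σ h.ab ⊥ S x y
  rw [conf_iff_con] at h1
  rw [h1]
  have h2 : (⊥ : Setoid (ℤ × ℤ)).comap σ = ⊥ := by
    ext u v
    exact ⟨fun k => σ.injective k, fun k => congrArg σ k⟩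
  rw [h2, conf_iff_con]

/-- Invariance of the crossing probability under an involution. -/
theorem m_inv (hQ : 0 < Q) (h : Inv τ σ) (hD : D.map τ.toEmbedding = D)
    (hZ : ∀ x ∈ Z, σ x ∈ Z) (hA : ∀ x ∈ A, σ x ∈ A) :
    m Q D Z A (σ ⁻¹' B) = m Q D Z A B := by
  classical
  have h1 := GE_map (a := pa) (b := pb) (a' := pa) (b' := pb) (w := fun _ => Q) (w' := fun _ => Q)
    (q := Q ^ 2) τ.toEmbedding σ h.ab (fun _ => rfl) (fun _ => hQ) (pow_pos hQ 2) D (wir Z)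
    (fun S => if J S A B then 1 else 0)
  rw [hD] at h1
  rw [m, m, mu, mu, GP, GP, h1]
  refine GE_congr (pow_pos hQ 2) (fun x _ y _ => ?_) fun S _ => ?_
  · constructor
    · rintro (h2 | ⟨h2, h3⟩)
      · exact Or.inl (congrArg σ h2)
      · exact Or.inr ⟨hZ _ h2, hZ _ h3⟩
    · rintro (h2 | ⟨h2, h3⟩)
      · exact Or.inl (σ.injective h2)
      · have e1 := hZ _ h2
        have e2 := hZ _ h3
        rw [h.ss] at e1 e2
        exact Or.inr ⟨e1, e2⟩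
  · have h2 : J S A (σ ⁻¹' B) ↔ J (S.map τ.toEmbedding) A B := by
      constructor
      · rintro ⟨s, hs, t, ht, h3⟩
        exact ⟨σ s, hA s hs, σ t, ht, (conf_map h S s t).2 h3⟩
      · rintro ⟨s, hs, t, ht, h3⟩
        refine ⟨σ s, hA s hs, σ t, ?_, (conf_map h S _ _).1 ?_⟩
        · show σ (σ t) ∈ B
          rw [h.ss]; exact ht
        · rw [h.ss, h.ss]; exact h3
    by_cases h3 : J S A (σ ⁻¹' B)
    · rw [if_pos h3, if_pos (h2.1 h3)]
    · rw [if_neg h3, if_neg fun h4 => h3 (h2.2 h4)]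

theorem EE_inter_sub {L : Finset (ℤ × ℤ)} : EE L B B' S ⊆ L := EE_sub

variable {I I' J' ℓ : Set (ℤ × ℤ)} {L R : Finset (ℤ × ℤ)}

/-- **The mirror step.** -/
theorem mirror (hQ : 0 < Q) (hQ1 : Q ≤ 1) (hi : Inv τ σ) (hD : D = L ∪ R) (hLR : Disjoint L R)
    (hR : ∀ e, e ∈ R ↔ τ e ∈ L) (hq : Quad L I ℓ B B') (hF : Fan L)
    (hY : ∀ x ∈ Y, σ x ∈ Y) (hI' : I' ⊆ Y) (hJ : J' ⊆ Y)
    (hJσ : ∀ x ∈ J', σ x ∈ J') (hIσ : ∀ x ∈ I', σ x ∈ I')
    (hmid : ∀ s, s ∈ EvS L → s ∈ EvS R → σ s = s)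
    (k2 : ∀ s ∈ I', s ∈ EvS D ∧ ∀ e ∈ L, EC s e → da e ∈ B ∨ db e ∈ B)
    (k4 : ∀ s ∈ J', ∀ e ∈ L, EC s e → da e ∈ B' ∨ db e ∈ B') :
    mu Q D (wir Y) (fun S => J (S ∩ L) I ℓ) * m Q D Y I' J' ≤ 2 * m Q D Y I J' := by
  classical
  have hLD : L ⊆ D := hD ▸ subset_union_left
  have hRD : R ⊆ D := hD ▸ subset_union_right
  have h0 : m Q D Y I' J' * mu Q D (wir Y) (fun S => J (S ∩ L) I ℓ) =
      GE pa pb (fun _ => Q) (Q ^ 2) D (wir Y)
        (fun S => if J (S ∩ L) I ℓ then m Q D Y I' J' else 0) :=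
    (GP_pull hQ (fun S => J (S ∩ L) I ℓ) _ _ (fun S _ h => if_pos h) (fun S _ h => if_neg h)).symm
  have h00 : 2 * m Q D Y I J' = GE pa pb (fun _ => Q) (Q ^ 2) D (wir Y)
      (fun S => 2 * if J S I J' then 1 else 0) := by
    rw [GE_mul_const]
    rfl
  rw [mul_comm, h0, h00]
  refine tower_le (fun _ => hQ) (pow_pos hQ 2) (wir Y) (fun S => EE L B B' (S ∩ L) ∪ R)
    (fun S _ => union_subset (EE_sub.trans hLD) hRD) (fun S hS S' hS' h => ?_) fun S hS => ?_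
  · have h1 : (S' ∩ L) \ EE L B B' (S ∩ L) = (S ∩ L) \ EE L B B' (S ∩ L) := by
      ext e
      have h2 : e ∈ S' \ (EE L B B' (S ∩ L) ∪ R) ↔ e ∈ S \ (EE L B B' (S ∩ L) ∪ R) := by rw [h]
      rw [mem_sdiff, mem_sdiff, mem_union] at h2
      rw [mem_sdiff, mem_sdiff, mem_inter, mem_inter]
      have h3 : e ∈ L → e ∉ R := fun h4 h5 => disjoint_left.1 hLR h4 h5
      tauto
    rw [EE_self h1]
  beta_reduce
  rw [GE_mul_const]
  split_ifs with hJL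
  swap
  · refine mul_nonneg (by norm_num) ?_
    exact mu_nonneg (D := EE L B B' (S ∩ L) ∪ R) hQ
      (fun T => J (S \ (EE L B B' (S ∩ L) ∪ R) ∪ T) I J')
  have hSL : S ∩ L ⊆ L := inter_subset_right
  have hK : Disjoint (KK L B (S ∩ L)) B' := disj_of_not_Jd ((hq _ hSL).1 hJL)
  have hE : EE L B B' (S ∩ L) = UU L B' (KK L B (S ∩ L)) := by rw [EE, if_pos hK]
  rw [hE]
  set K := KK L B (S ∩ L) with hKdef
  set U := UU L B' K with hU
  have hUL : U ⊆ L := UU_sub _ _ _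
  have hKM := Set.disjoint_left.1 (MM_disj (D := L) hK)
  have hV : S \ (U ∪ R) = (S ∩ L) \ U := by
    ext e
    have h1 : e ∈ S → e ∈ L ∨ e ∈ R := fun h => mem_union.1 (hD ▸ hS h)
    have h3 : e ∈ L → e ∉ R := fun h4 h5 => disjoint_left.1 hLR h4 h5
    rw [mem_sdiff, mem_sdiff, mem_inter, mem_union]
    tauto
  rw [hV]
  set V := (S ∩ L) \ U with hVdef
  have hVL : V ⊆ L := sdiff_subset.trans inter_subset_right
  -- the symmetric region
  set W := U ∪ U.map τ.toEmbedding with hW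
  have hUR : ∀ e, e ∈ U.map τ.toEmbedding → e ∈ R := fun e he => by
    rw [mem_map_inv hi] at he
    exact (hR e).2 (hUL he)
  have hWD : W ⊆ D := union_subset (hUL.trans hLD) fun e he => hRD (hUR e he)
  have hWUR : W ⊆ U ∪ R := union_subset subset_union_left fun e he =>
    mem_union_right _ (hUR e he)
  have hURD : U ∪ R ⊆ D := union_subset (hUL.trans hLD) hRD
  have hWW : W.map τ.toEmbedding = W := by
    ext e
    rw [mem_map_inv hi, hW, mem_union, mem_union, mem_map_inv hi, mem_map_inv hi, hi.tt]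
    tauto
  have hDτ : ∀ e, e ∈ D → τ e ∈ D := by
    intro e he
    rw [hD, mem_union] at he ⊢
    rcases he with he | he
    · right
      rw [hR, hi.tt]
      exact he
    · left
      exact (hR e).1 he
  have hWτ : ∀ e, e ∈ W → τ e ∈ W := fun e he => by
    rw [← mem_map_inv hi, hWW]; exact he
  have hWτ' : ∀ e, e ∉ W → τ e ∉ W := fun e he h => he (by
    have := hWτ _ h
    rwa [hi.tt] at this)
  set X := EvS (D \ W) with hX
  have hXσ : ∀ x ∈ X, σ x ∈ X := by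
    rintro x ⟨e, he, hx⟩
    rw [mem_sdiff] at he
    exact ⟨τ e, mem_sdiff.2 ⟨hDτ e he.1, hWτ' e he.2⟩, hi.EC hx⟩
  have hYσ : ∀ x ∈ Y ∪ X, σ x ∈ Y ∪ X := fun x hx => hx.imp (hY x) (hXσ x)
  set Γ : Set (ℤ × ℤ) := {x | ∃ e, Cut L B' K e ∧ EC x e} with hΓ
  -- the contact sites
  have hcut : ∀ x ∈ Γ, ∃ s ∈ I, conf pa pb V x s := by
    rintro x ⟨e, he, hxe⟩
    exact cut_site hq hSL hK he hxe
  -- squares of `L \ U`
  have hLU : ∀ x e, e ∈ L → e ∉ U → EC x e → (x ∈ EvS W ∨ x ∈ J') → x ∈ Γ := by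
    intro x e heL heU hxe hx
    by_cases hxU : x ∈ EvS U
    · exact hF.cut hxU ⟨e, mem_sdiff.2 ⟨heL, heU⟩, hxe⟩
    rcases hx with ⟨f, hf, hxf⟩ | hx
    · rw [hW, mem_union] at hf
      rcases hf with hf | hf
      · exact absurd ⟨f, hf, hxf⟩ hxU
      · have h1 : σ x = x := hmid x ⟨e, heL, hxe⟩ ⟨f, hUR f hf, hxf⟩
        rw [mem_map_inv hi] at hf
        refine absurd ⟨τ f, hf, ?_⟩ hxU
        have := hi.EC hxf
        rwa [h1] at this
    · exact ⟨e, cut_of heL heU ((k4 x hx e heL hxe).imp (fun k => sub_MM k)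
        (fun k => sub_MM k)), hxe⟩
  have hXΓ : ∀ x ∈ X, (x ∈ EvS W ∨ x ∈ J') → x ∈ Γ ∪ σ ⁻¹' Γ := by
    rintro x ⟨e, he, hxe⟩ hx
    rw [mem_sdiff, hD, mem_union] at he
    obtain ⟨he | he, heW⟩ := he
    · exact Or.inl (hLU x e he (fun h => heW (mem_union_left _ h)) hxe hx)
    · right
      refine hLU (σ x) (τ e) ((hR e).1 he) (fun h => hWτ' e heW (mem_union_left _ h)) (hi.EC hxe)
        (hx.imp ?_ (hJσ x))
      rintro ⟨f, hf, hxf⟩
      exact ⟨τ f, hWτ f hf, hi.EC hxf⟩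
  have hI'X : I' ⊆ X := by
    intro s hs
    obtain ⟨⟨e, he, hse⟩, -⟩ := k2 s hs
    have key : ∀ s ∈ I', ∀ e, EC s e → e ∉ U := by
      intro s hs e hse h
      have h' := mem_UU.1 h
      rcases (k2 s hs).2 e h'.1 hse with k | k
      · exact hKM (sub_KK k) h'.2.1
      · exact hKM (sub_KK k) h'.2.2
    refine ⟨e, mem_sdiff.2 ⟨he, fun h => ?_⟩, hse⟩
    rw [hW, mem_union, mem_map_inv hi] at h
    rcases h with h | h
    · exact key s hs e hse h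
    · exact key (σ s) (hIσ s hs) (τ e) (hi.EC hse) h
  -- (f)
  have s1 : m Q D Y I' J' ≤ m Q W (Y ∪ X) J' X := by
    refine (m_grow hQ hQ1 hI' hJ hI'X).trans_eq ?_
    rw [m_symm hQ]
    exact m_restrict hQ hWD (subset_refl _) Set.subset_union_right
  have s2 : m Q W (Y ∪ X) J' X ≤ m Q W (Y ∪ X) J' (Γ ∪ σ ⁻¹' Γ) := by
    refine mu_mono hQ fun T hT => ?_
    rintro ⟨j, hj, x, hx, h⟩
    refine ⟨j, hj, x, hXΓ x hx ?_, h⟩
    by_cases h3 : x ∈ EvS W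
    · exact Or.inl h3
    · right
      have h5 : x = j := conf_eq_of_notMem (fun e he => ?_) (Setoid.symm' _ h)
      · rw [h5]; exact hj
      · exact ⟨fun h6 => h3 ⟨e, hT he, Or.inl h6⟩, fun h6 => h3 ⟨e, hT he, Or.inr h6⟩⟩
  have s3 : m Q W (Y ∪ X) J' (Γ ∪ σ ⁻¹' Γ) ≤ 2 * m Q W (Y ∪ X) J' Γ := by
    have h1 : m Q W (Y ∪ X) J' (Γ ∪ σ ⁻¹' Γ) ≤
        m Q W (Y ∪ X) J' Γ + m Q W (Y ∪ X) J' (σ ⁻¹' Γ) := by
      refine mu_union_le hQ fun T _ => ?_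
      rintro ⟨j, hj, x, hx | hx, h⟩
      · exact Or.inl ⟨j, hj, x, hx, h⟩
      · exact Or.inr ⟨j, hj, x, hx, h⟩
    rw [m_inv hQ hi hWW hYσ hJσ] at h1
    linarith
  have s4 : m Q W (Y ∪ X) J' Γ ≤ m Q (U ∪ R) (Y ∪ X) J' Γ := by
    have h1 : mu Q (U ∪ R) (wir (Y ∪ X)) (fun T => J (T ∩ W) J' Γ) = m Q W (Y ∪ X) J' Γ := by
      rw [mu_restrict hQ (U := W) hWUR (fun e he => ?_) fun T _ => ?_]
      · refine mu_congr hQ (fun _ _ _ _ => Iff.rfl) fun T hT => ?_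
        rw [inter_eq_left.2 hT]
      · have h2 : e ∈ D \ W := sdiff_subset_sdiff hURD (Subset.refl W) he
        exact Or.inr ⟨Or.inr (mem_EvS_pa h2), Or.inr (mem_EvS_pb h2)⟩
      · rw [inter_assoc, inter_self]
    rw [← h1]
    exact mu_mono hQ fun T _ h => h.mono inter_subset_left
  have s5 : m Q (U ∪ R) (Y ∪ X) J' Γ ≤
      mu Q (U ∪ R) (con pa pb (wir Y) V) (fun T => J T J' Γ) := by
    refine m_le_mu hQ hQ1 (con_le_wir Set.subset_union_left ?_) (hJ.trans Set.subset_union_left)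
    refine (EvS_mono fun e he => ?_).trans Set.subset_union_right
    rw [mem_sdiff]
    refine ⟨hLD (hVL he), fun h => ?_⟩
    rw [hW, mem_union] at h
    rcases h with h | h
    · exact (mem_sdiff.1 he).2 h
    · exact disjoint_left.1 hLR (hVL he) (hUR e h)
  have s6 : mu Q (U ∪ R) (con pa pb (wir Y) V) (fun T => J T J' Γ) ≤
      mu Q (U ∪ R) (con pa pb (wir Y) V) (fun T => J (V ∪ T) I J') := by
    refine mu_mono hQ fun T _ => ?_
    rintro ⟨j, hj, x, hx, h⟩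
    obtain ⟨s, hs, h3⟩ := hcut x hx
    exact ⟨s, hs, j, hj, Setoid.trans' _
      (Setoid.symm' _ (conf_mono'' subset_union_left h3))
      (Setoid.symm' _ (conf_mono'' subset_union_right h))⟩
  have s7 : m Q D Y I' J' ≤
      2 * mu Q (U ∪ R) (con pa pb (wir Y) V) (fun T => J (V ∪ T) I J') := by linarith
  exact s7

end Vale.Agent.P167.H366
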