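import Vale.Agent.P167.H366.Base

/-!
# P167, v-RSW: quads and the exploration of the dual cluster of a side

`Quad D A A' B B'`: in the finite set of squares `D`, exactly one of the following holds for every set
`S` of open squares: the sets of even sites `A`, `A'` are joined by squares of `S`, or the sets of odd
sites `B`, `B'` are joined by squares of `D \ S`. No other planarity is used.

`KK`: the dual cluster of `B`; `MM`: the component of `B'` in its complement; `UU`: the squares with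
both odd corners in `MM`. If `A`, `A'` are joined then all the squares with a corner in `KK` and one in
`MM` are open and joined to `A` by open squares outside of `UU` (`cut_joined`).
-/

set_option autoImplicit false
set_option linter.unusedSectionVars false

namespace Vale.Agent.P167.H366

open Finset Vale.Agent.P167.H623 Vale.Agent.P167.H92 Vale.Agent.P167.H816 Vale.Agent.P167.FK

section closed

variable {X ι : Type*} [DecidableEq ι] {a b : ι → X}

theorem conf_le' {G : Finset ι} {R : Setoid X} (h : ∀ e ∈ G, R (a e) (b e)) : conf a b G ≤ R :=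
  Finset.sup_le fun e he => join_le_iff'.2 (h e he)

theorem conf_mem_closed {G : Finset ι} {C : Set X} (hC : ∀ e ∈ G, (a e ∈ C ↔ b e ∈ C)) {x y : X}
    (h : conf a b G x y) : x ∈ C ↔ y ∈ C := by
  let R : Setoid X :=
    { r := fun x y => x ∈ C ↔ y ∈ C
      iseqv := ⟨fun _ => Iff.rfl, fun h => h.symm, fun h h' => h.trans h'⟩ }
  have h1 : conf a b G ≤ R := conf_le' fun e he => hC e he
  exact h1 h

/-- Connections inside of a closed set of points. -/
theorem conf_filter_closed {G : Finset ι} {C : Set X} [DecidablePred fun e => a e ∈ C]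
    (hC : ∀ e ∈ G, (a e ∈ C ↔ b e ∈ C))
    {x y : X} (hx : x ∈ C) (h : conf a b G x y) :
    conf a b (G.filter fun e => a e ∈ C) x y := by
  let R : Setoid X :=
    { r := fun x y => (x ∈ C ∧ y ∈ C ∧ conf a b (G.filter fun e => a e ∈ C) x y) ∨
        (x ∉ C ∧ y ∉ C)
      iseqv := by
        refine ⟨fun x => ?_, ?_, ?_⟩
        · by_cases hx : x ∈ C
          · exact Or.inl ⟨hx, hx, Setoid.refl' _ x⟩
          · exact Or.inr ⟨hx, hx⟩
        · rintro x y (⟨h1, h2, h3⟩ | ⟨h1, h2⟩)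
          · exact Or.inl ⟨h2, h1, Setoid.symm' _ h3⟩
          · exact Or.inr ⟨h2, h1⟩
        · rintro x y z (⟨h1, h2, h3⟩ | ⟨h1, h2⟩) (⟨k1, k2, k3⟩ | ⟨k1, k2⟩)
          · exact Or.inl ⟨h1, k2, Setoid.trans' _ h3 k3⟩
          · exact absurd h2 k1
          · exact absurd k1 h2
          · exact Or.inr ⟨h1, k2⟩ }
  have h1 : conf a b G ≤ R := conf_le' fun e he => by
    by_cases h1 : a e ∈ C
    · exact Or.inl ⟨h1, (hC e he).1 h1, cf_edge' a b (mem_filter.2 ⟨he, h1⟩)⟩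
    · exact Or.inr ⟨h1, fun h2 => h1 ((hC e he).2 h2)⟩
  rcases h1 h with h | h
  · exact h.2.2
  · exact absurd hx h.1

theorem conf_mono'' {S S' : Finset ι} (h : S ⊆ S') {x y : X} (hxy : conf a b S x y) :
    conf a b S' x y := cf_mono' a b h hxy

/-- A point which is no end of an edge of `G` is joined only to itself. -/
theorem conf_eq_of_notMem {G : Finset ι} {x y : X} (hx : ∀ e ∈ G, a e ≠ x ∧ b e ≠ x)
    (h : conf a b G x y) : x = y := by
  have h1 := (conf_mem_closed (C := {x}) (fun e he => by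
    simp only [Set.mem_singleton_iff]
    exact ⟨fun k => absurd k (hx e he).1, fun k => absurd k (hx e he).2⟩) h).1 rfl
  exact (Set.mem_singleton_iff.1 h1).symm

end closed

variable {D S S' : Finset (ℤ × ℤ)} {A A' B B' : Set (ℤ × ℤ)}

/-- `A` and `B` are joined by the squares of `S`. -/
def J (S : Finset (ℤ × ℤ)) (A B : Set (ℤ × ℤ)) : Prop := ∃ s ∈ A, ∃ t ∈ B, conf pa pb S s t

/-- `A` and `B` are dually joined by the squares of `S`. -/
def Jd (S : Finset (ℤ × ℤ)) (A B : Set (ℤ × ℤ)) : Prop := ∃ s ∈ A, ∃ t ∈ B, conf da db S s t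

theorem J.mono (h : J S A B) (hS : S ⊆ S') : J S' A B := by
  obtain ⟨s, hs, t, ht, h⟩ := h
  exact ⟨s, hs, t, ht, conf_mono'' hS h⟩

theorem J.mono_sets {S : Finset (ℤ × ℤ)} {A B A' B' : Set (ℤ × ℤ)} (h : J S A B) (hA : A ⊆ A')
    (hB : B ⊆ B') : J S A' B' := by
  obtain ⟨s, hs, t, ht, h⟩ := h
  exact ⟨s, hA hs, t, hB ht, h⟩

theorem J.symm (h : J S A B) : J S B A := by
  obtain ⟨s, hs, t, ht, h⟩ := h
  exact ⟨t, ht, s, hs, Setoid.symm' _ h⟩

/-- A topological quadrilateral. -/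
def Quad (D : Finset (ℤ × ℤ)) (A A' B B' : Set (ℤ × ℤ)) : Prop :=
  ∀ S ⊆ D, (J S A A' ↔ ¬ Jd (D \ S) B B')

/-- `s` is an even corner of `e`. -/
def EC (s e : ℤ × ℤ) : Prop := pa e = s ∨ pb e = s

/-- The even corners of the squares of `D`. -/
def EvS (D : Finset (ℤ × ℤ)) : Set (ℤ × ℤ) := {s | ∃ e ∈ D, EC s e}

theorem EvS_mono (h : D ⊆ S) : EvS D ⊆ EvS S := fun _ ⟨e, he, h'⟩ => ⟨e, h he, h'⟩

theorem mem_EvS_pa {e : ℤ × ℤ} (he : e ∈ D) : pa e ∈ EvS D := ⟨e, he, Or.inl rfl⟩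

theorem mem_EvS_pb {e : ℤ × ℤ} (he : e ∈ D) : pb e ∈ EvS D := ⟨e, he, Or.inr rfl⟩

/-- The dual cluster of `B`. -/
def KK (D : Finset (ℤ × ℤ)) (B : Set (ℤ × ℤ)) (S : Finset (ℤ × ℤ)) : Set (ℤ × ℤ) :=
  {o | ∃ s ∈ B, conf da db (D \ S) s o}

open Classical in
/-- The component of `B'` in the complement of `K`. -/
noncomputable def MM (D : Finset (ℤ × ℤ)) (B' K : Set (ℤ × ℤ)) : Set (ℤ × ℤ) :=
  {o | ∃ t ∈ B', conf da db (D.filter fun e => da e ∉ K ∧ db e ∉ K) t o}

open Classical in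
/-- The squares with both odd corners in `MM`. -/
noncomputable def UU (D : Finset (ℤ × ℤ)) (B' K : Set (ℤ × ℤ)) : Finset (ℤ × ℤ) :=
  D.filter fun e => da e ∈ MM D B' K ∧ db e ∈ MM D B' K

theorem UU_sub (D : Finset (ℤ × ℤ)) (B' K : Set (ℤ × ℤ)) : UU D B' K ⊆ D := by
  classical
  rw [UU]
  exact filter_subset _ _

theorem mem_UU {K : Set (ℤ × ℤ)} {e : ℤ × ℤ} :
    e ∈ UU D B' K ↔ e ∈ D ∧ da e ∈ MM D B' K ∧ db e ∈ MM D B' K := by
  classical
  rw [UU, mem_filter]

theorem KK_step {e : ℤ × ℤ} (he : e ∈ D) (heS : e ∉ S) : da e ∈ KK D B S ↔ db e ∈ KK D B S := by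
  have h : conf da db (D \ S) (da e) (db e) := cf_edge' da db (mem_sdiff.2 ⟨he, heS⟩)
  constructor
  · rintro ⟨s, hs, h'⟩
    exact ⟨s, hs, Setoid.trans' _ h' h⟩
  · rintro ⟨s, hs, h'⟩
    exact ⟨s, hs, Setoid.trans' _ h' (Setoid.symm' _ h)⟩

theorem sub_KK : B ⊆ KK D B S := fun s hs => ⟨s, hs, Setoid.refl' _ s⟩

/-- The dual cluster depends only on the squares which touch it. -/
theorem KK_congr (h : ∀ e ∈ D, (da e ∈ KK D B S ∨ db e ∈ KK D B S) → (e ∈ S ↔ e ∈ S')) :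
    KK D B S' = KK D B S := by
  classical
  ext o
  constructor
  · rintro ⟨s, hs, h'⟩
    refine (conf_mem_closed (C := KK D B S) (fun e he => ?_) h').1 (sub_KK hs)
    rw [mem_sdiff] at he
    by_cases h1 : da e ∈ KK D B S ∨ db e ∈ KK D B S
    · exact KK_step he.1 fun h2 => he.2 ((h e he.1 h1).1 h2)
    · push Not at h1
      exact ⟨fun h2 => absurd h2 h1.1, fun h2 => absurd h2 h1.2⟩
  · rintro ⟨s, hs, h'⟩
    refine ⟨s, hs, ?_⟩
    have h1 := conf_filter_closed (C := KK D B S) (fun e he => by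
      rw [mem_sdiff] at he
      exact KK_step he.1 he.2) (sub_KK hs) h'
    refine conf_mono'' (fun e he => ?_) h1
    rw [mem_filter, mem_sdiff] at he
    rw [mem_sdiff]
    exact ⟨he.1.1, fun h2 => he.1.2 ((h e he.1.1 (Or.inl he.2)).2 h2)⟩

variable {K : Set (ℤ × ℤ)}

theorem sub_MM : B' ⊆ MM D B' K := fun s hs => ⟨s, hs, Setoid.refl' _ s⟩

theorem MM_disj (h : Disjoint K B') : Disjoint K (MM D B' K) := by
  classical
  rw [Set.disjoint_left]
  rintro o ho ⟨t, ht, h'⟩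
  have h1 := (conf_mem_closed (C := K) (fun e he => by
    rw [mem_filter] at he
    exact ⟨fun h2 => absurd h2 he.2.1, fun h2 => absurd h2 he.2.2⟩) h').2 ho
  exact Set.disjoint_left.1 h h1 ht

theorem MM_step {e : ℤ × ℤ} (he : e ∈ D) (h1 : da e ∉ K) (h2 : db e ∉ K) :
    da e ∈ MM D B' K ↔ db e ∈ MM D B' K := by
  classical
  have h : conf da db (D.filter fun e => da e ∉ K ∧ db e ∉ K) (da e) (db e) :=
    cf_edge' da db (mem_filter.2 ⟨he, h1, h2⟩)
  constructor
  · rintro ⟨s, hs, h'⟩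
    exact ⟨s, hs, Setoid.trans' _ h' h⟩
  · rintro ⟨s, hs, h'⟩
    exact ⟨s, hs, Setoid.trans' _ h' (Setoid.symm' _ h)⟩

/-- The squares with one odd corner in `K` and the other one in `MM`. -/
def Cut (D : Finset (ℤ × ℤ)) (B' K : Set (ℤ × ℤ)) (e : ℤ × ℤ) : Prop :=
  e ∈ D ∧ (da e ∈ K ∨ db e ∈ K) ∧ (da e ∈ MM D B' K ∨ db e ∈ MM D B' K)

theorem Cut.notMem_UU (hK : Disjoint K B') {e : ℤ × ℤ} (h : Cut D B' K e) : e ∉ UU D B' K := by
  intro h'
  rw [mem_UU] at h'
  have h1 := Set.disjoint_left.1 (MM_disj (D := D) hK)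
  rcases h.2.1 with h2 | h2
  · exact h1 h2 h'.2.1
  · exact h1 h2 h'.2.2

/-- A square which is not in `UU` and has an odd corner in `MM` is a cut square. -/
theorem cut_of {e : ℤ × ℤ} (he : e ∈ D) (heU : e ∉ UU D B' K)
    (h : da e ∈ MM D B' K ∨ db e ∈ MM D B' K) : Cut D B' K e := by
  refine ⟨he, ?_, h⟩
  by_contra h1
  push Not at h1
  have h2 := MM_step (B' := B') he h1.1 h1.2
  refine heU (mem_UU.2 ⟨he, ?_⟩)
  rcases h with h | h
  · exact ⟨h, h2.1 h⟩
  · exact ⟨h2.2 h, h⟩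

/-- The unexplored region does not change the dual cluster. -/
theorem KK_of_sdiff (hK : Disjoint (KK D B S) B')
    (h : S' \ UU D B' (KK D B S) = S \ UU D B' (KK D B S)) : KK D B S' = KK D B S := by
  refine KK_congr fun e he h1 => ?_
  have h2 : e ∉ UU D B' (KK D B S) := by
    intro h'
    rw [mem_UU] at h'
    have h3 := Set.disjoint_left.1 (MM_disj (D := D) hK)
    rcases h1 with h2 | h2
    · exact h3 h2 h'.2.1
    · exact h3 h2 h'.2.2
  have h3 : e ∈ S' \ UU D B' (KK D B S) ↔ e ∈ S \ UU D B' (KK D B S) := by rw [h]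
  rw [mem_sdiff, mem_sdiff] at h3
  tauto

theorem disj_of_not_Jd (h : ¬ Jd (D \ S) B B') : Disjoint (KK D B S) B' := by
  rw [Set.disjoint_left]
  rintro o ⟨s, hs, h1⟩ ho
  exact h ⟨s, hs, o, ho, h1⟩

theorem not_Jd_of_disj (h : Disjoint (KK D B S) B') : ¬ Jd (D \ S) B B' := by
  rintro ⟨s, hs, t, ht, h1⟩
  exact Set.disjoint_left.1 h ⟨s, hs, h1⟩ ht

/-- **The cut squares are open and joined to `A` outside of the unexplored region.** -/
theorem cut_joined (hq : Quad D A A' B B') (hS : S ⊆ D) (hK : Disjoint (KK D B S) B')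
    {e : ℤ × ℤ} (he : Cut D B' (KK D B S) e) :
    e ∈ S \ UU D B' (KK D B S) ∧
      ∃ s ∈ A, conf pa pb (S \ UU D B' (KK D B S)) (pa e) s := by
  classical
  set K := KK D B S with hKdef
  set U := UU D B' K with hU
  have hKM := Set.disjoint_left.1 (MM_disj (D := D) hK)
  have heU : e ∉ U := he.notMem_UU hK
  have heS : e ∈ S := by
    by_contra h
    have h1 := KK_step (B := B) he.1 h
    rcases he.2.1 with h2 | h2 <;> rcases he.2.2 with h3 | h3
    · exact hKM h2 h3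
    · exact hKM (h1.1 h2) h3
    · exact hKM (h1.2 h2) h3
    · exact hKM h2 h3
  refine ⟨mem_sdiff.2 ⟨heS, heU⟩, ?_⟩
  by_contra hA
  push Not at hA
  have hS1 : S \ U ⊆ D := sdiff_subset.trans hS
  have hK1 : KK D B (S \ U) = K := KK_of_sdiff hK (by rw [Finset.sdiff_idem])
  have h1 : J (S \ U) A A' := (hq _ hS1).2 (not_Jd_of_disj (by rw [hK1]; exact hK))
  obtain ⟨α, hα, α', hα', hαα'⟩ := h1
  set C : Set (ℤ × ℤ) := {x | ¬ conf pa pb (S \ U) (pa e) x} with hC
  have hCc : ∀ f ∈ S \ U, (pa f ∈ C ↔ pb f ∈ C) := by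
    intro f hf
    have h2 := cf_edge' pa pb hf
    constructor
    · exact fun h3 h4 => h3 (Setoid.trans' _ h4 (Setoid.symm' _ h2))
    · exact fun h3 h4 => h3 (Setoid.trans' _ h4 h2)
  set S2 := (S \ U).filter fun f => pa f ∈ C with hS2
  have h2 : J S2 A A' := ⟨α, hα, α', hα', conf_filter_closed hCc (hA α hα) hαα'⟩
  have hS2D : S2 ⊆ D := (filter_subset _ _).trans hS1
  refine (hq _ hS2D).1 h2 ?_
  -- the dual connection
  have heS2 : e ∉ S2 := by
    rw [hS2, mem_filter]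
    rintro ⟨-, h3⟩
    exact h3 (Setoid.refl' _ _)
  have hstep : conf da db (D \ S2) (da e) (db e) :=
    cf_edge' da db (mem_sdiff.2 ⟨he.1, heS2⟩)
  have hSS2 : D \ S ⊆ D \ S2 :=
    sdiff_subset_sdiff (Subset.refl D) ((filter_subset _ _).trans sdiff_subset)
  have hleft : ∀ o ∈ K, ∃ s ∈ B, conf da db (D \ S2) s o := by
    rintro o ⟨s, hs, h3⟩
    exact ⟨s, hs, conf_mono'' hSS2 h3⟩
  have hright : ∀ o ∈ MM D B' K, ∃ t ∈ B', conf da db (D \ S2) t o := by
    rintro o ⟨t, ht, h3⟩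
    refine ⟨t, ht, ?_⟩
    have h4 := conf_filter_closed (C := MM D B' K) (fun f hf => by
      rw [mem_filter] at hf
      exact MM_step hf.1 hf.2.1 hf.2.2) (sub_MM ht) h3
    refine conf_mono'' (fun f hf => ?_) h4
    rw [mem_filter, mem_filter] at hf
    rw [mem_sdiff]
    refine ⟨hf.1.1, fun h5 => ?_⟩
    rw [hS2, mem_filter, mem_sdiff] at h5
    exact h5.1.2 (mem_UU.2 ⟨hf.1.1, hf.2, (MM_step hf.1.1 hf.1.2.1 hf.1.2.2).1 hf.2⟩)
  rcases he.2.1 with h3 | h3 <;> rcases he.2.2 with h4 | h4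
  · exact absurd h4 (hKM h3)
  · obtain ⟨s, hs, h5⟩ := hleft _ h3
    obtain ⟨t, ht, h6⟩ := hright _ h4
    exact ⟨s, hs, t, ht, Setoid.trans' _ h5 (Setoid.trans' _ hstep (Setoid.symm' _ h6))⟩
  · obtain ⟨s, hs, h5⟩ := hleft _ h3
    obtain ⟨t, ht, h6⟩ := hright _ h4
    exact ⟨s, hs, t, ht, Setoid.trans' _ h5
      (Setoid.trans' _ (Setoid.symm' _ hstep) (Setoid.symm' _ h6))⟩
  · exact absurd h4 (hKM h3)

/-- The contact sites are joined to `A`. -/
theorem cut_site (hq : Quad D A A' B B') (hS : S ⊆ D) (hK : Disjoint (KK D B S) B')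
    {e x : ℤ × ℤ} (he : Cut D B' (KK D B S) e) (hx : EC x e) :
    ∃ s ∈ A, conf pa pb (S \ UU D B' (KK D B S)) x s := by
  obtain ⟨h1, s, hs, h2⟩ := cut_joined hq hS hK he
  rcases hx with rfl | rfl
  · exact ⟨s, hs, h2⟩
  · exact ⟨s, hs, Setoid.trans' _ (Setoid.symm' _ (cf_edge' pa pb h1)) h2⟩

open Classical in
/-- The squares of `D` around a site are linked by their odd corners. -/
def Fan (D : Finset (ℤ × ℤ)) : Prop :=
  ∀ s, ∀ e ∈ D, EC s e → ∀ e' ∈ D, EC s e' → conf da db (D.filter (EC s)) (da e) (da e')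

/-- A site which is a corner of a square of `UU` and of a square of `D \ UU` is a contact site. -/
theorem Fan.cut (hF : Fan D) {s : ℤ × ℤ} (h1 : s ∈ EvS (UU D B' K))
    (h2 : s ∈ EvS (D \ UU D B' K)) : ∃ e, Cut D B' K e ∧ EC s e := by
  classical
  obtain ⟨e, he, hse⟩ := h1
  obtain ⟨f, hf, hsf⟩ := h2
  rw [mem_sdiff] at hf
  have he' := mem_UU.1 he
  by_contra hc
  push Not at hc
  have h3 := hF s e he'.1 hse f hf.1 hsf
  have hcl : ∀ g ∈ D.filter (EC s), (da g ∈ MM D B' K ↔ db g ∈ MM D B' K) := by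
    intro g hg
    rw [mem_filter] at hg
    by_cases h4 : da g ∈ MM D B' K ∨ db g ∈ MM D B' K
    · have h5 : g ∈ UU D B' K := by
        by_contra h5
        exact hc g (cut_of hg.1 h5 h4) hg.2
      have h6 := mem_UU.1 h5
      exact ⟨fun _ => h6.2.2, fun _ => h6.2.1⟩
    · push Not at h4
      exact ⟨fun k => absurd k h4.1, fun k => absurd k h4.2⟩
  have h4 := (conf_mem_closed hcl h3).1 he'.2.1
  have h5 := (hcl f (mem_filter.2 ⟨hf.1, hsf⟩)).1 h4
  exact hf.2 (mem_UU.2 ⟨hf.1, h4, h5⟩)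

end Vale.Agent.P167.H366
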