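import Vale.Agent.P167.H366.Fin
import Vale.Agent.P167.H997.Rect

/-!
# P167, v-RSW: easy crossings from the decay of the cluster of a wired side
-/

set_option autoImplicit false
set_option linter.unusedSectionVars false

namespace Vale.Agent.P167.H366

open Finset Vale.Agent.P167.H623 Vale.Agent.P167.H92 Vale.Agent.P167.H816 Vale.Agent.P167.FK
open Vale.Agent.P167.H262 (Rsq mem_Rsq CI CD mm Pb Db)
open Vale.Agent.P167.H997 (sdX sdY)
open Vale.Agent.P145.FB (PStep PConn)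
open Relation (ReflTransGen)

variable {Q : ℝ} {D S S' : Finset (ℤ × ℤ)} {A A' B B' W W' T : Set (ℤ × ℤ)} {a b c d n : ℤ}

/-- The duality of a rectangle. -/
theorem quad_rect (hx : a ≤ b) (hy : c ≤ d) : Quad (Rsq a b c d) (sdX 0 a c d) (sdX 0 b c d)
    (sdY 1 c a b) (sdY 1 d a b) := by
  intro S hS
  have h := H997.quad_LR hx hy S hS
  constructor
  · rintro ⟨s, hs, t, ht, h1⟩ ⟨s', hs', t', ht', h2⟩
    rw [← conf_iff_con] at h1 h2
    exact h.1 ⟨s, hs, t, ht, h1⟩ ⟨s', hs', t', ht', h2⟩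
  · intro h1
    obtain ⟨s, hs, t, ht, h2⟩ := h.2 fun ⟨s', hs', t', ht', h2⟩ => h1 ⟨s', hs', t', ht', by
      rw [← conf_iff_con]; exact h2⟩
    rw [conf_iff_con] at h2
    exact ⟨s, hs, t, ht, h2⟩

/-- The cut squares belong to every crossing of the revealed region. -/
theorem cut_at (hq : Quad D A A' B B') (hS : S ⊆ D) (hK : Disjoint (KK D B S) B')
    {e : ℤ × ℤ} (he : Cut D B' (KK D B S) e) {α α' : ℤ × ℤ} (hα : α ∈ A) (hα' : α' ∈ A')
    (hαα' : conf pa pb (S \ UU D B' (KK D B S)) α α') :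
    e ∈ S \ UU D B' (KK D B S) ∧ conf pa pb (S \ UU D B' (KK D B S)) (pa e) α := by
  classical
  set K := KK D B S with hKdef
  set U := UU D B' K with hU
  have hKM := Set.disjoint_left.1 (MM_disj (D := D) hK)
  have heU : e ∉ U := he.notMem_UU hK
  have heS : e ∈ S := by
    by_contra h
    have h1 := KK_step (B := B) he.1 h
    rcases he.2.1 with h2 | h2 <;> rcases he.2.2 with h3 | h3
    · exact hKM h2 h3
    · exact hKM (h1.1 h2) h3
    · exact hKM (h1.2 h2) h3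
    · exact hKM h2 h3
  refine ⟨mem_sdiff.2 ⟨heS, heU⟩, ?_⟩
  by_contra hA
  have hS1 : S \ U ⊆ D := sdiff_subset.trans hS
  set C : Set (ℤ × ℤ) := {x | ¬ conf pa pb (S \ U) (pa e) x} with hC
  have hCc : ∀ f ∈ S \ U, (pa f ∈ C ↔ pb f ∈ C) := by
    intro f hf
    have h2 := cf_edge' pa pb hf
    constructor
    · exact fun h3 h4 => h3 (Setoid.trans' _ h4 (Setoid.symm' _ h2))
    · exact fun h3 h4 => h3 (Setoid.trans' _ h4 h2)
  set S2 := (S \ U).filter fun f => pa f ∈ C with hS2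
  have h2 : J S2 A A' := ⟨α, hα, α', hα', conf_filter_closed hCc hA hαα'⟩
  have hS2D : S2 ⊆ D := (filter_subset _ _).trans hS1
  refine (hq _ hS2D).1 h2 ?_
  -- the dual connection
  have heS2 : e ∉ S2 := by
    rw [hS2, mem_filter]
    rintro ⟨-, h3⟩
    exact h3 (Setoid.refl' _ _)
  have hstep : conf da db (D \ S2) (da e) (db e) :=
    cf_edge' da db (mem_sdiff.2 ⟨he.1, heS2⟩)
  have hSS2 : D \ S ⊆ D \ S2 :=
    sdiff_subset_sdiff (Subset.refl D) ((filter_subset _ _).trans sdiff_subset)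
  have hleft : ∀ o ∈ K, ∃ s ∈ B, conf da db (D \ S2) s o := by
    rintro o ⟨s, hs, h3⟩
    exact ⟨s, hs, conf_mono'' hSS2 h3⟩
  have hright : ∀ o ∈ MM D B' K, ∃ t ∈ B', conf da db (D \ S2) t o := by
    rintro o ⟨t, ht, h3⟩
    refine ⟨t, ht, ?_⟩
    have h4 := conf_filter_closed (C := MM D B' K) (fun f hf => by
      rw [mem_filter] at hf
      exact MM_step hf.1 hf.2.1 hf.2.2) (sub_MM ht) h3
    refine conf_mono'' (fun f hf => ?_) h4
    rw [mem_filter, mem_filter] at hf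
    rw [mem_sdiff]
    refine ⟨hf.1.1, fun h5 => ?_⟩
    rw [hS2, mem_filter, mem_sdiff] at h5
    exact h5.1.2 (mem_UU.2 ⟨hf.1.1, hf.2, (MM_step hf.1.1 hf.1.2.1 hf.1.2.2).1 hf.2⟩)
  rcases he.2.1 with h3 | h3 <;> rcases he.2.2 with h4 | h4
  · exact absurd h4 (hKM h3)
  · obtain ⟨s, hs, h5⟩ := hleft _ h3
    obtain ⟨t, ht, h6⟩ := hright _ h4
    exact ⟨s, hs, t, ht, Setoid.trans' _ h5 (Setoid.trans' _ hstep (Setoid.symm' _ h6))⟩
  · obtain ⟨s, hs, h5⟩ := hleft _ h3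
    obtain ⟨t, ht, h6⟩ := hright _ h4
    exact ⟨s, hs, t, ht, Setoid.trans' _ h5
      (Setoid.trans' _ (Setoid.symm' _ hstep) (Setoid.symm' _ h6))⟩
  · exact absurd h4 (hKM h3)

/-- **All the contact sites are joined to one another.** -/
theorem cut_one (hq : Quad D A A' B B') (hS : S ⊆ D) (hK : Disjoint (KK D B S) B')
    {e e' x x' : ℤ × ℤ} (he : Cut D B' (KK D B S) e) (he' : Cut D B' (KK D B S) e')
    (hx : EC x e) (hx' : EC x' e') : conf pa pb (S \ UU D B' (KK D B S)) x x' := by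
  have hS1 : S \ UU D B' (KK D B S) ⊆ D := sdiff_subset.trans hS
  have hK1 : KK D B (S \ UU D B' (KK D B S)) = KK D B S :=
    KK_of_sdiff hK (by rw [Finset.sdiff_idem])
  obtain ⟨α, hα, α', hα', h⟩ : J (S \ UU D B' (KK D B S)) A A' :=
    (hq _ hS1).2 (not_Jd_of_disj (by rw [hK1]; exact hK))
  have key : ∀ {e x : ℤ × ℤ}, Cut D B' (KK D B S) e → EC x e →
      conf pa pb (S \ UU D B' (KK D B S)) x α := by
    intro e x he hx
    obtain ⟨h1, h2⟩ := cut_at hq hS hK he hα hα' h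
    rcases hx with rfl | rfl
    · exact h2
    · exact Setoid.trans' _ (Setoid.symm' _ (cf_edge' pa pb h1)) h2
  exact Setoid.trans' _ (key he hx) (Setoid.symm' _ (key he' hx'))

/-- **T1**, target not wired. -/
theorem m_t1 (hQ : 0 < Q) (hQ1 : Q ≤ 1) (h : W ⊆ W') : m Q D W T W ≤ m Q D W' T W' := by
  have h1 := H262.t1_by pa pb D (w := fun _ => Q) (fun _ => hQ.le) (pow_pos hQ 2)
    (pow_le_one₀ hQ.le hQ1) ⊥ T ∅ h
  rw [bot_sup_eq, bot_sup_eq, Set.union_empty, Set.union_empty] at h1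
  have key : ∀ V : Set (ℤ × ℤ), m Q D V T V =
      1 - GP pa pb (fun _ => Q) (Q ^ 2) D (wir V) (Sep pa pb ⊥ T V) := by
    intro V
    have h2 := mu_not (D := D) (r := wir V) hQ fun S => J S T V
    have h4 : mu Q D (wir V) (fun S => ¬ J S T V) =
        GP pa pb (fun _ => Q) (Q ^ 2) D (wir V) (Sep pa pb ⊥ T V) :=
      mu_congr hQ (fun _ _ _ _ => Iff.rfl) fun S _ => by rw [sep_iff, J_symm]
    rw [m]
    linarith
  rw [key, key]
  linarith

/-- The upper bound from the exploration. -/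
theorem tower_ge {ι X : Type*} [DecidableEq ι] {a b : ι → X} {w : ι → ℝ} {q : ℝ}
    (hw : ∀ e, 0 < w e) (hq : 0 < q) {D : Finset ι} (r : Setoid X)
    (E : Finset ι → Finset ι) (hE : ∀ S ⊆ D, E S ⊆ D)
    (hs : ∀ S ⊆ D, ∀ S' ⊆ D, S' \ E S = S \ E S → E S' = E S) {F G : Finset ι → ℝ}
    (h : ∀ S ⊆ D, GE a b w q (E S) (con a b r (S \ E S)) (fun T => F (S \ E S ∪ T)) ≤ G S) :
    GE a b w q D r F ≤ GE a b w q D r G := by
  rw [tower hw hq r E hE hs F]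
  exact GE_mono (fun e => (hw e).le) hq h

theorem EvS_union {U V : Finset (ℤ × ℤ)} {x : ℤ × ℤ} (h : x ∈ EvS (U ∪ V)) :
    x ∈ EvS U ∨ x ∈ EvS V := by
  obtain ⟨e, he, hx⟩ := h
  rw [mem_union] at he
  exact he.imp (fun h => ⟨e, h, hx⟩) (fun h => ⟨e, h, hx⟩)

section region

variable (hab : a ≤ b) (hc : c < 0) (hd : 0 < d) (hS : S ⊆ Rsq a b c 0)
  (hK : Disjoint (KK (Rsq a b c 0) (sdY 1 c a b) S) (sdY 1 0 a b))

/-- The unexplored squares. -/
noncomputable def UR (a b c d : ℤ) (S : Finset (ℤ × ℤ)) : Finset (ℤ × ℤ) :=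
  UU (Rsq a b c 0) (sdY 1 0 a b) (KK (Rsq a b c 0) (sdY 1 c a b) S) ∪ Rsq a b 0 d

/-- The contact sites. -/
noncomputable def XR (a b c d : ℤ) (S : Finset (ℤ × ℤ)) : Set (ℤ × ℤ) :=
  EvS (Rsq a b c d \ UR a b c d S)

theorem mem_lower {e : ℤ × ℤ} (he : e ∈ Rsq a b c d) (h : e ∉ UR a b c d S) :
    e ∈ Rsq a b c 0 ∧ e ∉ UU (Rsq a b c 0) (sdY 1 0 a b) (KK (Rsq a b c 0) (sdY 1 c a b) S) := by
  rw [UR, mem_union, not_or] at h
  refine ⟨?_, h.1⟩
  have h2 := h.2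
  rw [mem_Rsq] at he h2 ⊢
  omega

theorem XR_Dn : XR a b c d S ⊆ Dn 0 := by
  rintro x ⟨e, he, hxe⟩
  rw [mem_sdiff] at he
  have h1 := (mem_lower he.1 he.2).1
  rw [mem_Rsq] at h1
  have := EC_bd hxe
  exact ⟨EC_even hxe, by omega⟩

include hab in
theorem XR_cut {x : ℤ × ℤ} (hx : x ∈ XR a b c d S) (hx' : x ∈ EvS (UR a b c d S)) :
    ∃ e, Cut (Rsq a b c 0) (sdY 1 0 a b) (KK (Rsq a b c 0) (sdY 1 c a b) S) e ∧ EC x e := by
  obtain ⟨e, he, hxe⟩ := hx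
  rw [mem_sdiff] at he
  obtain ⟨he1, he2⟩ := mem_lower he.1 he.2
  rcases EvS_union hx' with h | h
  · exact (fan_box a b c 0).cut h ⟨e, mem_sdiff.2 ⟨he1, he2⟩, hxe⟩
  · obtain ⟨f, hf, hxf⟩ := h
    refine ⟨e, cut_of he1 he2 ?_, hxe⟩
    rw [mem_Rsq] at hf he1
    have h1 := EC_bd hxe
    have h2 := EC_bd hxf
    rcases EC_row hxe with ⟨h3, h4⟩ | ⟨h3, h4⟩
    · exact Or.inl (sub_MM ⟨by omega, by omega, by omega, Int.odd_iff.1 (odd_da e)⟩)
    · exact Or.inr (sub_MM ⟨by omega, by omega, by omega, Int.odd_iff.1 (odd_db e)⟩)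

theorem UR_sub (hc : c < 0) (hd : 0 < d) : UR a b c d S ⊆ Rsq a b c d := by
  refine union_subset ((UU_sub _ _ _).trans ?_) ?_
  · intro e he
    rw [mem_Rsq] at he ⊢
    omega
  · intro e he
    rw [mem_Rsq] at he ⊢
    omega

include hK in
/-- The path leaves the contact sites for the last time. -/
theorem last_exit (hc : c < 0) (hd : 0 < d) {S' T : Finset (ℤ × ℤ)} (hS' : S' ⊆ Rsq a b c d)
    (hV : Disjoint S' (UR a b c d S)) (hT : T ⊆ UR a b c d S)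
    (h : J (S' ∪ T) (Dn c) (Up d)) : J T (Up d) (XR a b c d S) := by
  classical
  have hKM := Set.disjoint_left.1 (MM_disj (D := Rsq a b c 0) hK)
  have hD : S' ∪ T ⊆ Rsq a b c d := union_subset hS' (hT.trans (UR_sub hc hd))
  have h3 : J (S' ∪ T) (Up d) (XR a b c d S ∪ Dn c) := h.symm.mono_sets subset_rfl
    Set.subset_union_right
  have h4 := (J_inter (D := Rsq a b c d) (U := UR a b c d S) (X := XR a b c d S ∪ Dn c)
    Set.subset_union_left hD).1 h3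
  have h5 : (S' ∪ T) ∩ UR a b c d S = T := by
    rw [union_inter_distrib_right, disjoint_iff_inter_eq_empty.1 hV, empty_union,
      inter_eq_left.2 hT]
  rw [h5] at h4
  obtain ⟨t, ht, x, hx | hx, h6⟩ := h4
  · exact ⟨t, ht, x, hx, h6⟩
  exfalso
  have hne : t ≠ x := by
    rintro rfl
    have := ht.2
    have := hx.2
    omega
  obtain ⟨e, he, hxe⟩ := mem_EvS_of_conf h6 hne
  have he' := hT he
  have h7 := EC_bd hxe
  have h8 := hx.2
  rw [UR, mem_union] at he'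
  rcases he' with he' | he'
  · have he2 := UU_sub _ _ _ he'
    rw [mem_Rsq] at he2
    have h9 := mem_UU.1 he'
    rcases EC_row hxe with ⟨k1, k2⟩ | ⟨k1, k2⟩
    · exact hKM (sub_KK ⟨by omega, by omega, by omega, Int.odd_iff.1 (odd_da e)⟩) h9.2.1
    · exact hKM (sub_KK ⟨by omega, by omega, by omega, Int.odd_iff.1 (odd_db e)⟩) h9.2.2
  · rw [mem_Rsq] at he'
    omega

include hab hS hK in
/-- The law of the unexplored squares. -/
theorem law_UR (hQ : 0 < Q) (hc : c < 0) (hd : 0 < d) :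
    mu Q (UR a b c d S) (con pa pb ⊥ (S \ UU (Rsq a b c 0) (sdY 1 0 a b)
      (KK (Rsq a b c 0) (sdY 1 c a b) S))) (fun T => J T (Up d) (XR a b c d S)) =
      m Q (UR a b c d S) (XR a b c d S) (Up d) (XR a b c d S) := by
  refine mu_congr hQ (fun x hx y hy => ⟨fun h => ?_, ?_⟩) fun _ _ => Iff.rfl
  · rw [conf_iff_con] at h
    refine (conf_le' (R := wir (XR a b c d S)) fun e he => ?_) h
    have h4 : e ∈ Rsq a b c d \ UR a b c d S := by
      rw [mem_sdiff] at he ⊢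
      have h5 := hS he.1
      refine ⟨?_, fun h => ?_⟩
      · rw [mem_Rsq] at h5 ⊢
        omega
      · rw [UR, mem_union] at h
        rcases h with h | h
        · exact he.2 h
        · rw [mem_Rsq] at h5 h
          omega
    exact Or.inr ⟨mem_EvS_pa h4, mem_EvS_pb h4⟩
  · rintro (h | ⟨h, h'⟩)
    · rw [h]
    · rw [conf_iff_con]
      obtain ⟨e, he, hxe⟩ := XR_cut hab h hx
      obtain ⟨e', he', hye⟩ := XR_cut hab h' hy
      exact cut_one (quad_rect hab hc.le) hS hK he he' hxe hye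

include hab hS hK in
theorem region_le (hQ : 0 < Q) (hQ1 : Q ≤ 1) (hc : c < 0) (hd : 0 < d) :
    mu Q (UR a b c d S) (con pa pb ⊥ (S \ UU (Rsq a b c 0) (sdY 1 0 a b)
      (KK (Rsq a b c 0) (sdY 1 c a b) S))) (fun T => J T (Up d) (XR a b c d S)) ≤
      m Q (Rsq a b 0 d) (Dn 0) (Up d) (Dn 0) := by
  rw [law_UR hab hS hK hQ hc hd]
  refine (m_t1 hQ hQ1 XR_Dn).trans_eq ?_
  refine m_restrict hQ subset_union_right ?_ subset_rfl
  rintro x ⟨e, he, hxe⟩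
  rw [mem_sdiff, UR, mem_union] at he
  have he2 : e ∈ Rsq a b c 0 := UU_sub _ _ _ (by tauto)
  rw [mem_Rsq] at he2
  have := EC_bd hxe
  exact ⟨EC_even hxe, by omega⟩

end region

theorem UR_self {S S' : Finset (ℤ × ℤ)}
    (h : S' \ (EE (Rsq a b c 0) (sdY 1 c a b) (sdY 1 0 a b) (S ∩ Rsq a b c 0) ∪ Rsq a b 0 d) =
      S \ (EE (Rsq a b c 0) (sdY 1 c a b) (sdY 1 0 a b) (S ∩ Rsq a b c 0) ∪ Rsq a b 0 d)) :
    EE (Rsq a b c 0) (sdY 1 c a b) (sdY 1 0 a b) (S' ∩ Rsq a b c 0) ∪ Rsq a b 0 d =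
      EE (Rsq a b c 0) (sdY 1 c a b) (sdY 1 0 a b) (S ∩ Rsq a b c 0) ∪ Rsq a b 0 d := by
  congr 1
  refine EE_self ?_
  ext e
  have h2 : e ∈ S' \ (EE (Rsq a b c 0) (sdY 1 c a b) (sdY 1 0 a b) (S ∩ Rsq a b c 0) ∪
      Rsq a b 0 d) ↔ e ∈ S \ (EE (Rsq a b c 0) (sdY 1 c a b) (sdY 1 0 a b)
      (S ∩ Rsq a b c 0) ∪ Rsq a b 0 d) := by rw [h]
  rw [mem_sdiff, mem_sdiff, mem_union] at h2
  rw [mem_sdiff, mem_sdiff, mem_inter, mem_inter]
  have h3 : e ∈ Rsq a b c 0 → e ∉ Rsq a b 0 d := fun h4 h5 => by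
    rw [mem_Rsq] at h4 h5
    omega
  tauto

/-- **The exploration of the dual cluster of the bottom side.** -/
theorem explore (hQ : 0 < Q) (hQ1 : Q ≤ 1) (hab : a ≤ b) (hc : c < 0) (hd : 0 < d) :
    mu Q (Rsq a b c d) ⊥ (fun S => J S (Dn c) (Up d)) ≤
      mu Q (Rsq a b c d) ⊥ (fun S => Jd (Rsq a b c d \ S) (sdY 1 c a b) (sdY 1 0 a b)) +
        m Q (Rsq a b 0 d) (Dn 0) (Up d) (Dn 0) := by
  classical
  have hLD : Rsq a b c 0 ⊆ Rsq a b c d := fun e he => by rw [mem_Rsq] at he ⊢; omega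
  have hLR : ∀ e, e ∈ Rsq a b c 0 → e ∉ Rsq a b 0 d := fun e h4 h5 => by
    rw [mem_Rsq] at h4 h5
    omega
  have hDLR : ∀ e, e ∈ Rsq a b c d → e ∈ Rsq a b c 0 ∨ e ∈ Rsq a b 0 d := fun e h => by
    rw [mem_Rsq] at h
    rw [mem_Rsq, mem_Rsq]
    omega
  -- splitting
  refine (mu_union_le
    (P' := fun S => ¬ Disjoint (KK (Rsq a b c 0) (sdY 1 c a b) (S ∩ Rsq a b c 0)) (sdY 1 0 a b))
    (P'' := fun S => J S (Dn c) (Up d) ∧
      Disjoint (KK (Rsq a b c 0) (sdY 1 c a b) (S ∩ Rsq a b c 0)) (sdY 1 0 a b)) hQ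
    fun S _ h => by tauto).trans (add_le_add ?_ ?_)
  · refine mu_mono hQ fun S hS h => ?_
    rw [Set.not_disjoint_iff] at h
    obtain ⟨o, ⟨s, hs, h1⟩, ho⟩ := h
    refine ⟨s, hs, o, ho, conf_mono'' (fun e he => ?_) h1⟩
    rw [mem_sdiff, mem_inter] at he
    exact mem_sdiff.2 ⟨hLD he.1, fun h2 => he.2 ⟨h2, he.1⟩⟩
  have hp0 : 0 ≤ m Q (Rsq a b 0 d) (Dn 0) (Up d) (Dn 0) := mu_nonneg hQ _
  have hconst : m Q (Rsq a b 0 d) (Dn 0) (Up d) (Dn 0) =
      GE pa pb (fun _ => Q) (Q ^ 2) (Rsq a b c d) ⊥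
        (fun _ => m Q (Rsq a b 0 d) (Dn 0) (Up d) (Dn 0)) :=
    (GE_const (fun _ => hQ.le) (pow_pos hQ 2) _).symm
  rw [hconst, mu, GP]
  refine tower_ge (fun _ => hQ) (pow_pos hQ 2) ⊥
    (fun S => EE (Rsq a b c 0) (sdY 1 c a b) (sdY 1 0 a b) (S ∩ Rsq a b c 0) ∪ Rsq a b 0 d)
    (fun S _ => union_subset (EE_sub.trans hLD) fun e he => by rw [mem_Rsq] at he ⊢; omega)
    (fun S hS S' hS' h => UR_self h) fun S hS => ?_
  beta_reduce
  by_cases hK : Disjoint (KK (Rsq a b c 0) (sdY 1 c a b) (S ∩ Rsq a b c 0)) (sdY 1 0 a b)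
  swap
  · -- the cluster reaches the line
    rw [EE, if_neg hK, empty_union]
    refine le_trans (le_of_eq ?_) hp0
    have h1 : GE pa pb (fun _ => Q) (Q ^ 2) (Rsq a b 0 d) (con pa pb ⊥ (S \ Rsq a b 0 d))
      (fun _ => (0 : ℝ)) = 0 := GE_const (fun _ => hQ.le) (pow_pos hQ 2) 0
    refine Eq.trans (GE_congr (pow_pos hQ 2) (fun _ _ _ _ => Iff.rfl) fun T hT => if_neg ?_) h1
    rintro ⟨-, h2⟩
    refine hK ?_
    have h3 : (S \ Rsq a b 0 d ∪ T) ∩ Rsq a b c 0 = S ∩ Rsq a b c 0 := by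
      ext e
      rw [mem_inter, mem_union, mem_sdiff, mem_inter]
      have h3 := hLR e
      have h4 : e ∈ T → e ∈ Rsq a b 0 d := fun h => hT h
      tauto
    rwa [h3] at h2
  rw [EE, if_pos hK]
  have hV : S \ (UU (Rsq a b c 0) (sdY 1 0 a b) (KK (Rsq a b c 0) (sdY 1 c a b)
      (S ∩ Rsq a b c 0)) ∪ Rsq a b 0 d) = (S ∩ Rsq a b c 0) \ UU (Rsq a b c 0) (sdY 1 0 a b)
      (KK (Rsq a b c 0) (sdY 1 c a b) (S ∩ Rsq a b c 0)) := by
    ext e
    have h1 : e ∈ S → _ := fun h => hDLR e (hS h)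
    have h3 := hLR e
    rw [mem_sdiff, mem_sdiff, mem_inter, mem_union]
    tauto
  rw [hV]
  refine le_trans ?_ (region_le (d := d) hab inter_subset_right hK hQ hQ1 hc hd)
  refine mu_mono (D := UR a b c d (S ∩ Rsq a b c 0)) hQ
    (P := fun T => J ((S ∩ Rsq a b c 0) \ UU (Rsq a b c 0) (sdY 1 0 a b)
      (KK (Rsq a b c 0) (sdY 1 c a b) (S ∩ Rsq a b c 0)) ∪ T) (Dn c) (Up d) ∧
      Disjoint (KK (Rsq a b c 0) (sdY 1 c a b) (((S ∩ Rsq a b c 0) \ UU (Rsq a b c 0)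
        (sdY 1 0 a b) (KK (Rsq a b c 0) (sdY 1 c a b) (S ∩ Rsq a b c 0)) ∪ T) ∩
        Rsq a b c 0)) (sdY 1 0 a b)) fun T hT h1 => ?_
  refine last_exit hK hc hd (sdiff_subset.trans (inter_subset_right.trans hLD)) ?_ hT h1.1
  rw [disjoint_left]
  intro e he he'
  rw [mem_sdiff, mem_inter] at he
  rw [UR, mem_union] at he'
  exact he'.elim he.2 (hLR e he.1.2)

end Vale.Agent.P167.H366
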