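import Vale.Agent.P167.H366.Box
import Vale.Agent.P167.H816.Vr

/-!
# P167, v-RSW: crossing probabilities of boxes, everything outside identified
-/

set_option autoImplicit false
set_option linter.unusedSectionVars false

namespace Vale.Agent.P167.H366

open Finset Vale.Agent.P167.H623 Vale.Agent.P167.H92 Vale.Agent.P167.H816 Vale.Agent.P167.FK
open Vale.Agent.P167.H262 (Rsq mem_Rsq)

variable {Q : ℝ} {S : Finset (ℤ × ℤ)} {A A' B B' : Set (ℤ × ℤ)} {a b c d a' b' c' d' : ℤ}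

/-- The sites outside of the open box. -/
def Yo (a b c d : ℤ) : Set (ℤ × ℤ) := {p | p.1 ≤ a ∨ b ≤ p.1 ∨ p.2 ≤ c ∨ d ≤ p.2}

/-- The crossing probability of the box, everything outside identified. -/
noncomputable def M (Q : ℝ) (a b c d : ℤ) (A B : Set (ℤ × ℤ)) : ℝ :=
  m Q (Rsq a b c d) (Yo a b c d) A B

theorem pa_fst (e : ℤ × ℤ) : (pa e).1 = e.1 := by simp only [pa]; split_ifs <;> rfl

theorem pb_fst (e : ℤ × ℤ) : (pb e).1 = e.1 + 1 := by simp only [pb]; split_ifs <;> rfl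

theorem pa_snd (e : ℤ × ℤ) : (pa e).2 = e.2 ∨ (pa e).2 = e.2 + 1 := by
  simp only [pa]; split_ifs
  · left; rfl
  · right; rfl

theorem pb_snd (e : ℤ × ℤ) : (pb e).2 = e.2 ∨ (pb e).2 = e.2 + 1 := by
  simp only [pb]; split_ifs
  · right; rfl
  · left; rfl

theorem EC_bd {s e : ℤ × ℤ} (h : EC s e) :
    (e.1 = s.1 ∨ e.1 = s.1 - 1) ∧ (e.2 = s.2 ∨ e.2 = s.2 - 1) := by
  rcases h with rfl | rfl
  · have := pa_fst e; have := pa_snd e; omega
  · have := pb_fst e; have := pb_snd e; omega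

theorem EC_even {s e : ℤ × ℤ} (h : EC s e) : Even (s.1 + s.2) := by
  rcases h with rfl | rfl
  · exact even_pa e
  · exact even_pb e

theorem EC_of {s : ℤ × ℤ} (hev : Even (s.1 + s.2)) {g : ℤ × ℤ} (h1 : g.1 = s.1 ∨ g.1 = s.1 - 1)
    (h2 : g.2 = s.2 ∨ g.2 = s.2 - 1) : EC s g := by
  obtain ⟨g1, g2⟩ := g
  simp only at h1 h2
  obtain ⟨k, hk⟩ := hev
  by_cases hp : Even (g1 + g2)
  · have h3 : (g1 = s.1 ∧ g2 = s.2) ∨ (g1 = s.1 - 1 ∧ g2 = s.2 - 1) := by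
      obtain ⟨l, hl⟩ := hp
      omega
    rcases h3 with ⟨h3, h4⟩ | ⟨h3, h4⟩
    · left
      simp only [pa, if_pos hp]
      exact Prod.ext h3 h4
    · right
      simp only [pb, if_pos hp]
      exact Prod.ext (by simp only; omega) (by simp only; omega)
  · have hp' := Int.not_even_iff_odd.1 hp
    have h3 : (g1 = s.1 ∧ g2 = s.2 - 1) ∨ (g1 = s.1 - 1 ∧ g2 = s.2) := by
      obtain ⟨l, hl⟩ := hp'
      omega
    rcases h3 with ⟨h3, h4⟩ | ⟨h3, h4⟩
    · left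
      simp only [pa, if_neg hp]
      exact Prod.ext h3 (by simp only; omega)
    · right
      simp only [pb, if_neg hp]
      exact Prod.ext (by simp only; omega) (by simp only; omega)

theorem EvS_even {D : Finset (ℤ × ℤ)} {s : ℤ × ℤ} (h : s ∈ EvS D) : Even (s.1 + s.2) := by
  obtain ⟨e, -, h⟩ := h
  exact EC_even h

theorem EvS_box {s : ℤ × ℤ} (h : s ∈ EvS (Rsq a b c d)) :
    a ≤ s.1 ∧ s.1 ≤ b ∧ c ≤ s.2 ∧ s.2 ≤ d := by
  obtain ⟨e, he, h⟩ := h
  rw [mem_Rsq] at he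
  have := EC_bd h
  omega

theorem mem_EvS_box {s : ℤ × ℤ} (hs : Even (s.1 + s.2)) (hab : a < b) (hcd : c < d)
    (h1 : a ≤ s.1) (h2 : s.1 ≤ b) (h3 : c ≤ s.2) (h4 : s.2 ≤ d) : s ∈ EvS (Rsq a b c d) := by
  refine ⟨(if s.1 = b then s.1 - 1 else s.1, if s.2 = d then s.2 - 1 else s.2), ?_,
    EC_of hs ?_ ?_⟩
  · rw [mem_Rsq]
    simp only
    split_ifs <;> omega
  · simp only
    split_ifs
    · right; rfl
    · left; rfl
  · simp only
    split_ifs
    · right; rfl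
    · left; rfl

theorem Yo_anti (ha : a ≤ a') (hb : b' ≤ b) (hc : c ≤ c') (hd : d' ≤ d) :
    Yo a b c d ⊆ Yo a' b' c' d' := by
  intro p hp
  simp only [Yo, Set.mem_ofPred_eq] at hp ⊢
  omega

theorem EvS_sdiff_box {D : Finset (ℤ × ℤ)} : EvS (D \ Rsq a b c d) ⊆ Yo a b c d := by
  rintro s ⟨e, he, h⟩
  rw [mem_sdiff, mem_Rsq] at he
  have := EC_bd h
  simp only [Yo, Set.mem_ofPred_eq]
  omega

/-- In terms of the measures of the field. -/
theorem M_eq_Pr (hQ : 0 < Q) (hA : ∀ s ∈ A, Even (s.1 + s.2)) :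
    M Q a b c d A B = Pr Q (Rsq a b c d) eta1 (H262.CI (Rsq a b c d) A B) := by
  rw [rect_mm hQ hA, ← m_eq_mm hQ, M, m, m]
  refine mu_congr hQ (fun x hx y hy => ?_) fun _ _ => Iff.rfl
  have key : ∀ z ∈ EvS (Rsq a b c d), z ∈ Yo a b c d ↔ z ∈ H262.Pb (Rsq a b c d) := fun z hz =>
    ⟨fun h => H262.mem_Pb_rect (EvS_even hz) h, fun h => by
      have h1 := H262.Pb_rect h
      simp only [Yo, Set.mem_ofPred_eq]
      omega⟩
  constructor
  · rintro (h | ⟨h, h'⟩)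
    · exact Or.inl h
    · exact Or.inr ⟨(key x hx).1 h, (key y hy).1 h'⟩
  · rintro (h | ⟨h, h'⟩)
    · exact Or.inl h
    · exact Or.inr ⟨(key x hx).2 h, (key y hy).2 h'⟩

theorem M_eq_cH (hQ : 0 < Q) : M Q a b c d (Lf a) (Rg b) = cH Q a b c d :=
  M_eq_Pr hQ fun _ h => h.1

theorem M_eq_cV (hQ : 0 < Q) : M Q a b c d (Dn c) (Up d) = cV Q a b c d :=
  M_eq_Pr hQ fun _ h => h.1

theorem M_symm (hQ : 0 < Q) : M Q a b c d A B = M Q a b c d B A := m_symm hQ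

theorem M_mono_sets (hQ : 0 < Q) (hA : A ⊆ A') (hB : B ⊆ B') :
    M Q a b c d A B ≤ M Q a b c d A' B' := m_mono_sets hQ hA hB

theorem M_nonneg (hQ : 0 < Q) : 0 ≤ M Q a b c d A B := mu_nonneg hQ _

/-- Crossings of a smaller box. -/
theorem M_inner (hQ : 0 < Q) (hQ1 : Q ≤ 1) (ha : a ≤ a') (hb : b' ≤ b) (hc : c ≤ c')
    (hd : d' ≤ d) (hA : A ⊆ Yo a' b' c' d') :
    M Q a' b' c' d' A B ≤ mu Q (Rsq a b c d) (wir (Yo a b c d))
      fun S => J (S ∩ Rsq a' b' c' d') A B := by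
  refine m_inner hQ hQ1 (fun e he => ?_) (Yo_anti ha hb hc hd) EvS_sdiff_box hA
  rw [mem_Rsq] at he ⊢
  omega

theorem M_mono (hQ : 0 < Q) (hQ1 : Q ≤ 1) (ha : a ≤ a') (hb : b' ≤ b) (hc : c ≤ c')
    (hd : d' ≤ d) (hA : A ⊆ Yo a' b' c' d') : M Q a' b' c' d' A B ≤ M Q a b c d A B :=
  (M_inner hQ hQ1 ha hb hc hd hA).trans (mu_mono hQ fun _ _ h => h.mono inter_subset_left)

/-- Growing one of the sets by everything outside of a smaller box. -/
theorem M_grow (hQ : 0 < Q) (hQ1 : Q ≤ 1) (ha : a ≤ a') (hb : b' ≤ b) (hA : A ⊆ Yo a b c d)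
    (hB : B ⊆ Yo a b c d) (h : A ⊆ A') (hA' : A' ⊆ Yo a' b' c d)
    (hX : EvS (Rsq a b c d \ Rsq a' b' c d) ⊆ A') :
    M Q a b c d A B ≤ M Q a' b' c d A' B := by
  have hU : Rsq a' b' c d ⊆ Rsq a b c d := by
    intro e he
    rw [mem_Rsq] at he ⊢
    omega
  refine (m_grow hQ hQ1 hA hB h).trans_eq ?_
  rw [m_symm hQ, m_restrict hQ hU hX Set.subset_union_right, m_symm hQ, M, m, m]
  refine mu_congr hQ (fun x hx y hy => ?_) fun _ _ => Iff.rfl
  have key : ∀ z ∈ EvS (Rsq a' b' c d), z ∈ Yo a b c d ∪ A' ↔ z ∈ Yo a' b' c d := by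
    intro z hz
    constructor
    · rintro (h1 | h1)
      · exact Yo_anti ha hb le_rfl le_rfl h1
      · exact hA' h1
    · intro h1
      by_cases h2 : z ∈ Yo a b c d
      · exact Or.inl h2
      · refine Or.inr (hX ?_)
        obtain ⟨e, he, hze⟩ := hz
        rw [mem_Rsq] at he
        have h3 := EC_bd hze
        simp only [Yo, Set.mem_ofPred_eq] at h1 h2
        have h4 : z.1 = a' ∨ z.1 = b' := by omega
        rcases h4 with h4 | h4
        · refine ⟨(z.1 - 1, e.2), ?_, EC_of (EC_even hze) (Or.inr rfl) h3.2⟩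
          rw [mem_sdiff, mem_Rsq, mem_Rsq]
          simp only
          omega
        · refine ⟨(z.1, e.2), ?_, EC_of (EC_even hze) (Or.inl rfl) h3.2⟩
          rw [mem_sdiff, mem_Rsq, mem_Rsq]
          simp only
          omega
  constructor
  · rintro (h | ⟨h, h'⟩)
    · exact Or.inl h
    · exact Or.inr ⟨(key x hx).1 h, (key y hy).1 h'⟩
  · rintro (h | ⟨h, h'⟩)
    · exact Or.inl h
    · exact Or.inr ⟨(key x hx).2 h, (key y hy).2 h'⟩

theorem M_left (hQ : 0 < Q) (hQ1 : Q ≤ 1) (ha : a ≤ a') (hA : A ⊆ Yo a b c d)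
    (hB : B ⊆ Yo a b c d) (h : A ⊆ Lf a') : M Q a b c d A B ≤ M Q a' b c d (Lf a') B := by
  refine M_grow hQ hQ1 ha le_rfl hA hB h (fun s hs => Or.inl hs.2) fun s hs => ?_
  refine ⟨EvS_even hs, ?_⟩
  obtain ⟨e, he, hse⟩ := hs
  rw [mem_sdiff, mem_Rsq, mem_Rsq] at he
  have := EC_bd hse
  omega

theorem M_right (hQ : 0 < Q) (hQ1 : Q ≤ 1) (hb : b' ≤ b) (hA : A ⊆ Yo a b c d)
    (hB : B ⊆ Yo a b c d) (h : B ⊆ Rg b') : M Q a b c d A B ≤ M Q a b' c d A (Rg b') := by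
  rw [M_symm hQ, M_symm (a := a) (b := b') hQ]
  refine M_grow hQ hQ1 le_rfl hb hB hA h (fun s hs => Or.inr (Or.inl hs.2)) fun s hs => ?_
  refine ⟨EvS_even hs, ?_⟩
  obtain ⟨e, he, hse⟩ := hs
  rw [mem_sdiff, mem_Rsq, mem_Rsq] at he
  have := EC_bd hse
  omega

/-- A tube around `A`: the path goes to `B` or to the sides of the tube. -/
theorem M_tube (hQ : 0 < Q) (hQ1 : Q ≤ 1) (ha : a ≤ a') (hb : b' ≤ b) (hA : A ⊆ Yo a b c d)
    (hB : B ⊆ Yo a b c d) :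
    M Q a b c d A B ≤ M Q a' b' c d A (B ∪ (Lf a' ∪ Rg b')) := by
  rw [M_symm hQ, M_symm (a := a') (b := b') hQ]
  refine M_grow hQ hQ1 ha hb hB hA Set.subset_union_left ?_ fun s hs => Or.inr ?_
  · rintro s (hs | hs | hs)
    · exact Yo_anti ha hb le_rfl le_rfl (hB hs)
    · exact Or.inl hs.2
    · exact Or.inr (Or.inl hs.2)
  · have h1 := EvS_even hs
    obtain ⟨e, he, hse⟩ := hs
    rw [mem_sdiff, mem_Rsq, mem_Rsq] at he
    have := EC_bd hse
    by_cases h2 : s.1 ≤ a'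
    · exact Or.inl ⟨h1, h2⟩
    · exact Or.inr ⟨h1, by omega⟩

theorem M_union_le (hQ : 0 < Q) : M Q a b c d A (B ∪ B') ≤ M Q a b c d A B + M Q a b c d A B' := by
  refine mu_union_le hQ fun S _ => ?_
  rintro ⟨s, hs, t, ht | ht, h⟩
  · exact Or.inl ⟨s, hs, t, ht, h⟩
  · exact Or.inr ⟨s, hs, t, ht, h⟩

theorem M_empty (hQ : 0 < Q) : M Q a b c d A ∅ = 0 := by
  have h : M Q a b c d A ∅ = mu Q (Rsq a b c d) (wir (Yo a b c d)) fun _ => False := by
    refine mu_congr hQ (fun _ _ _ _ => Iff.rfl) fun S _ => ?_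
    constructor
    · rintro ⟨s, hs, t, ht, h⟩
      exact ht
    · exact fun h => h.elim
  rw [h]
  have h1 := mu_not (D := Rsq a b c d) (r := wir (Yo a b c d)) hQ fun _ => False
  have h2 : mu Q (Rsq a b c d) (wir (Yo a b c d)) (fun _ => ¬ False) = 1 := by
    have h3 := GE_const (a := pa) (b := pb) (D := Rsq a b c d) (r := wir (Yo a b c d))
      (w := fun _ => Q) (q := Q ^ 2) (fun _ => hQ.le) (pow_pos hQ 2) 1
    rw [← h3, mu, GP]
    refine GE_congr (pow_pos hQ 2) (fun _ _ _ _ => Iff.rfl) fun S _ => ?_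
    rw [if_pos (fun h => h)]
  linarith

theorem M_biUnion_le (hQ : 0 < Q) {κ : Type*} (I : Finset κ) (Bi : κ → Set (ℤ × ℤ)) :
    M Q a b c d A (⋃ i ∈ I, Bi i) ≤ ∑ i ∈ I, M Q a b c d A (Bi i) := by
  classical
  induction I using Finset.induction_on with
  | empty => simp only [notMem_empty, Set.iUnion_of_empty, Set.iUnion_empty, M_empty hQ, sum_empty,
      le_refl]
  | insert i I hi ih =>
    rw [sum_insert hi, Finset.set_biUnion_insert]
    exact (M_union_le hQ).trans (by gcongr)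

/-- Pigeonhole. -/
theorem M_pigeon (hQ : 0 < Q) {κ : Type*} {I : Finset κ} (hI : I.Nonempty)
    (Bi : κ → Set (ℤ × ℤ)) {x : ℝ} (h : x ≤ M Q a b c d A (⋃ i ∈ I, Bi i)) :
    ∃ i ∈ I, x / I.card ≤ M Q a b c d A (Bi i) := by
  refine exists_le_of_sum_le hI (f := fun _ => x / (I.card : ℝ)) ?_
  rw [sum_const, nsmul_eq_mul, mul_div_cancel₀]
  · exact h.trans (M_biUnion_le hQ I Bi)
  · exact Nat.cast_ne_zero.2 hI.card_pos.ne'

end Vale.Agent.P167.H366
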