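import Vale.Agent.P167.N.NET.Vrs
import Vale.Agent.P167.H685.LD.Meet

/-!
# P167, `q < 1`: tubes whose ends are crossed by walls

`clip`: a tube `T` with the ends `A`, `B`; `G₁`, `G₂` windows of `T` at the two ends which are crossed
by `K₁`, `K₂` (arbitrary sets of squares). Then the probability that `K₁` and `K₂` are joined by
squares of `T` which are not in `K₁ ∪ K₂` is at least `VT Q e T A B`, for every configuration outside.
-/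

set_option autoImplicit false
set_option linter.unusedSectionVars false

namespace Vale.Agent.P167.H366.Clip

open Finset Vale.Agent.P167 Vale.Agent.P167.FK Vale.Agent.P167.H816 Vale.Agent.P167.H262
  Vale.Agent.P167.H632 Vale.Agent.P167.H871 Vale.Agent.P167.H192.TA Vale.Agent.P167.N.NET
open Vale.Agent.P145.FB (PStep PConn)
open Vale.Agent.P153.Topo (Rect mem_rect)
open Relation (ReflTransGen)

variable {Q : ℝ} {D T : Finset Pt} {η : Cfg} {e : Bool} {a b c d : ℤ} {A B : Set Pt}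

/-- The squares of `G` without corners in common with `K`. -/
def Fr (e : Bool) (G K : Set Pt) : Set Pt := {t | t ∈ G ∧ ∀ x, Cor e t x → x ∉ Vc e K}

/-- The sites which are joined to `A` in `G` without touching `K`. -/
def Rch (e : Bool) (G K A : Set Pt) : Set Pt := {x | x ∉ Vc e K ∧ ∃ a ∈ A, Pw (Fr e G K) a x}

theorem cor_two {t x y z : Pt} (hx : Cor e t x) (hy : Cor e t y) (hz : Cor e t z) (h : x ≠ y) :
    z = x ∨ z = y := by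
  rw [cor_iff] at hx hy hz
  rcases hx with rfl | rfl <;> rcases hy with rfl | rfl <;> rcases hz with rfl | rfl <;> tauto

theorem Rch.next {G K A : Set Pt} {t x u : Pt} (ht : t ∈ G) (hx : x ∈ Rch e G K A) (h : Cor e t x)
    (hu : Cor e t u) (hK : u ∉ Vc e K) : u ∈ Rch e G K A := by
  by_cases hxu : x = u
  · rwa [← hxu]
  obtain ⟨h1, a, ha, h2⟩ := hx
  refine ⟨hK, a, ha, h2.trans (pw_of_cor ⟨ht, fun z hz => ?_⟩ h hu)⟩
  rcases cor_two h hu hz hxu with rfl | rfl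
  · exact h1
  · exact hK

open Classical in
/-- The squares behind the wall. -/
noncomputable def Wq (e : Bool) (G : Finset Pt) (K A : Set Pt) : Finset Pt :=
  G.filter fun t => ∃ x ∈ Rch e (↑G) K A, Cor e t x

theorem mem_Wq {G : Finset Pt} {K A : Set Pt} {t : Pt} :
    t ∈ Wq e G K A ↔ t ∈ G ∧ ∃ x ∈ Rch e (↑G) K A, Cor e t x := by
  classical
  rw [Wq, mem_filter]

theorem clip_aux {G₁ G₂ K₁ K₂ : Finset Pt} (hG2 : G₂ ⊆ T) (hd : Disjoint G₁ G₂)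
    (hA : ∀ u ∈ A, (u.1 + u.2) % 2 = pr e)
    (P1 : ∀ x ∈ Rch e ↑G₁ ↑K₁ A, x ∉ Vc e ↑(T \ G₁) ∧ x ∉ B) {L₁ L₂ : Finset Pt}
    (h1 : L₁ = (K₁ ∩ T) \ Wq e G₂ K₂ B ∪ Wq e G₁ K₁ A)
    (h2 : L₂ = (K₂ ∩ T) \ Wq e G₁ K₁ A ∪ Wq e G₂ K₂ B) {F : Set Pt} (hF : F ⊆ ↑(T \ (L₁ ∪ L₂)))
    {u v : Pt} (hu : u ∈ A ∪ Vc e ↑L₁) (hv : v ∈ B ∪ Vc e ↑L₂) (h : Pw F u v) : u ∈ Vc e ↑K₁ := by
  by_contra hcon
  have hup : (u.1 + u.2) % 2 = pr e := by
    rcases hu with hu | ⟨t, -, ht⟩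
    · exact hA u hu
    · exact ht.2.2
  have hR : u ∈ Rch e ↑G₁ ↑K₁ A := by
    rcases hu with hu | ⟨t, ht, htu⟩
    · exact ⟨hcon, u, hu, ReflTransGen.refl⟩
    · rw [mem_coe, h1, mem_union, mem_sdiff, mem_inter] at ht
      rcases ht with ht | ht
      · exact absurd ⟨t, ht.1.1, htu⟩ hcon
      · obtain ⟨ht1, x, hx, hxt⟩ := mem_Wq.1 ht
        exact Rch.next ht1 hx hxt htu hcon
  obtain ⟨q1, q2⟩ := P1 u hR
  -- a square of `T` which is not behind the wall and has the corner `u` is not in `G₁`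
  have key : ∀ t ∈ T, t ∉ Wq e G₁ K₁ A → Cor e t u → False := by
    intro t ht htW htu
    by_cases htG : t ∈ G₁
    · exact htW (mem_Wq.2 ⟨htG, u, hR, htu⟩)
    · exact q1 ⟨t, mem_sdiff.2 ⟨ht, htG⟩, htu⟩
  rcases ReflTransGen.cases_head h with h3 | ⟨w, h3, -⟩
  · subst h3
    rcases hv with hv | ⟨t, ht, htu⟩
    · exact q2 hv
    · rw [mem_coe, h2, mem_union, mem_sdiff, mem_inter] at ht
      rcases ht with ht | ht
      · exact key t ht.1.2 ht.2 htu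
      · have h4 := (mem_Wq.1 ht).1
        exact q1 ⟨t, mem_sdiff.2 ⟨hG2 h4, fun h5 => (disjoint_left.1 hd) h5 h4⟩, htu⟩
  · have h4 := hF h3.2.2
    rw [mem_coe, mem_sdiff, mem_union, not_or] at h4
    refine key _ h4.1 (fun h5 => h4.2.1 ?_) (cor_of_step h3 hup).1
    rw [h1]
    exact mem_union_right _ h5

/-- **Tubes with walls at the ends.** -/
theorem clip (hQ : 0 < Q) (hQ1 : Q ≤ 1) (hη : Good η) {G₁ G₂ K₁ K₂ : Finset Pt} (hG1 : G₁ ⊆ T)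
    (hG2 : G₂ ⊆ T) (hd : Disjoint G₁ G₂) (hA : A ⊆ Bd e T) (hB : B ⊆ Bd e T)
    (P1 : ∀ x ∈ Rch e ↑G₁ ↑K₁ A, x ∉ Vc e ↑(T \ G₁) ∧ x ∉ B)
    (P2 : ∀ x ∈ Rch e ↑G₂ ↑K₂ B, x ∉ Vc e ↑(T \ G₂) ∧ x ∉ A) (hD : T \ (K₁ ∪ K₂) ⊆ D) :
    VT Q e T A B ≤ Pr Q D η (Jn e ↑(T \ (K₁ ∪ K₂)) (Vc e ↑K₁) (Vc e ↑K₂)) := by
  obtain ⟨L₁, h1⟩ : ∃ L, L = (K₁ ∩ T) \ Wq e G₂ K₂ B ∪ Wq e G₁ K₁ A := ⟨_, rfl⟩
  obtain ⟨L₂, h2⟩ : ∃ L, L = (K₂ ∩ T) \ Wq e G₁ K₁ A ∪ Wq e G₂ K₂ B := ⟨_, rfl⟩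
  have w1 : Wq e G₁ K₁ A ⊆ T := fun t ht => hG1 (mem_Wq.1 ht).1
  have w2 : Wq e G₂ K₂ B ⊆ T := fun t ht => hG2 (mem_Wq.1 ht).1
  have s1 : L₁ ⊆ T := by
    rw [h1]
    exact union_subset (sdiff_subset.trans inter_subset_right) w1
  have s2 : L₂ ⊆ T := by
    rw [h2]
    exact union_subset (sdiff_subset.trans inter_subset_right) w2
  have s3 : T \ (L₁ ∪ L₂) ⊆ T \ (K₁ ∪ K₂) := by
    intro t ht
    rw [mem_sdiff, mem_union, not_or, h1, h2] at ht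
    simp only [mem_union, mem_sdiff, mem_inter, not_or, not_and, not_not] at ht ⊢
    tauto
  refine le_Pr_of_forall hQ hη (s3.trans hD) fun S _ => ?_
  have k := rough (e := e) hQ hQ1 s1 s2 hA hB (good_cf D hη S)
  refine k.trans (FKA.Pr_mono hQ ?_)
  rintro ω ⟨u, hu, v, hv, h⟩
  refine ⟨u, ?_, v, ?_, h.mono (Set.inter_subset_inter_right _ (coe_subset.2 s3))⟩
  · exact clip_aux hG2 hd (fun u hu => Bd.par (hA hu)) P1 h1 h2 (F := cs e ω ∩ ↑(T \ (L₁ ∪ L₂)))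
      Set.inter_subset_right hu hv h
  · exact clip_aux hG1 hd.symm (fun u hu => Bd.par (hB hu)) P2 h2 h1
      (F := cs e ω ∩ ↑(T \ (L₁ ∪ L₂))) (by rw [union_comm L₂]; exact Set.inter_subset_right) hv hu
      h.symm

/-! ### Windows -/

theorem vc_of_pconn {F R : Set Pt} {w w' z : Pt} (hp : (w.1 + w.2) % 2 = pr e) (hne : w ≠ w')
    (h : PConn F R w w') (hz : PConn F R w z) : z ∈ Vc e F := by
  by_cases hwz : w = z
  · subst hwz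
    rcases ReflTransGen.cases_head h.2 with h1 | ⟨x, h1, -⟩
    · exact absurd h1 hne
    · exact ⟨_, h1.1.2.2, (cor_of_step h1.1 hp).1⟩
  · rcases ReflTransGen.cases_tail hz.2 with h1 | ⟨x, h1, h2⟩
    · exact absurd h1.symm hwz
    · have hx : (x.1 + x.2) % 2 = pr e := by
        rw [← (show PConn F R w x from ⟨hz.1, h1⟩).parity, hp]
      exact ⟨_, h2.1.2.2, (cor_of_step h2.1 hx).2.1⟩

/-- A vertical crossing of the rectangle by `K`. -/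
def CrV (e : Bool) (K : Set Pt) (a b c d : ℤ) : Prop :=
  ∃ y y' : Pt, y.2 = c ∧ y'.2 = d ∧ (y.1 + y.2) % 2 = pr e ∧ PConn K (Rect a b c d) y y'

/-- A horizontal crossing of the rectangle by `K`. -/
def CrH (e : Bool) (K : Set Pt) (a b c d : ℤ) : Prop :=
  ∃ y y' : Pt, y.1 = a ∧ y'.1 = b ∧ (y.1 + y.2) % 2 = pr e ∧ PConn K (Rect a b c d) y y'

theorem no_cross {K : Set Pt} {w w' y y' : Pt} (hab : a < b) (hcd : c < d)
    (h : PConn K (Rect a b c d) y y') (hy : y.2 = c) (hy' : y'.2 = d) (hp : (y.1 + y.2) % 2 = pr e)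
    {G : Set Pt} (h' : PConn (Fr e G K) (Rect a b c d) w w') (hw : w.1 = a) (hw' : w'.1 = b)
    (hp' : (w.1 + w.2) % 2 = pr e) : False := by
  obtain ⟨z, hz, hz'⟩ := Vale.Agent.P167.H685.LD.meet2 h hy.le hy'.ge hp h' hw.le hw'.ge hp' hab.le
    hcd.le
  have k1 : z ∈ Vc e K := vc_of_pconn hp (by rintro rfl; omega) h hz
  obtain ⟨t, ht, htz⟩ := vc_of_pconn hp' (by rintro rfl; omega) h' hz'
  exact ht.2 z htz k1

theorem rch_rect {K : Set Pt} {x : Pt} (hA : ∀ u ∈ A, u ∈ Rsi a b c d)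
    (h : x ∈ Rch e ↑(Rsq a b c d) K A) :
    ∃ u ∈ A, PConn (Fr e ↑(Rsq a b c d) K) (Rect a b c d) u x := by
  obtain ⟨h1, u, hu, h2⟩ := h
  refine ⟨u, hu, (pw_rect (hA u hu)).1 (h2.mono ?_)⟩
  intro t ht
  exact ⟨ht, ht.1⟩

theorem wnd_L {K : Set Pt} {x : Pt} (hab : a < b) (hcd : c < d) (hK : CrV e K a b c d)
    (h : x ∈ Rch e ↑(Rsq a b c d) K (Vs e a c d)) :
    a ≤ x.1 ∧ x.1 < b ∧ c ≤ x.2 ∧ x.2 ≤ d := by
  obtain ⟨u, ⟨u1, u2, u3, u4⟩, k⟩ := rch_rect (fun u hu => ⟨by have := hu.1; omega,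
    by have := hu.1; omega, hu.2.1, hu.2.2.1⟩) h
  have hx := k.right_mem
  rw [mem_rect] at hx
  refine ⟨hx.1, lt_of_le_of_ne hx.2.1 fun hxb => ?_, hx.2.2.1, hx.2.2.2⟩
  obtain ⟨y, y', h1, h2, h3, h4⟩ := hK
  exact no_cross hab hcd h4 h1 h2 h3 k u1 hxb u4

theorem wnd_R {K : Set Pt} {x : Pt} (hab : a < b) (hcd : c < d) (hK : CrV e K a b c d)
    (h : x ∈ Rch e ↑(Rsq a b c d) K (Vs e b c d)) :
    a < x.1 ∧ x.1 ≤ b ∧ c ≤ x.2 ∧ x.2 ≤ d := by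
  obtain ⟨u, ⟨u1, u2, u3, u4⟩, k⟩ := rch_rect (fun u hu => ⟨by have := hu.1; omega,
    by have := hu.1; omega, hu.2.1, hu.2.2.1⟩) h
  have hx := k.right_mem
  rw [mem_rect] at hx
  refine ⟨lt_of_le_of_ne hx.1 fun hxb => ?_, hx.2.1, hx.2.2.1, hx.2.2.2⟩
  obtain ⟨y, y', h1, h2, h3, h4⟩ := hK
  exact no_cross hab hcd h4 h1 h2 h3 k.symm hxb.symm u1 (by rw [← k.parity]; exact u4)

theorem no_cross' {K : Set Pt} {w w' y y' : Pt} (hab : a < b) (hcd : c < d)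
    (h : PConn K (Rect a b c d) y y') (hy : y.1 = a) (hy' : y'.1 = b) (hp : (y.1 + y.2) % 2 = pr e)
    {G : Set Pt} (h' : PConn (Fr e G K) (Rect a b c d) w w') (hw : w.2 = c) (hw' : w'.2 = d)
    (hp' : (w.1 + w.2) % 2 = pr e) : False := by
  obtain ⟨z, hz', hz⟩ := Vale.Agent.P167.H685.LD.meet2 h' hw.le hw'.ge hp' h hy.le hy'.ge hp hab.le
    hcd.le
  have k1 : z ∈ Vc e K := vc_of_pconn hp (by rintro rfl; omega) h hz
  obtain ⟨t, ht, htz⟩ := vc_of_pconn hp' (by rintro rfl; omega) h' hz'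
  exact ht.2 z htz k1

theorem wnd_B {K : Set Pt} {x : Pt} (hab : a < b) (hcd : c < d) (hK : CrH e K a b c d)
    (h : x ∈ Rch e ↑(Rsq a b c d) K (Hs e c a b)) :
    a ≤ x.1 ∧ x.1 ≤ b ∧ c ≤ x.2 ∧ x.2 < d := by
  obtain ⟨u, ⟨u1, u2, u3, u4⟩, k⟩ := rch_rect (fun u hu => ⟨hu.2.1, hu.2.2.1, by have := hu.1; omega,
    by have := hu.1; omega⟩) h
  have hx := k.right_mem
  rw [mem_rect] at hx
  refine ⟨hx.1, hx.2.1, hx.2.2.1, lt_of_le_of_ne hx.2.2.2 fun hxb => ?_⟩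
  obtain ⟨y, y', h1, h2, h3, h4⟩ := hK
  exact no_cross' hab hcd h4 h1 h2 h3 k u1 hxb u4

theorem wnd_T {K : Set Pt} {x : Pt} (hab : a < b) (hcd : c < d) (hK : CrH e K a b c d)
    (h : x ∈ Rch e ↑(Rsq a b c d) K (Hs e d a b)) :
    a ≤ x.1 ∧ x.1 ≤ b ∧ c < x.2 ∧ x.2 ≤ d := by
  obtain ⟨u, ⟨u1, u2, u3, u4⟩, k⟩ := rch_rect (fun u hu => ⟨hu.2.1, hu.2.2.1, by have := hu.1; omega,
    by have := hu.1; omega⟩) h
  have hx := k.right_mem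
  rw [mem_rect] at hx
  refine ⟨hx.1, hx.2.1, lt_of_le_of_ne hx.2.2.1 fun hxb => ?_, hx.2.2.2⟩
  obtain ⟨y, y', h1, h2, h3, h4⟩ := hK
  exact no_cross' hab hcd h4 h1 h2 h3 k.symm hxb.symm u1 (by rw [← k.parity]; exact u4)

end Vale.Agent.P167.H366.Clip
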