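import Vale.Agent.P167.H366.TA1
import Vale.Agent.P167.H366.TADef

/-!
# P167, `q < 1`: the box lemma, the tubes

`tb_kl`: the first wall crosses the window `k` of the ring `s ≤ |v| < 2 s`, the second wall crosses the
window `l` of the ring `4 s ≤ |v| < 5 s` (`T`, `B`, `L`, `R`: above, below, left, right).
-/

set_option autoImplicit false
set_option linter.unusedSectionVars false
set_option linter.unusedVariables false
set_option linter.unusedSimpArgs false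

namespace Vale.Agent.P167.H366.Clip

open Finset Vale.Agent.P167 Vale.Agent.P167.FK Vale.Agent.P167.H816 Vale.Agent.P167.H262
  Vale.Agent.P167.H632 Vale.Agent.P167.H871 Vale.Agent.P167.H192.TA Vale.Agent.P167.N.NET
open Vale.Agent.P145.FB (PStep PConn)
open Vale.Agent.P153.Topo (Rect mem_rect)
open Relation (ReflTransGen)

variable {Q : ℝ} {D T : Finset Pt} {η : Cfg} {e : Bool} {a b c d : ℤ} {A B : Set Pt}

/-! ### Turns -/

/-- `T` starts on the right side of the rectangle and leaves it on the left side. -/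
theorem tVL (hQ : 0 < Q) (hQ1 : Q ≤ 1) {κ κ' : ℝ} (h0 : 0 ≤ κ) (hκ : κ' ≤ VT Q e T A B)
    (hR : κ ≤ VT Q e (Rsq a b c d) (Hs e c a b) (Hs e d a b)) (hab : a < b) (hcd : c < d)
    (hT : ∀ t ∈ T, t ∉ Rsq a b c d → ∀ y, Cor e t y → a ≤ y.1 → y.1 ≤ b → c ≤ y.2 → y.2 ≤ d →
      y.1 ≤ a) (hAT : A ⊆ Bd e T) (hBT : B ⊆ Bd e T)
    (hA : A ⊆ Vs e b c d)
    (hB : ∀ z ∈ B, a ≤ z.1 → z.1 ≤ b → c ≤ z.2 → z.2 ≤ d → z.1 ≤ a) :
    κ' * κ ≤ VT Q e (Rsq a b c d ∪ T) (Hs e c a b) B ∧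
      κ' * κ ≤ VT Q e (Rsq a b c d ∪ T) (Hs e d a b) B := by
  have h := turn hQ hQ1 (quad_V e hab.le hcd.le).swap24 (fan_rect _ _ _ _ _)
    (bd_bot fun t ht => (mem_Rsq.1 ht).2.2.1) (bd_top fun t ht => (mem_Rsq.1 ht).2.2.2) hAT
    (fun y hy => ?_) (fun t ht ht' y hy hyR => ?_) hBT (fun z hz hzR => ?_)
  · have h1 : κ' * κ ≤ VT Q e T A B * VT Q e (Rsq a b c d) (Hs e c a b) (Hs e d a b) :=
      mul_le_mul hκ hR h0 (VT_nonneg hQ _ _ _ _)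
    exact ⟨h1.trans h.1, h1.trans h.2⟩
  · obtain ⟨y1, y2, y3, y4⟩ := hA hy
    exact nx_right hab hcd y1 y2 y3 y4
  · obtain ⟨r1, r2, r3, r4, r5⟩ := vc_rect hyR
    exact nx_left hab hcd (le_antisymm (hT t ht ht' y hy r1 r2 r3 r4) r1) r3 r4 r5
  · obtain ⟨r1, r2, r3, r4, r5⟩ := vc_rect hzR
    exact nx_left hab hcd (le_antisymm (hB z hz r1 r2 r3 r4) r1) r3 r4 r5

/-- `T` starts on the left side of the rectangle and leaves it on the right side. -/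
theorem tVR (hQ : 0 < Q) (hQ1 : Q ≤ 1) {κ κ' : ℝ} (h0 : 0 ≤ κ) (hκ : κ' ≤ VT Q e T A B)
    (hR : κ ≤ VT Q e (Rsq a b c d) (Hs e c a b) (Hs e d a b)) (hab : a < b) (hcd : c < d)
    (hT : ∀ t ∈ T, t ∉ Rsq a b c d → ∀ y, Cor e t y → a ≤ y.1 → y.1 ≤ b → c ≤ y.2 → y.2 ≤ d →
      b ≤ y.1) (hAT : A ⊆ Bd e T) (hBT : B ⊆ Bd e T)
    (hA : A ⊆ Vs e a c d)
    (hB : ∀ z ∈ B, a ≤ z.1 → z.1 ≤ b → c ≤ z.2 → z.2 ≤ d → b ≤ z.1) :
    κ' * κ ≤ VT Q e (Rsq a b c d ∪ T) (Hs e c a b) B ∧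
      κ' * κ ≤ VT Q e (Rsq a b c d ∪ T) (Hs e d a b) B := by
  have h := turn hQ hQ1 (quad_V e hab.le hcd.le) (fan_rect _ _ _ _ _)
    (bd_bot fun t ht => (mem_Rsq.1 ht).2.2.1) (bd_top fun t ht => (mem_Rsq.1 ht).2.2.2) hAT
    (fun y hy => ?_) (fun t ht ht' y hy hyR => ?_) hBT (fun z hz hzR => ?_)
  · have h1 : κ' * κ ≤ VT Q e T A B * VT Q e (Rsq a b c d) (Hs e c a b) (Hs e d a b) :=
      mul_le_mul hκ hR h0 (VT_nonneg hQ _ _ _ _)
    exact ⟨h1.trans h.1, h1.trans h.2⟩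
  · obtain ⟨y1, y2, y3, y4⟩ := hA hy
    exact nx_left hab hcd y1 y2 y3 y4
  · obtain ⟨r1, r2, r3, r4, r5⟩ := vc_rect hyR
    exact nx_right hab hcd (le_antisymm r2 (hT t ht ht' y hy r1 r2 r3 r4)) r3 r4 r5
  · obtain ⟨r1, r2, r3, r4, r5⟩ := vc_rect hzR
    exact nx_right hab hcd (le_antisymm r2 (hB z hz r1 r2 r3 r4)) r3 r4 r5

/-- `T` starts on the top side of the rectangle and leaves it on the bottom side. -/
theorem tHB (hQ : 0 < Q) (hQ1 : Q ≤ 1) {κ κ' : ℝ} (h0 : 0 ≤ κ) (hκ : κ' ≤ VT Q e T A B)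
    (hR : κ ≤ VT Q e (Rsq a b c d) (Vs e a c d) (Vs e b c d)) (hab : a < b) (hcd : c < d)
    (hT : ∀ t ∈ T, t ∉ Rsq a b c d → ∀ y, Cor e t y → a ≤ y.1 → y.1 ≤ b → c ≤ y.2 → y.2 ≤ d →
      y.2 ≤ c) (hAT : A ⊆ Bd e T) (hBT : B ⊆ Bd e T)
    (hA : A ⊆ Hs e d a b)
    (hB : ∀ z ∈ B, a ≤ z.1 → z.1 ≤ b → c ≤ z.2 → z.2 ≤ d → z.2 ≤ c) :
    κ' * κ ≤ VT Q e (Rsq a b c d ∪ T) (Vs e a c d) B ∧
      κ' * κ ≤ VT Q e (Rsq a b c d ∪ T) (Vs e b c d) B := by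
  have h := turn hQ hQ1 (quad_H e hab.le hcd.le).swap24 (fan_rect _ _ _ _ _)
    (bd_left fun t ht => (mem_Rsq.1 ht).1) (bd_right fun t ht => (mem_Rsq.1 ht).2.1) hAT
    (fun y hy => ?_) (fun t ht ht' y hy hyR => ?_) hBT (fun z hz hzR => ?_)
  · have h1 : κ' * κ ≤ VT Q e T A B * VT Q e (Rsq a b c d) (Vs e a c d) (Vs e b c d) :=
      mul_le_mul hκ hR h0 (VT_nonneg hQ _ _ _ _)
    exact ⟨h1.trans h.1, h1.trans h.2⟩
  · obtain ⟨y1, y2, y3, y4⟩ := hA hy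
    exact nx_top hab hcd y1 y2 y3 y4
  · obtain ⟨r1, r2, r3, r4, r5⟩ := vc_rect hyR
    exact nx_bot hab hcd (le_antisymm (hT t ht ht' y hy r1 r2 r3 r4) r3) r1 r2 r5
  · obtain ⟨r1, r2, r3, r4, r5⟩ := vc_rect hzR
    exact nx_bot hab hcd (le_antisymm (hB z hz r1 r2 r3 r4) r3) r1 r2 r5

/-- `T` starts on the bottom side of the rectangle and leaves it on the top side. -/
theorem tHT (hQ : 0 < Q) (hQ1 : Q ≤ 1) {κ κ' : ℝ} (h0 : 0 ≤ κ) (hκ : κ' ≤ VT Q e T A B)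
    (hR : κ ≤ VT Q e (Rsq a b c d) (Vs e a c d) (Vs e b c d)) (hab : a < b) (hcd : c < d)
    (hT : ∀ t ∈ T, t ∉ Rsq a b c d → ∀ y, Cor e t y → a ≤ y.1 → y.1 ≤ b → c ≤ y.2 → y.2 ≤ d →
      d ≤ y.2) (hAT : A ⊆ Bd e T) (hBT : B ⊆ Bd e T)
    (hA : A ⊆ Hs e c a b)
    (hB : ∀ z ∈ B, a ≤ z.1 → z.1 ≤ b → c ≤ z.2 → z.2 ≤ d → d ≤ z.2) :
    κ' * κ ≤ VT Q e (Rsq a b c d ∪ T) (Vs e a c d) B ∧
      κ' * κ ≤ VT Q e (Rsq a b c d ∪ T) (Vs e b c d) B := by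
  have h := turn hQ hQ1 (quad_H e hab.le hcd.le) (fan_rect _ _ _ _ _)
    (bd_left fun t ht => (mem_Rsq.1 ht).1) (bd_right fun t ht => (mem_Rsq.1 ht).2.1) hAT
    (fun y hy => ?_) (fun t ht ht' y hy hyR => ?_) hBT (fun z hz hzR => ?_)
  · have h1 : κ' * κ ≤ VT Q e T A B * VT Q e (Rsq a b c d) (Vs e a c d) (Vs e b c d) :=
      mul_le_mul hκ hR h0 (VT_nonneg hQ _ _ _ _)
    exact ⟨h1.trans h.1, h1.trans h.2⟩
  · obtain ⟨y1, y2, y3, y4⟩ := hA hy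
    exact nx_bot hab hcd y1 y2 y3 y4
  · obtain ⟨r1, r2, r3, r4, r5⟩ := vc_rect hyR
    exact nx_top hab hcd (le_antisymm r4 (hT t ht ht' y hy r1 r2 r3 r4)) r1 r2 r5
  · obtain ⟨r1, r2, r3, r4, r5⟩ := vc_rect hzR
    exact nx_top hab hcd (le_antisymm r4 (hB z hz r1 r2 r3 r4)) r1 r2 r5

/-! ### The sixteen tubes -/

/-- Lower bounds for rectangles. -/
def VRc (Q κ : ℝ) : Prop := ∀ (e : Bool) (a b c d : ℤ), a < b → c < d →
    (b - a ≤ 11 * (d - c) → κ ≤ VT Q e (Rsq a b c d) (Vs e a c d) (Vs e b c d)) ∧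
    (d - c ≤ 11 * (b - a) → κ ≤ VT Q e (Rsq a b c d) (Hs e c a b) (Hs e d a b))

/-- The conclusion. -/
def Fin1 (Q κ : ℝ) (e : Bool) (X Y s : ℤ) (K₁ K₂ : Finset Pt) : Prop :=
  ∀ (D : Finset Pt) (η : Cfg), Good η → Rg (X, Y) s \ (K₁ ∪ K₂) ⊆ D →
    κ ≤ Pr Q D η (Jn e ↑(Rg (X, Y) s \ (K₁ ∪ K₂)) (Vc e ↑K₁) (Vc e ↑K₂))

theorem fin1_of (hQ : 0 < Q) (hQ1 : Q ≤ 1) {κ : ℝ} {X Y s : ℤ} {T G₁ G₂ K₁ K₂ : Finset Pt}
    (hv : κ ≤ VT Q e T A B) (hG1 : G₁ ⊆ T)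
    (hG2 : G₂ ⊆ T) (hd : Disjoint G₁ G₂) (hA : A ⊆ Bd e T) (hB : B ⊆ Bd e T)
    (P1 : ∀ x ∈ Rch e ↑G₁ ↑K₁ A, (∀ t ∈ T, t ∉ G₁ → ¬ Cor e t x) ∧ x ∉ B)
    (P2 : ∀ x ∈ Rch e ↑G₂ ↑K₂ B, (∀ t ∈ T, t ∉ G₂ → ¬ Cor e t x) ∧ x ∉ A) (hT : T ⊆ Rg (X, Y) s) :
    Fin1 Q κ e X Y s K₁ K₂ := by
  intro D η hη hD
  have h1 : T \ (K₁ ∪ K₂) ⊆ Rg (X, Y) s \ (K₁ ∪ K₂) := sdiff_subset_sdiff hT subset_rfl
  refine (hv.trans (clip hQ hQ1 hη hG1 hG2 hd hA hB (fun x hx => ⟨?_, (P1 x hx).2⟩)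
    (fun x hx => ⟨?_, (P2 x hx).2⟩) (h1.trans hD))).trans
    (FKA.Pr_mono hQ (Jn.mono (coe_subset.2 h1) subset_rfl subset_rfl))
  · rintro ⟨t, ht, htx⟩
    rw [mem_coe, mem_sdiff] at ht
    exact (P1 x hx).1 t ht.1 ht.2 htx
  · rintro ⟨t, ht, htx⟩
    rw [mem_coe, mem_sdiff] at ht
    exact (P2 x hx).1 t ht.1 ht.2 htx

theorem mem_Rg {z t : Pt} {s : ℤ} : t ∈ Rg z s ↔
    (z.1 - 6 * s ≤ t.1 ∧ t.1 < z.1 + 6 * s ∧ z.2 - 6 * s ≤ t.2 ∧ t.2 < z.2 + 6 * s) ∧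
      ¬ (z.1 - s ≤ t.1 ∧ t.1 < z.1 + s ∧ z.2 - s ≤ t.2 ∧ t.2 < z.2 + s) := by
  rw [Rg, mem_sdiff, mem_Rsq, mem_Rsq]


theorem tb_TT (hQ : 0 < Q) (hQ1 : Q ≤ 1) {κ : ℝ} (h0 : 0 ≤ κ) (hV : VRc Q κ) {X Y s : ℤ} (hs : 1 ≤ s)
    {K₁ K₂ : Finset Pt} (k1 : CrV e ↑K₁ (X - 2 * s) (X + 2 * s) (Y + s) (Y + 2 * s))
    (k2 : CrV e ↑K₂ (X - 5 * s) (X + 5 * s) (Y + 4 * s) (Y + 5 * s)) :
    Fin1 Q (κ * κ * κ) e X Y s K₁ K₂ := by
  have v3 : κ ≤ VT Q e (Rsq (X - 5 * s) (X + 6 * s) (Y + 4 * s) (Y + 5 * s)) (Vs e (X + 6 * s) (Y + 4 * s) (Y + 5 * s)) (Vs e (X - 5 * s) (Y + 4 * s) (Y + 5 * s)) := by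
    rw [VT_comm hQ]
    exact (hV e (X - 5 * s) (X + 6 * s) (Y + 4 * s) (Y + 5 * s) (by omega) (by omega)).1 (by omega)
  have v2 : κ * κ ≤ VT Q e ((Rsq (X + 5 * s) (X + 6 * s) (Y + s) (Y + 5 * s)) ∪ (Rsq (X - 5 * s) (X + 6 * s) (Y + 4 * s) (Y + 5 * s))) (Hs e (Y + s) (X + 5 * s) (X + 6 * s)) (Vs e (X - 5 * s) (Y + 4 * s) (Y + 5 * s)) := by
    refine (tVL (e := e) hQ hQ1 h0 v3 ((hV e (X + 5 * s) (X + 6 * s) (Y + s) (Y + 5 * s) (by omega) (by omega)).2 (by omega)) (by omega) (by omega)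
      (fun t ht ht' y hy y1 y2 y3 y4 => ?_) (fun y hy => ?_) (fun y hy => ?_) (fun y hy => ?_) (fun y hy y1 y2 y3 y4 => ?_)).1
    · simp only [mem_union, mem_Rsq] at ht ht'
      obtain ⟨c1, c2, c3⟩ := hy
      omega
    · refine bd_of (v := (y.1, y.2)) (fun hv => ?_) (by obtain ⟨c1, c2, c3, c4⟩ := hy; unfold Cor; dsimp only; omega)
      simp only [mem_union, mem_Rsq] at hv
      obtain ⟨c1, c2, c3, c4⟩ := hy
      omega
    · refine bd_of (v := (y.1 - 1, y.2)) (fun hv => ?_) (by obtain ⟨c1, c2, c3, c4⟩ := hy; unfold Cor; dsimp only; omega)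
      simp only [mem_union, mem_Rsq] at hv
      obtain ⟨c1, c2, c3, c4⟩ := hy
      omega
    · obtain ⟨c1, c2, c3, c4⟩ := hy
      exact ⟨by omega, by omega, by omega, c4⟩
    · obtain ⟨c1, c2, c3, c4⟩ := hy
      omega
  have v1 : κ * κ * κ ≤ VT Q e ((Rsq (X - 2 * s) (X + 6 * s) (Y + s) (Y + 2 * s)) ∪ ((Rsq (X + 5 * s) (X + 6 * s) (Y + s) (Y + 5 * s)) ∪ (Rsq (X - 5 * s) (X + 6 * s) (Y + 4 * s) (Y + 5 * s)))) (Vs e (X - 2 * s) (Y + s) (Y + 2 * s)) (Vs e (X - 5 * s) (Y + 4 * s) (Y + 5 * s)) := by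
    refine (tHT (e := e) hQ hQ1 h0 v2 ((hV e (X - 2 * s) (X + 6 * s) (Y + s) (Y + 2 * s) (by omega) (by omega)).1 (by omega)) (by omega) (by omega)
      (fun t ht ht' y hy y1 y2 y3 y4 => ?_) (fun y hy => ?_) (fun y hy => ?_) (fun y hy => ?_) (fun y hy y1 y2 y3 y4 => ?_)).1
    · simp only [mem_union, mem_Rsq] at ht ht'
      obtain ⟨c1, c2, c3⟩ := hy
      omega
    · refine bd_of (v := (y.1, y.2 - 1)) (fun hv => ?_) (by obtain ⟨c1, c2, c3, c4⟩ := hy; unfold Cor; dsimp only; omega)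
      simp only [mem_union, mem_Rsq] at hv
      obtain ⟨c1, c2, c3, c4⟩ := hy
      omega
    · refine bd_of (v := (y.1 - 1, y.2)) (fun hv => ?_) (by obtain ⟨c1, c2, c3, c4⟩ := hy; unfold Cor; dsimp only; omega)
      simp only [mem_union, mem_Rsq] at hv
      obtain ⟨c1, c2, c3, c4⟩ := hy
      omega
    · obtain ⟨c1, c2, c3, c4⟩ := hy
      exact ⟨by omega, by omega, by omega, c4⟩
    · obtain ⟨c1, c2, c3, c4⟩ := hy
      omega
  refine fin1_of hQ hQ1 v1 (G₁ := (Rsq (X - 2 * s) (X + 2 * s) (Y + s) (Y + 2 * s))) (G₂ := (Rsq (X - 5 * s) (X + 5 * s) (Y + 4 * s) (Y + 5 * s))) (fun t ht => ?_) (fun t ht => ?_)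
    (disjoint_left.2 fun t ht ht' => ?_) (fun y hy => ?_) (fun y hy => ?_) (fun x hx => ?_) (fun x hx => ?_) (fun t ht => ?_)
  · simp only [mem_union, mem_Rsq] at ht ⊢
    omega
  · simp only [mem_union, mem_Rsq] at ht ⊢
    omega
  · simp only [mem_Rsq] at ht ht'
    omega
  · refine bd_of (v := (y.1 - 1, y.2)) (fun hv => ?_) (by obtain ⟨c1, c2, c3, c4⟩ := hy; unfold Cor; dsimp only; omega)
    simp only [mem_union, mem_Rsq] at hv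
    obtain ⟨c1, c2, c3, c4⟩ := hy
    omega
  · refine bd_of (v := (y.1 - 1, y.2)) (fun hv => ?_) (by obtain ⟨c1, c2, c3, c4⟩ := hy; unfold Cor; dsimp only; omega)
    simp only [mem_union, mem_Rsq] at hv
    obtain ⟨c1, c2, c3, c4⟩ := hy
    omega
  · obtain ⟨x1, x2, x3, x4⟩ := wnd_L (by omega) (by omega) k1 hx
    refine ⟨fun t ht ht' htx => ?_, fun hxB => ?_⟩
    · simp only [mem_union, mem_Rsq] at ht ht'
      obtain ⟨c1, c2, c3⟩ := htx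
      omega
    · obtain ⟨c1, c2, c3, c4⟩ := hxB
      omega
  · obtain ⟨x1, x2, x3, x4⟩ := wnd_L (by omega) (by omega) k2 hx
    refine ⟨fun t ht ht' htx => ?_, fun hxB => ?_⟩
    · simp only [mem_union, mem_Rsq] at ht ht'
      obtain ⟨c1, c2, c3⟩ := htx
      omega
    · obtain ⟨c1, c2, c3, c4⟩ := hxB
      omega
  · simp only [mem_union, mem_Rsq] at ht
    rw [mem_Rg]
    dsimp only
    omega

theorem tb_TB (hQ : 0 < Q) (hQ1 : Q ≤ 1) {κ : ℝ} (h0 : 0 ≤ κ) (hV : VRc Q κ) {X Y s : ℤ} (hs : 1 ≤ s)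
    {K₁ K₂ : Finset Pt} (k1 : CrV e ↑K₁ (X - 2 * s) (X + 2 * s) (Y + s) (Y + 2 * s))
    (k2 : CrV e ↑K₂ (X - 5 * s) (X + 5 * s) (Y - 5 * s) (Y - 4 * s)) :
    Fin1 Q (κ * κ * κ) e X Y s K₁ K₂ := by
  have v3 : κ ≤ VT Q e (Rsq (X - 5 * s) (X + 6 * s) (Y - 5 * s) (Y - 4 * s)) (Vs e (X + 6 * s) (Y - 5 * s) (Y - 4 * s)) (Vs e (X - 5 * s) (Y - 5 * s) (Y - 4 * s)) := by
    rw [VT_comm hQ]
    exact (hV e (X - 5 * s) (X + 6 * s) (Y - 5 * s) (Y - 4 * s) (by omega) (by omega)).1 (by omega)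
  have v2 : κ * κ ≤ VT Q e ((Rsq (X + 5 * s) (X + 6 * s) (Y - 5 * s) (Y + 2 * s)) ∪ (Rsq (X - 5 * s) (X + 6 * s) (Y - 5 * s) (Y - 4 * s))) (Hs e (Y + 2 * s) (X + 5 * s) (X + 6 * s)) (Vs e (X - 5 * s) (Y - 5 * s) (Y - 4 * s)) := by
    refine (tVL (e := e) hQ hQ1 h0 v3 ((hV e (X + 5 * s) (X + 6 * s) (Y - 5 * s) (Y + 2 * s) (by omega) (by omega)).2 (by omega)) (by omega) (by omega)
      (fun t ht ht' y hy y1 y2 y3 y4 => ?_) (fun y hy => ?_) (fun y hy => ?_) (fun y hy => ?_) (fun y hy y1 y2 y3 y4 => ?_)).2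
    · simp only [mem_union, mem_Rsq] at ht ht'
      obtain ⟨c1, c2, c3⟩ := hy
      omega
    · refine bd_of (v := (y.1, y.2)) (fun hv => ?_) (by obtain ⟨c1, c2, c3, c4⟩ := hy; unfold Cor; dsimp only; omega)
      simp only [mem_union, mem_Rsq] at hv
      obtain ⟨c1, c2, c3, c4⟩ := hy
      omega
    · refine bd_of (v := (y.1 - 1, y.2)) (fun hv => ?_) (by obtain ⟨c1, c2, c3, c4⟩ := hy; unfold Cor; dsimp only; omega)
      simp only [mem_union, mem_Rsq] at hv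
      obtain ⟨c1, c2, c3, c4⟩ := hy
      omega
    · obtain ⟨c1, c2, c3, c4⟩ := hy
      exact ⟨by omega, by omega, by omega, c4⟩
    · obtain ⟨c1, c2, c3, c4⟩ := hy
      omega
  have v1 : κ * κ * κ ≤ VT Q e ((Rsq (X - 2 * s) (X + 6 * s) (Y + s) (Y + 2 * s)) ∪ ((Rsq (X + 5 * s) (X + 6 * s) (Y - 5 * s) (Y + 2 * s)) ∪ (Rsq (X - 5 * s) (X + 6 * s) (Y - 5 * s) (Y - 4 * s)))) (Vs e (X - 2 * s) (Y + s) (Y + 2 * s)) (Vs e (X - 5 * s) (Y - 5 * s) (Y - 4 * s)) := by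
    refine (tHB (e := e) hQ hQ1 h0 v2 ((hV e (X - 2 * s) (X + 6 * s) (Y + s) (Y + 2 * s) (by omega) (by omega)).1 (by omega)) (by omega) (by omega)
      (fun t ht ht' y hy y1 y2 y3 y4 => ?_) (fun y hy => ?_) (fun y hy => ?_) (fun y hy => ?_) (fun y hy y1 y2 y3 y4 => ?_)).1
    · simp only [mem_union, mem_Rsq] at ht ht'
      obtain ⟨c1, c2, c3⟩ := hy
      omega
    · refine bd_of (v := (y.1, y.2)) (fun hv => ?_) (by obtain ⟨c1, c2, c3, c4⟩ := hy; unfold Cor; dsimp only; omega)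
      simp only [mem_union, mem_Rsq] at hv
      obtain ⟨c1, c2, c3, c4⟩ := hy
      omega
    · refine bd_of (v := (y.1 - 1, y.2)) (fun hv => ?_) (by obtain ⟨c1, c2, c3, c4⟩ := hy; unfold Cor; dsimp only; omega)
      simp only [mem_union, mem_Rsq] at hv
      obtain ⟨c1, c2, c3, c4⟩ := hy
      omega
    · obtain ⟨c1, c2, c3, c4⟩ := hy
      exact ⟨by omega, by omega, by omega, c4⟩
    · obtain ⟨c1, c2, c3, c4⟩ := hy
      omega
  refine fin1_of hQ hQ1 v1 (G₁ := (Rsq (X - 2 * s) (X + 2 * s) (Y + s) (Y + 2 * s))) (G₂ := (Rsq (X - 5 * s) (X + 5 * s) (Y - 5 * s) (Y - 4 * s))) (fun t ht => ?_) (fun t ht => ?_)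
    (disjoint_left.2 fun t ht ht' => ?_) (fun y hy => ?_) (fun y hy => ?_) (fun x hx => ?_) (fun x hx => ?_) (fun t ht => ?_)
  · simp only [mem_union, mem_Rsq] at ht ⊢
    omega
  · simp only [mem_union, mem_Rsq] at ht ⊢
    omega
  · simp only [mem_Rsq] at ht ht'
    omega
  · refine bd_of (v := (y.1 - 1, y.2)) (fun hv => ?_) (by obtain ⟨c1, c2, c3, c4⟩ := hy; unfold Cor; dsimp only; omega)
    simp only [mem_union, mem_Rsq] at hv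
    obtain ⟨c1, c2, c3, c4⟩ := hy
    omega
  · refine bd_of (v := (y.1 - 1, y.2)) (fun hv => ?_) (by obtain ⟨c1, c2, c3, c4⟩ := hy; unfold Cor; dsimp only; omega)
    simp only [mem_union, mem_Rsq] at hv
    obtain ⟨c1, c2, c3, c4⟩ := hy
    omega
  · obtain ⟨x1, x2, x3, x4⟩ := wnd_L (by omega) (by omega) k1 hx
    refine ⟨fun t ht ht' htx => ?_, fun hxB => ?_⟩
    · simp only [mem_union, mem_Rsq] at ht ht'
      obtain ⟨c1, c2, c3⟩ := htx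
      omega
    · obtain ⟨c1, c2, c3, c4⟩ := hxB
      omega
  · obtain ⟨x1, x2, x3, x4⟩ := wnd_L (by omega) (by omega) k2 hx
    refine ⟨fun t ht ht' htx => ?_, fun hxB => ?_⟩
    · simp only [mem_union, mem_Rsq] at ht ht'
      obtain ⟨c1, c2, c3⟩ := htx
      omega
    · obtain ⟨c1, c2, c3, c4⟩ := hxB
      omega
  · simp only [mem_union, mem_Rsq] at ht
    rw [mem_Rg]
    dsimp only
    omega

theorem tb_TR (hQ : 0 < Q) (hQ1 : Q ≤ 1) {κ : ℝ} (h0 : 0 ≤ κ) (hV : VRc Q κ) {X Y s : ℤ} (hs : 1 ≤ s)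
    {K₁ K₂ : Finset Pt} (k1 : CrV e ↑K₁ (X - 2 * s) (X + 2 * s) (Y + s) (Y + 2 * s))
    (k2 : CrH e ↑K₂ (X + 4 * s) (X + 5 * s) (Y - 5 * s) (Y + 5 * s)) :
    Fin1 Q (κ * κ * κ * κ) e X Y s K₁ K₂ := by
  have v4 : κ ≤ VT Q e (Rsq (X + 4 * s) (X + 5 * s) (Y - 5 * s) (Y + 6 * s)) (Hs e (Y + 6 * s) (X + 4 * s) (X + 5 * s)) (Hs e (Y - 5 * s) (X + 4 * s) (X + 5 * s)) := by
    rw [VT_comm hQ]
    exact (hV e (X + 4 * s) (X + 5 * s) (Y - 5 * s) (Y + 6 * s) (by omega) (by omega)).2 (by omega)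
  have v3 : κ * κ ≤ VT Q e ((Rsq (X + 2 * s) (X + 5 * s) (Y + 5 * s) (Y + 6 * s)) ∪ (Rsq (X + 4 * s) (X + 5 * s) (Y - 5 * s) (Y + 6 * s))) (Vs e (X + 2 * s) (Y + 5 * s) (Y + 6 * s)) (Hs e (Y - 5 * s) (X + 4 * s) (X + 5 * s)) := by
    refine (tHB (e := e) hQ hQ1 h0 v4 ((hV e (X + 2 * s) (X + 5 * s) (Y + 5 * s) (Y + 6 * s) (by omega) (by omega)).1 (by omega)) (by omega) (by omega)
      (fun t ht ht' y hy y1 y2 y3 y4 => ?_) (fun y hy => ?_) (fun y hy => ?_) (fun y hy => ?_) (fun y hy y1 y2 y3 y4 => ?_)).1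
    · simp only [mem_union, mem_Rsq] at ht ht'
      obtain ⟨c1, c2, c3⟩ := hy
      omega
    · refine bd_of (v := (y.1, y.2)) (fun hv => ?_) (by obtain ⟨c1, c2, c3, c4⟩ := hy; unfold Cor; dsimp only; omega)
      simp only [mem_union, mem_Rsq] at hv
      obtain ⟨c1, c2, c3, c4⟩ := hy
      omega
    · refine bd_of (v := (y.1, y.2 - 1)) (fun hv => ?_) (by obtain ⟨c1, c2, c3, c4⟩ := hy; unfold Cor; dsimp only; omega)
      simp only [mem_union, mem_Rsq] at hv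
      obtain ⟨c1, c2, c3, c4⟩ := hy
      omega
    · obtain ⟨c1, c2, c3, c4⟩ := hy
      exact ⟨by omega, by omega, by omega, c4⟩
    · obtain ⟨c1, c2, c3, c4⟩ := hy
      omega
  have v2 : κ * κ * κ ≤ VT Q e ((Rsq (X + 2 * s) (X + 3 * s) (Y + s) (Y + 6 * s)) ∪ ((Rsq (X + 2 * s) (X + 5 * s) (Y + 5 * s) (Y + 6 * s)) ∪ (Rsq (X + 4 * s) (X + 5 * s) (Y - 5 * s) (Y + 6 * s)))) (Hs e (Y + s) (X + 2 * s) (X + 3 * s)) (Hs e (Y - 5 * s) (X + 4 * s) (X + 5 * s)) := by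
    refine (tVR (e := e) hQ hQ1 h0 v3 ((hV e (X + 2 * s) (X + 3 * s) (Y + s) (Y + 6 * s) (by omega) (by omega)).2 (by omega)) (by omega) (by omega)
      (fun t ht ht' y hy y1 y2 y3 y4 => ?_) (fun y hy => ?_) (fun y hy => ?_) (fun y hy => ?_) (fun y hy y1 y2 y3 y4 => ?_)).1
    · simp only [mem_union, mem_Rsq] at ht ht'
      obtain ⟨c1, c2, c3⟩ := hy
      omega
    · refine bd_of (v := (y.1 - 1, y.2)) (fun hv => ?_) (by obtain ⟨c1, c2, c3, c4⟩ := hy; unfold Cor; dsimp only; omega)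
      simp only [mem_union, mem_Rsq] at hv
      obtain ⟨c1, c2, c3, c4⟩ := hy
      omega
    · refine bd_of (v := (y.1, y.2 - 1)) (fun hv => ?_) (by obtain ⟨c1, c2, c3, c4⟩ := hy; unfold Cor; dsimp only; omega)
      simp only [mem_union, mem_Rsq] at hv
      obtain ⟨c1, c2, c3, c4⟩ := hy
      omega
    · obtain ⟨c1, c2, c3, c4⟩ := hy
      exact ⟨by omega, by omega, by omega, c4⟩
    · obtain ⟨c1, c2, c3, c4⟩ := hy
      omega
  have v1 : κ * κ * κ * κ ≤ VT Q e ((Rsq (X - 2 * s) (X + 3 * s) (Y + s) (Y + 2 * s)) ∪ ((Rsq (X + 2 * s) (X + 3 * s) (Y + s) (Y + 6 * s)) ∪ ((Rsq (X + 2 * s) (X + 5 * s) (Y + 5 * s) (Y + 6 * s)) ∪ (Rsq (X + 4 * s) (X + 5 * s) (Y - 5 * s) (Y + 6 * s))))) (Vs e (X - 2 * s) (Y + s) (Y + 2 * s)) (Hs e (Y - 5 * s) (X + 4 * s) (X + 5 * s)) := by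
    refine (tHT (e := e) hQ hQ1 h0 v2 ((hV e (X - 2 * s) (X + 3 * s) (Y + s) (Y + 2 * s) (by omega) (by omega)).1 (by omega)) (by omega) (by omega)
      (fun t ht ht' y hy y1 y2 y3 y4 => ?_) (fun y hy => ?_) (fun y hy => ?_) (fun y hy => ?_) (fun y hy y1 y2 y3 y4 => ?_)).1
    · simp only [mem_union, mem_Rsq] at ht ht'
      obtain ⟨c1, c2, c3⟩ := hy
      omega
    · refine bd_of (v := (y.1, y.2 - 1)) (fun hv => ?_) (by obtain ⟨c1, c2, c3, c4⟩ := hy; unfold Cor; dsimp only; omega)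
      simp only [mem_union, mem_Rsq] at hv
      obtain ⟨c1, c2, c3, c4⟩ := hy
      omega
    · refine bd_of (v := (y.1, y.2 - 1)) (fun hv => ?_) (by obtain ⟨c1, c2, c3, c4⟩ := hy; unfold Cor; dsimp only; omega)
      simp only [mem_union, mem_Rsq] at hv
      obtain ⟨c1, c2, c3, c4⟩ := hy
      omega
    · obtain ⟨c1, c2, c3, c4⟩ := hy
      exact ⟨by omega, by omega, by omega, c4⟩
    · obtain ⟨c1, c2, c3, c4⟩ := hy
      omega
  refine fin1_of hQ hQ1 v1 (G₁ := (Rsq (X - 2 * s) (X + 2 * s) (Y + s) (Y + 2 * s))) (G₂ := (Rsq (X + 4 * s) (X + 5 * s) (Y - 5 * s) (Y + 5 * s))) (fun t ht => ?_) (fun t ht => ?_)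
    (disjoint_left.2 fun t ht ht' => ?_) (fun y hy => ?_) (fun y hy => ?_) (fun x hx => ?_) (fun x hx => ?_) (fun t ht => ?_)
  · simp only [mem_union, mem_Rsq] at ht ⊢
    omega
  · simp only [mem_union, mem_Rsq] at ht ⊢
    omega
  · simp only [mem_Rsq] at ht ht'
    omega
  · refine bd_of (v := (y.1 - 1, y.2)) (fun hv => ?_) (by obtain ⟨c1, c2, c3, c4⟩ := hy; unfold Cor; dsimp only; omega)
    simp only [mem_union, mem_Rsq] at hv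
    obtain ⟨c1, c2, c3, c4⟩ := hy
    omega
  · refine bd_of (v := (y.1, y.2 - 1)) (fun hv => ?_) (by obtain ⟨c1, c2, c3, c4⟩ := hy; unfold Cor; dsimp only; omega)
    simp only [mem_union, mem_Rsq] at hv
    obtain ⟨c1, c2, c3, c4⟩ := hy
    omega
  · obtain ⟨x1, x2, x3, x4⟩ := wnd_L (by omega) (by omega) k1 hx
    refine ⟨fun t ht ht' htx => ?_, fun hxB => ?_⟩
    · simp only [mem_union, mem_Rsq] at ht ht'
      obtain ⟨c1, c2, c3⟩ := htx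
      omega
    · obtain ⟨c1, c2, c3, c4⟩ := hxB
      omega
  · obtain ⟨x1, x2, x3, x4⟩ := wnd_B (by omega) (by omega) k2 hx
    refine ⟨fun t ht ht' htx => ?_, fun hxB => ?_⟩
    · simp only [mem_union, mem_Rsq] at ht ht'
      obtain ⟨c1, c2, c3⟩ := htx
      omega
    · obtain ⟨c1, c2, c3, c4⟩ := hxB
      omega
  · simp only [mem_union, mem_Rsq] at ht
    rw [mem_Rg]
    dsimp only
    omega

theorem tb_TL (hQ : 0 < Q) (hQ1 : Q ≤ 1) {κ : ℝ} (h0 : 0 ≤ κ) (hV : VRc Q κ) {X Y s : ℤ} (hs : 1 ≤ s)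
    {K₁ K₂ : Finset Pt} (k1 : CrV e ↑K₁ (X - 2 * s) (X + 2 * s) (Y + s) (Y + 2 * s))
    (k2 : CrH e ↑K₂ (X - 5 * s) (X - 4 * s) (Y - 5 * s) (Y + 5 * s)) :
    Fin1 Q (κ * κ * κ * κ) e X Y s K₁ K₂ := by
  have v4 : κ ≤ VT Q e (Rsq (X - 5 * s) (X - 4 * s) (Y - 5 * s) (Y + 6 * s)) (Hs e (Y + 6 * s) (X - 5 * s) (X - 4 * s)) (Hs e (Y - 5 * s) (X - 5 * s) (X - 4 * s)) := by
    rw [VT_comm hQ]
    exact (hV e (X - 5 * s) (X - 4 * s) (Y - 5 * s) (Y + 6 * s) (by omega) (by omega)).2 (by omega)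
  have v3 : κ * κ ≤ VT Q e ((Rsq (X - 5 * s) (X - 2 * s) (Y + 5 * s) (Y + 6 * s)) ∪ (Rsq (X - 5 * s) (X - 4 * s) (Y - 5 * s) (Y + 6 * s))) (Vs e (X - 2 * s) (Y + 5 * s) (Y + 6 * s)) (Hs e (Y - 5 * s) (X - 5 * s) (X - 4 * s)) := by
    refine (tHB (e := e) hQ hQ1 h0 v4 ((hV e (X - 5 * s) (X - 2 * s) (Y + 5 * s) (Y + 6 * s) (by omega) (by omega)).1 (by omega)) (by omega) (by omega)
      (fun t ht ht' y hy y1 y2 y3 y4 => ?_) (fun y hy => ?_) (fun y hy => ?_) (fun y hy => ?_) (fun y hy y1 y2 y3 y4 => ?_)).2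
    · simp only [mem_union, mem_Rsq] at ht ht'
      obtain ⟨c1, c2, c3⟩ := hy
      omega
    · refine bd_of (v := (y.1, y.2)) (fun hv => ?_) (by obtain ⟨c1, c2, c3, c4⟩ := hy; unfold Cor; dsimp only; omega)
      simp only [mem_union, mem_Rsq] at hv
      obtain ⟨c1, c2, c3, c4⟩ := hy
      omega
    · refine bd_of (v := (y.1, y.2 - 1)) (fun hv => ?_) (by obtain ⟨c1, c2, c3, c4⟩ := hy; unfold Cor; dsimp only; omega)
      simp only [mem_union, mem_Rsq] at hv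
      obtain ⟨c1, c2, c3, c4⟩ := hy
      omega
    · obtain ⟨c1, c2, c3, c4⟩ := hy
      exact ⟨by omega, by omega, by omega, c4⟩
    · obtain ⟨c1, c2, c3, c4⟩ := hy
      omega
  have v2 : κ * κ * κ ≤ VT Q e ((Rsq (X - 3 * s) (X - 2 * s) (Y + s) (Y + 6 * s)) ∪ ((Rsq (X - 5 * s) (X - 2 * s) (Y + 5 * s) (Y + 6 * s)) ∪ (Rsq (X - 5 * s) (X - 4 * s) (Y - 5 * s) (Y + 6 * s)))) (Hs e (Y + s) (X - 3 * s) (X - 2 * s)) (Hs e (Y - 5 * s) (X - 5 * s) (X - 4 * s)) := by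
    refine (tVL (e := e) hQ hQ1 h0 v3 ((hV e (X - 3 * s) (X - 2 * s) (Y + s) (Y + 6 * s) (by omega) (by omega)).2 (by omega)) (by omega) (by omega)
      (fun t ht ht' y hy y1 y2 y3 y4 => ?_) (fun y hy => ?_) (fun y hy => ?_) (fun y hy => ?_) (fun y hy y1 y2 y3 y4 => ?_)).1
    · simp only [mem_union, mem_Rsq] at ht ht'
      obtain ⟨c1, c2, c3⟩ := hy
      omega
    · refine bd_of (v := (y.1, y.2)) (fun hv => ?_) (by obtain ⟨c1, c2, c3, c4⟩ := hy; unfold Cor; dsimp only; omega)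
      simp only [mem_union, mem_Rsq] at hv
      obtain ⟨c1, c2, c3, c4⟩ := hy
      omega
    · refine bd_of (v := (y.1, y.2 - 1)) (fun hv => ?_) (by obtain ⟨c1, c2, c3, c4⟩ := hy; unfold Cor; dsimp only; omega)
      simp only [mem_union, mem_Rsq] at hv
      obtain ⟨c1, c2, c3, c4⟩ := hy
      omega
    · obtain ⟨c1, c2, c3, c4⟩ := hy
      exact ⟨by omega, by omega, by omega, c4⟩
    · obtain ⟨c1, c2, c3, c4⟩ := hy
      omega
  have v1 : κ * κ * κ * κ ≤ VT Q e ((Rsq (X - 3 * s) (X + 2 * s) (Y + s) (Y + 2 * s)) ∪ ((Rsq (X - 3 * s) (X - 2 * s) (Y + s) (Y + 6 * s)) ∪ ((Rsq (X - 5 * s) (X - 2 * s) (Y + 5 * s) (Y + 6 * s)) ∪ (Rsq (X - 5 * s) (X - 4 * s) (Y - 5 * s) (Y + 6 * s))))) (Vs e (X + 2 * s) (Y + s) (Y + 2 * s)) (Hs e (Y - 5 * s) (X - 5 * s) (X - 4 * s)) := by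
    refine (tHT (e := e) hQ hQ1 h0 v2 ((hV e (X - 3 * s) (X + 2 * s) (Y + s) (Y + 2 * s) (by omega) (by omega)).1 (by omega)) (by omega) (by omega)
      (fun t ht ht' y hy y1 y2 y3 y4 => ?_) (fun y hy => ?_) (fun y hy => ?_) (fun y hy => ?_) (fun y hy y1 y2 y3 y4 => ?_)).2
    · simp only [mem_union, mem_Rsq] at ht ht'
      obtain ⟨c1, c2, c3⟩ := hy
      omega
    · refine bd_of (v := (y.1, y.2 - 1)) (fun hv => ?_) (by obtain ⟨c1, c2, c3, c4⟩ := hy; unfold Cor; dsimp only; omega)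
      simp only [mem_union, mem_Rsq] at hv
      obtain ⟨c1, c2, c3, c4⟩ := hy
      omega
    · refine bd_of (v := (y.1, y.2 - 1)) (fun hv => ?_) (by obtain ⟨c1, c2, c3, c4⟩ := hy; unfold Cor; dsimp only; omega)
      simp only [mem_union, mem_Rsq] at hv
      obtain ⟨c1, c2, c3, c4⟩ := hy
      omega
    · obtain ⟨c1, c2, c3, c4⟩ := hy
      exact ⟨by omega, by omega, by omega, c4⟩
    · obtain ⟨c1, c2, c3, c4⟩ := hy
      omega
  refine fin1_of hQ hQ1 v1 (G₁ := (Rsq (X - 2 * s) (X + 2 * s) (Y + s) (Y + 2 * s))) (G₂ := (Rsq (X - 5 * s) (X - 4 * s) (Y - 5 * s) (Y + 5 * s))) (fun t ht => ?_) (fun t ht => ?_)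
    (disjoint_left.2 fun t ht ht' => ?_) (fun y hy => ?_) (fun y hy => ?_) (fun x hx => ?_) (fun x hx => ?_) (fun t ht => ?_)
  · simp only [mem_union, mem_Rsq] at ht ⊢
    omega
  · simp only [mem_union, mem_Rsq] at ht ⊢
    omega
  · simp only [mem_Rsq] at ht ht'
    omega
  · refine bd_of (v := (y.1, y.2)) (fun hv => ?_) (by obtain ⟨c1, c2, c3, c4⟩ := hy; unfold Cor; dsimp only; omega)
    simp only [mem_union, mem_Rsq] at hv
    obtain ⟨c1, c2, c3, c4⟩ := hy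
    omega
  · refine bd_of (v := (y.1, y.2 - 1)) (fun hv => ?_) (by obtain ⟨c1, c2, c3, c4⟩ := hy; unfold Cor; dsimp only; omega)
    simp only [mem_union, mem_Rsq] at hv
    obtain ⟨c1, c2, c3, c4⟩ := hy
    omega
  · obtain ⟨x1, x2, x3, x4⟩ := wnd_R (by omega) (by omega) k1 hx
    refine ⟨fun t ht ht' htx => ?_, fun hxB => ?_⟩
    · simp only [mem_union, mem_Rsq] at ht ht'
      obtain ⟨c1, c2, c3⟩ := htx
      omega
    · obtain ⟨c1, c2, c3, c4⟩ := hxB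
      omega
  · obtain ⟨x1, x2, x3, x4⟩ := wnd_B (by omega) (by omega) k2 hx
    refine ⟨fun t ht ht' htx => ?_, fun hxB => ?_⟩
    · simp only [mem_union, mem_Rsq] at ht ht'
      obtain ⟨c1, c2, c3⟩ := htx
      omega
    · obtain ⟨c1, c2, c3, c4⟩ := hxB
      omega
  · simp only [mem_union, mem_Rsq] at ht
    rw [mem_Rg]
    dsimp only
    omega

theorem tb_BB (hQ : 0 < Q) (hQ1 : Q ≤ 1) {κ : ℝ} (h0 : 0 ≤ κ) (hV : VRc Q κ) {X Y s : ℤ} (hs : 1 ≤ s)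
    {K₁ K₂ : Finset Pt} (k1 : CrV e ↑K₁ (X - 2 * s) (X + 2 * s) (Y - 2 * s) (Y - s))
    (k2 : CrV e ↑K₂ (X - 5 * s) (X + 5 * s) (Y - 5 * s) (Y - 4 * s)) :
    Fin1 Q (κ * κ * κ) e X Y s K₁ K₂ := by
  have v3 : κ ≤ VT Q e (Rsq (X - 5 * s) (X + 6 * s) (Y - 5 * s) (Y - 4 * s)) (Vs e (X + 6 * s) (Y - 5 * s) (Y - 4 * s)) (Vs e (X - 5 * s) (Y - 5 * s) (Y - 4 * s)) := by
    rw [VT_comm hQ]
    exact (hV e (X - 5 * s) (X + 6 * s) (Y - 5 * s) (Y - 4 * s) (by omega) (by omega)).1 (by omega)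
  have v2 : κ * κ ≤ VT Q e ((Rsq (X + 5 * s) (X + 6 * s) (Y - 5 * s) (Y - s)) ∪ (Rsq (X - 5 * s) (X + 6 * s) (Y - 5 * s) (Y - 4 * s))) (Hs e (Y - s) (X + 5 * s) (X + 6 * s)) (Vs e (X - 5 * s) (Y - 5 * s) (Y - 4 * s)) := by
    refine (tVL (e := e) hQ hQ1 h0 v3 ((hV e (X + 5 * s) (X + 6 * s) (Y - 5 * s) (Y - s) (by omega) (by omega)).2 (by omega)) (by omega) (by omega)
      (fun t ht ht' y hy y1 y2 y3 y4 => ?_) (fun y hy => ?_) (fun y hy => ?_) (fun y hy => ?_) (fun y hy y1 y2 y3 y4 => ?_)).2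
    · simp only [mem_union, mem_Rsq] at ht ht'
      obtain ⟨c1, c2, c3⟩ := hy
      omega
    · refine bd_of (v := (y.1, y.2)) (fun hv => ?_) (by obtain ⟨c1, c2, c3, c4⟩ := hy; unfold Cor; dsimp only; omega)
      simp only [mem_union, mem_Rsq] at hv
      obtain ⟨c1, c2, c3, c4⟩ := hy
      omega
    · refine bd_of (v := (y.1 - 1, y.2)) (fun hv => ?_) (by obtain ⟨c1, c2, c3, c4⟩ := hy; unfold Cor; dsimp only; omega)
      simp only [mem_union, mem_Rsq] at hv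
      obtain ⟨c1, c2, c3, c4⟩ := hy
      omega
    · obtain ⟨c1, c2, c3, c4⟩ := hy
      exact ⟨by omega, by omega, by omega, c4⟩
    · obtain ⟨c1, c2, c3, c4⟩ := hy
      omega
  have v1 : κ * κ * κ ≤ VT Q e ((Rsq (X - 2 * s) (X + 6 * s) (Y - 2 * s) (Y - s)) ∪ ((Rsq (X + 5 * s) (X + 6 * s) (Y - 5 * s) (Y - s)) ∪ (Rsq (X - 5 * s) (X + 6 * s) (Y - 5 * s) (Y - 4 * s)))) (Vs e (X - 2 * s) (Y - 2 * s) (Y - s)) (Vs e (X - 5 * s) (Y - 5 * s) (Y - 4 * s)) := by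
    refine (tHB (e := e) hQ hQ1 h0 v2 ((hV e (X - 2 * s) (X + 6 * s) (Y - 2 * s) (Y - s) (by omega) (by omega)).1 (by omega)) (by omega) (by omega)
      (fun t ht ht' y hy y1 y2 y3 y4 => ?_) (fun y hy => ?_) (fun y hy => ?_) (fun y hy => ?_) (fun y hy y1 y2 y3 y4 => ?_)).1
    · simp only [mem_union, mem_Rsq] at ht ht'
      obtain ⟨c1, c2, c3⟩ := hy
      omega
    · refine bd_of (v := (y.1, y.2)) (fun hv => ?_) (by obtain ⟨c1, c2, c3, c4⟩ := hy; unfold Cor; dsimp only; omega)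
      simp only [mem_union, mem_Rsq] at hv
      obtain ⟨c1, c2, c3, c4⟩ := hy
      omega
    · refine bd_of (v := (y.1 - 1, y.2)) (fun hv => ?_) (by obtain ⟨c1, c2, c3, c4⟩ := hy; unfold Cor; dsimp only; omega)
      simp only [mem_union, mem_Rsq] at hv
      obtain ⟨c1, c2, c3, c4⟩ := hy
      omega
    · obtain ⟨c1, c2, c3, c4⟩ := hy
      exact ⟨by omega, by omega, by omega, c4⟩
    · obtain ⟨c1, c2, c3, c4⟩ := hy
      omega
  refine fin1_of hQ hQ1 v1 (G₁ := (Rsq (X - 2 * s) (X + 2 * s) (Y - 2 * s) (Y - s))) (G₂ := (Rsq (X - 5 * s) (X + 5 * s) (Y - 5 * s) (Y - 4 * s))) (fun t ht => ?_) (fun t ht => ?_)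
    (disjoint_left.2 fun t ht ht' => ?_) (fun y hy => ?_) (fun y hy => ?_) (fun x hx => ?_) (fun x hx => ?_) (fun t ht => ?_)
  · simp only [mem_union, mem_Rsq] at ht ⊢
    omega
  · simp only [mem_union, mem_Rsq] at ht ⊢
    omega
  · simp only [mem_Rsq] at ht ht'
    omega
  · refine bd_of (v := (y.1 - 1, y.2)) (fun hv => ?_) (by obtain ⟨c1, c2, c3, c4⟩ := hy; unfold Cor; dsimp only; omega)
    simp only [mem_union, mem_Rsq] at hv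
    obtain ⟨c1, c2, c3, c4⟩ := hy
    omega
  · refine bd_of (v := (y.1 - 1, y.2)) (fun hv => ?_) (by obtain ⟨c1, c2, c3, c4⟩ := hy; unfold Cor; dsimp only; omega)
    simp only [mem_union, mem_Rsq] at hv
    obtain ⟨c1, c2, c3, c4⟩ := hy
    omega
  · obtain ⟨x1, x2, x3, x4⟩ := wnd_L (by omega) (by omega) k1 hx
    refine ⟨fun t ht ht' htx => ?_, fun hxB => ?_⟩
    · simp only [mem_union, mem_Rsq] at ht ht'
      obtain ⟨c1, c2, c3⟩ := htx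
      omega
    · obtain ⟨c1, c2, c3, c4⟩ := hxB
      omega
  · obtain ⟨x1, x2, x3, x4⟩ := wnd_L (by omega) (by omega) k2 hx
    refine ⟨fun t ht ht' htx => ?_, fun hxB => ?_⟩
    · simp only [mem_union, mem_Rsq] at ht ht'
      obtain ⟨c1, c2, c3⟩ := htx
      omega
    · obtain ⟨c1, c2, c3, c4⟩ := hxB
      omega
  · simp only [mem_union, mem_Rsq] at ht
    rw [mem_Rg]
    dsimp only
    omega

theorem tb_BT (hQ : 0 < Q) (hQ1 : Q ≤ 1) {κ : ℝ} (h0 : 0 ≤ κ) (hV : VRc Q κ) {X Y s : ℤ} (hs : 1 ≤ s)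
    {K₁ K₂ : Finset Pt} (k1 : CrV e ↑K₁ (X - 2 * s) (X + 2 * s) (Y - 2 * s) (Y - s))
    (k2 : CrV e ↑K₂ (X - 5 * s) (X + 5 * s) (Y + 4 * s) (Y + 5 * s)) :
    Fin1 Q (κ * κ * κ) e X Y s K₁ K₂ := by
  have v3 : κ ≤ VT Q e (Rsq (X - 5 * s) (X + 6 * s) (Y + 4 * s) (Y + 5 * s)) (Vs e (X + 6 * s) (Y + 4 * s) (Y + 5 * s)) (Vs e (X - 5 * s) (Y + 4 * s) (Y + 5 * s)) := by
    rw [VT_comm hQ]
    exact (hV e (X - 5 * s) (X + 6 * s) (Y + 4 * s) (Y + 5 * s) (by omega) (by omega)).1 (by omega)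
  have v2 : κ * κ ≤ VT Q e ((Rsq (X + 5 * s) (X + 6 * s) (Y - 2 * s) (Y + 5 * s)) ∪ (Rsq (X - 5 * s) (X + 6 * s) (Y + 4 * s) (Y + 5 * s))) (Hs e (Y - 2 * s) (X + 5 * s) (X + 6 * s)) (Vs e (X - 5 * s) (Y + 4 * s) (Y + 5 * s)) := by
    refine (tVL (e := e) hQ hQ1 h0 v3 ((hV e (X + 5 * s) (X + 6 * s) (Y - 2 * s) (Y + 5 * s) (by omega) (by omega)).2 (by omega)) (by omega) (by omega)
      (fun t ht ht' y hy y1 y2 y3 y4 => ?_) (fun y hy => ?_) (fun y hy => ?_) (fun y hy => ?_) (fun y hy y1 y2 y3 y4 => ?_)).1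
    · simp only [mem_union, mem_Rsq] at ht ht'
      obtain ⟨c1, c2, c3⟩ := hy
      omega
    · refine bd_of (v := (y.1, y.2)) (fun hv => ?_) (by obtain ⟨c1, c2, c3, c4⟩ := hy; unfold Cor; dsimp only; omega)
      simp only [mem_union, mem_Rsq] at hv
      obtain ⟨c1, c2, c3, c4⟩ := hy
      omega
    · refine bd_of (v := (y.1 - 1, y.2)) (fun hv => ?_) (by obtain ⟨c1, c2, c3, c4⟩ := hy; unfold Cor; dsimp only; omega)
      simp only [mem_union, mem_Rsq] at hv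
      obtain ⟨c1, c2, c3, c4⟩ := hy
      omega
    · obtain ⟨c1, c2, c3, c4⟩ := hy
      exact ⟨by omega, by omega, by omega, c4⟩
    · obtain ⟨c1, c2, c3, c4⟩ := hy
      omega
  have v1 : κ * κ * κ ≤ VT Q e ((Rsq (X - 2 * s) (X + 6 * s) (Y - 2 * s) (Y - s)) ∪ ((Rsq (X + 5 * s) (X + 6 * s) (Y - 2 * s) (Y + 5 * s)) ∪ (Rsq (X - 5 * s) (X + 6 * s) (Y + 4 * s) (Y + 5 * s)))) (Vs e (X - 2 * s) (Y - 2 * s) (Y - s)) (Vs e (X - 5 * s) (Y + 4 * s) (Y + 5 * s)) := by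
    refine (tHT (e := e) hQ hQ1 h0 v2 ((hV e (X - 2 * s) (X + 6 * s) (Y - 2 * s) (Y - s) (by omega) (by omega)).1 (by omega)) (by omega) (by omega)
      (fun t ht ht' y hy y1 y2 y3 y4 => ?_) (fun y hy => ?_) (fun y hy => ?_) (fun y hy => ?_) (fun y hy y1 y2 y3 y4 => ?_)).1
    · simp only [mem_union, mem_Rsq] at ht ht'
      obtain ⟨c1, c2, c3⟩ := hy
      omega
    · refine bd_of (v := (y.1, y.2 - 1)) (fun hv => ?_) (by obtain ⟨c1, c2, c3, c4⟩ := hy; unfold Cor; dsimp only; omega)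
      simp only [mem_union, mem_Rsq] at hv
      obtain ⟨c1, c2, c3, c4⟩ := hy
      omega
    · refine bd_of (v := (y.1 - 1, y.2)) (fun hv => ?_) (by obtain ⟨c1, c2, c3, c4⟩ := hy; unfold Cor; dsimp only; omega)
      simp only [mem_union, mem_Rsq] at hv
      obtain ⟨c1, c2, c3, c4⟩ := hy
      omega
    · obtain ⟨c1, c2, c3, c4⟩ := hy
      exact ⟨by omega, by omega, by omega, c4⟩
    · obtain ⟨c1, c2, c3, c4⟩ := hy
      omega
  refine fin1_of hQ hQ1 v1 (G₁ := (Rsq (X - 2 * s) (X + 2 * s) (Y - 2 * s) (Y - s))) (G₂ := (Rsq (X - 5 * s) (X + 5 * s) (Y + 4 * s) (Y + 5 * s))) (fun t ht => ?_) (fun t ht => ?_)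
    (disjoint_left.2 fun t ht ht' => ?_) (fun y hy => ?_) (fun y hy => ?_) (fun x hx => ?_) (fun x hx => ?_) (fun t ht => ?_)
  · simp only [mem_union, mem_Rsq] at ht ⊢
    omega
  · simp only [mem_union, mem_Rsq] at ht ⊢
    omega
  · simp only [mem_Rsq] at ht ht'
    omega
  · refine bd_of (v := (y.1 - 1, y.2)) (fun hv => ?_) (by obtain ⟨c1, c2, c3, c4⟩ := hy; unfold Cor; dsimp only; omega)
    simp only [mem_union, mem_Rsq] at hv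
    obtain ⟨c1, c2, c3, c4⟩ := hy
    omega
  · refine bd_of (v := (y.1 - 1, y.2)) (fun hv => ?_) (by obtain ⟨c1, c2, c3, c4⟩ := hy; unfold Cor; dsimp only; omega)
    simp only [mem_union, mem_Rsq] at hv
    obtain ⟨c1, c2, c3, c4⟩ := hy
    omega
  · obtain ⟨x1, x2, x3, x4⟩ := wnd_L (by omega) (by omega) k1 hx
    refine ⟨fun t ht ht' htx => ?_, fun hxB => ?_⟩
    · simp only [mem_union, mem_Rsq] at ht ht'
      obtain ⟨c1, c2, c3⟩ := htx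
      omega
    · obtain ⟨c1, c2, c3, c4⟩ := hxB
      omega
  · obtain ⟨x1, x2, x3, x4⟩ := wnd_L (by omega) (by omega) k2 hx
    refine ⟨fun t ht ht' htx => ?_, fun hxB => ?_⟩
    · simp only [mem_union, mem_Rsq] at ht ht'
      obtain ⟨c1, c2, c3⟩ := htx
      omega
    · obtain ⟨c1, c2, c3, c4⟩ := hxB
      omega
  · simp only [mem_union, mem_Rsq] at ht
    rw [mem_Rg]
    dsimp only
    omega

theorem tb_BR (hQ : 0 < Q) (hQ1 : Q ≤ 1) {κ : ℝ} (h0 : 0 ≤ κ) (hV : VRc Q κ) {X Y s : ℤ} (hs : 1 ≤ s)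
    {K₁ K₂ : Finset Pt} (k1 : CrV e ↑K₁ (X - 2 * s) (X + 2 * s) (Y - 2 * s) (Y - s))
    (k2 : CrH e ↑K₂ (X + 4 * s) (X + 5 * s) (Y - 5 * s) (Y + 5 * s)) :
    Fin1 Q (κ * κ * κ * κ) e X Y s K₁ K₂ := by
  have v4 : κ ≤ VT Q e (Rsq (X + 4 * s) (X + 5 * s) (Y - 6 * s) (Y + 5 * s)) (Hs e (Y - 6 * s) (X + 4 * s) (X + 5 * s)) (Hs e (Y + 5 * s) (X + 4 * s) (X + 5 * s)) := (hV e (X + 4 * s) (X + 5 * s) (Y - 6 * s) (Y + 5 * s) (by omega) (by omega)).2 (by omega)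
  have v3 : κ * κ ≤ VT Q e ((Rsq (X + 2 * s) (X + 5 * s) (Y - 6 * s) (Y - 5 * s)) ∪ (Rsq (X + 4 * s) (X + 5 * s) (Y - 6 * s) (Y + 5 * s))) (Vs e (X + 2 * s) (Y - 6 * s) (Y - 5 * s)) (Hs e (Y + 5 * s) (X + 4 * s) (X + 5 * s)) := by
    refine (tHT (e := e) hQ hQ1 h0 v4 ((hV e (X + 2 * s) (X + 5 * s) (Y - 6 * s) (Y - 5 * s) (by omega) (by omega)).1 (by omega)) (by omega) (by omega)
      (fun t ht ht' y hy y1 y2 y3 y4 => ?_) (fun y hy => ?_) (fun y hy => ?_) (fun y hy => ?_) (fun y hy y1 y2 y3 y4 => ?_)).1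
    · simp only [mem_union, mem_Rsq] at ht ht'
      obtain ⟨c1, c2, c3⟩ := hy
      omega
    · refine bd_of (v := (y.1, y.2 - 1)) (fun hv => ?_) (by obtain ⟨c1, c2, c3, c4⟩ := hy; unfold Cor; dsimp only; omega)
      simp only [mem_union, mem_Rsq] at hv
      obtain ⟨c1, c2, c3, c4⟩ := hy
      omega
    · refine bd_of (v := (y.1, y.2)) (fun hv => ?_) (by obtain ⟨c1, c2, c3, c4⟩ := hy; unfold Cor; dsimp only; omega)
      simp only [mem_union, mem_Rsq] at hv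
      obtain ⟨c1, c2, c3, c4⟩ := hy
      omega
    · obtain ⟨c1, c2, c3, c4⟩ := hy
      exact ⟨by omega, by omega, by omega, c4⟩
    · obtain ⟨c1, c2, c3, c4⟩ := hy
      omega
  have v2 : κ * κ * κ ≤ VT Q e ((Rsq (X + 2 * s) (X + 3 * s) (Y - 6 * s) (Y - s)) ∪ ((Rsq (X + 2 * s) (X + 5 * s) (Y - 6 * s) (Y - 5 * s)) ∪ (Rsq (X + 4 * s) (X + 5 * s) (Y - 6 * s) (Y + 5 * s)))) (Hs e (Y - s) (X + 2 * s) (X + 3 * s)) (Hs e (Y + 5 * s) (X + 4 * s) (X + 5 * s)) := by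
    refine (tVR (e := e) hQ hQ1 h0 v3 ((hV e (X + 2 * s) (X + 3 * s) (Y - 6 * s) (Y - s) (by omega) (by omega)).2 (by omega)) (by omega) (by omega)
      (fun t ht ht' y hy y1 y2 y3 y4 => ?_) (fun y hy => ?_) (fun y hy => ?_) (fun y hy => ?_) (fun y hy y1 y2 y3 y4 => ?_)).2
    · simp only [mem_union, mem_Rsq] at ht ht'
      obtain ⟨c1, c2, c3⟩ := hy
      omega
    · refine bd_of (v := (y.1 - 1, y.2)) (fun hv => ?_) (by obtain ⟨c1, c2, c3, c4⟩ := hy; unfold Cor; dsimp only; omega)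
      simp only [mem_union, mem_Rsq] at hv
      obtain ⟨c1, c2, c3, c4⟩ := hy
      omega
    · refine bd_of (v := (y.1, y.2)) (fun hv => ?_) (by obtain ⟨c1, c2, c3, c4⟩ := hy; unfold Cor; dsimp only; omega)
      simp only [mem_union, mem_Rsq] at hv
      obtain ⟨c1, c2, c3, c4⟩ := hy
      omega
    · obtain ⟨c1, c2, c3, c4⟩ := hy
      exact ⟨by omega, by omega, by omega, c4⟩
    · obtain ⟨c1, c2, c3, c4⟩ := hy
      omega
  have v1 : κ * κ * κ * κ ≤ VT Q e ((Rsq (X - 2 * s) (X + 3 * s) (Y - 2 * s) (Y - s)) ∪ ((Rsq (X + 2 * s) (X + 3 * s) (Y - 6 * s) (Y - s)) ∪ ((Rsq (X + 2 * s) (X + 5 * s) (Y - 6 * s) (Y - 5 * s)) ∪ (Rsq (X + 4 * s) (X + 5 * s) (Y - 6 * s) (Y + 5 * s))))) (Vs e (X - 2 * s) (Y - 2 * s) (Y - s)) (Hs e (Y + 5 * s) (X + 4 * s) (X + 5 * s)) := by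
    refine (tHB (e := e) hQ hQ1 h0 v2 ((hV e (X - 2 * s) (X + 3 * s) (Y - 2 * s) (Y - s) (by omega) (by omega)).1 (by omega)) (by omega) (by omega)
      (fun t ht ht' y hy y1 y2 y3 y4 => ?_) (fun y hy => ?_) (fun y hy => ?_) (fun y hy => ?_) (fun y hy y1 y2 y3 y4 => ?_)).1
    · simp only [mem_union, mem_Rsq] at ht ht'
      obtain ⟨c1, c2, c3⟩ := hy
      omega
    · refine bd_of (v := (y.1, y.2)) (fun hv => ?_) (by obtain ⟨c1, c2, c3, c4⟩ := hy; unfold Cor; dsimp only; omega)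
      simp only [mem_union, mem_Rsq] at hv
      obtain ⟨c1, c2, c3, c4⟩ := hy
      omega
    · refine bd_of (v := (y.1, y.2)) (fun hv => ?_) (by obtain ⟨c1, c2, c3, c4⟩ := hy; unfold Cor; dsimp only; omega)
      simp only [mem_union, mem_Rsq] at hv
      obtain ⟨c1, c2, c3, c4⟩ := hy
      omega
    · obtain ⟨c1, c2, c3, c4⟩ := hy
      exact ⟨by omega, by omega, by omega, c4⟩
    · obtain ⟨c1, c2, c3, c4⟩ := hy
      omega
  refine fin1_of hQ hQ1 v1 (G₁ := (Rsq (X - 2 * s) (X + 2 * s) (Y - 2 * s) (Y - s))) (G₂ := (Rsq (X + 4 * s) (X + 5 * s) (Y - 5 * s) (Y + 5 * s))) (fun t ht => ?_) (fun t ht => ?_)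
    (disjoint_left.2 fun t ht ht' => ?_) (fun y hy => ?_) (fun y hy => ?_) (fun x hx => ?_) (fun x hx => ?_) (fun t ht => ?_)
  · simp only [mem_union, mem_Rsq] at ht ⊢
    omega
  · simp only [mem_union, mem_Rsq] at ht ⊢
    omega
  · simp only [mem_Rsq] at ht ht'
    omega
  · refine bd_of (v := (y.1 - 1, y.2)) (fun hv => ?_) (by obtain ⟨c1, c2, c3, c4⟩ := hy; unfold Cor; dsimp only; omega)
    simp only [mem_union, mem_Rsq] at hv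
    obtain ⟨c1, c2, c3, c4⟩ := hy
    omega
  · refine bd_of (v := (y.1, y.2)) (fun hv => ?_) (by obtain ⟨c1, c2, c3, c4⟩ := hy; unfold Cor; dsimp only; omega)
    simp only [mem_union, mem_Rsq] at hv
    obtain ⟨c1, c2, c3, c4⟩ := hy
    omega
  · obtain ⟨x1, x2, x3, x4⟩ := wnd_L (by omega) (by omega) k1 hx
    refine ⟨fun t ht ht' htx => ?_, fun hxB => ?_⟩
    · simp only [mem_union, mem_Rsq] at ht ht'
      obtain ⟨c1, c2, c3⟩ := htx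
      omega
    · obtain ⟨c1, c2, c3, c4⟩ := hxB
      omega
  · obtain ⟨x1, x2, x3, x4⟩ := wnd_T (by omega) (by omega) k2 hx
    refine ⟨fun t ht ht' htx => ?_, fun hxB => ?_⟩
    · simp only [mem_union, mem_Rsq] at ht ht'
      obtain ⟨c1, c2, c3⟩ := htx
      omega
    · obtain ⟨c1, c2, c3, c4⟩ := hxB
      omega
  · simp only [mem_union, mem_Rsq] at ht
    rw [mem_Rg]
    dsimp only
    omega

theorem tb_BL (hQ : 0 < Q) (hQ1 : Q ≤ 1) {κ : ℝ} (h0 : 0 ≤ κ) (hV : VRc Q κ) {X Y s : ℤ} (hs : 1 ≤ s)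
    {K₁ K₂ : Finset Pt} (k1 : CrV e ↑K₁ (X - 2 * s) (X + 2 * s) (Y - 2 * s) (Y - s))
    (k2 : CrH e ↑K₂ (X - 5 * s) (X - 4 * s) (Y - 5 * s) (Y + 5 * s)) :
    Fin1 Q (κ * κ * κ * κ) e X Y s K₁ K₂ := by
  have v4 : κ ≤ VT Q e (Rsq (X - 5 * s) (X - 4 * s) (Y - 6 * s) (Y + 5 * s)) (Hs e (Y - 6 * s) (X - 5 * s) (X - 4 * s)) (Hs e (Y + 5 * s) (X - 5 * s) (X - 4 * s)) := (hV e (X - 5 * s) (X - 4 * s) (Y - 6 * s) (Y + 5 * s) (by omega) (by omega)).2 (by omega)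
  have v3 : κ * κ ≤ VT Q e ((Rsq (X - 5 * s) (X - 2 * s) (Y - 6 * s) (Y - 5 * s)) ∪ (Rsq (X - 5 * s) (X - 4 * s) (Y - 6 * s) (Y + 5 * s))) (Vs e (X - 2 * s) (Y - 6 * s) (Y - 5 * s)) (Hs e (Y + 5 * s) (X - 5 * s) (X - 4 * s)) := by
    refine (tHT (e := e) hQ hQ1 h0 v4 ((hV e (X - 5 * s) (X - 2 * s) (Y - 6 * s) (Y - 5 * s) (by omega) (by omega)).1 (by omega)) (by omega) (by omega)
      (fun t ht ht' y hy y1 y2 y3 y4 => ?_) (fun y hy => ?_) (fun y hy => ?_) (fun y hy => ?_) (fun y hy y1 y2 y3 y4 => ?_)).2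
    · simp only [mem_union, mem_Rsq] at ht ht'
      obtain ⟨c1, c2, c3⟩ := hy
      omega
    · refine bd_of (v := (y.1, y.2 - 1)) (fun hv => ?_) (by obtain ⟨c1, c2, c3, c4⟩ := hy; unfold Cor; dsimp only; omega)
      simp only [mem_union, mem_Rsq] at hv
      obtain ⟨c1, c2, c3, c4⟩ := hy
      omega
    · refine bd_of (v := (y.1, y.2)) (fun hv => ?_) (by obtain ⟨c1, c2, c3, c4⟩ := hy; unfold Cor; dsimp only; omega)
      simp only [mem_union, mem_Rsq] at hv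
      obtain ⟨c1, c2, c3, c4⟩ := hy
      omega
    · obtain ⟨c1, c2, c3, c4⟩ := hy
      exact ⟨by omega, by omega, by omega, c4⟩
    · obtain ⟨c1, c2, c3, c4⟩ := hy
      omega
  have v2 : κ * κ * κ ≤ VT Q e ((Rsq (X - 3 * s) (X - 2 * s) (Y - 6 * s) (Y - s)) ∪ ((Rsq (X - 5 * s) (X - 2 * s) (Y - 6 * s) (Y - 5 * s)) ∪ (Rsq (X - 5 * s) (X - 4 * s) (Y - 6 * s) (Y + 5 * s)))) (Hs e (Y - s) (X - 3 * s) (X - 2 * s)) (Hs e (Y + 5 * s) (X - 5 * s) (X - 4 * s)) := by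
    refine (tVL (e := e) hQ hQ1 h0 v3 ((hV e (X - 3 * s) (X - 2 * s) (Y - 6 * s) (Y - s) (by omega) (by omega)).2 (by omega)) (by omega) (by omega)
      (fun t ht ht' y hy y1 y2 y3 y4 => ?_) (fun y hy => ?_) (fun y hy => ?_) (fun y hy => ?_) (fun y hy y1 y2 y3 y4 => ?_)).2
    · simp only [mem_union, mem_Rsq] at ht ht'
      obtain ⟨c1, c2, c3⟩ := hy
      omega
    · refine bd_of (v := (y.1, y.2)) (fun hv => ?_) (by obtain ⟨c1, c2, c3, c4⟩ := hy; unfold Cor; dsimp only; omega)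
      simp only [mem_union, mem_Rsq] at hv
      obtain ⟨c1, c2, c3, c4⟩ := hy
      omega
    · refine bd_of (v := (y.1, y.2)) (fun hv => ?_) (by obtain ⟨c1, c2, c3, c4⟩ := hy; unfold Cor; dsimp only; omega)
      simp only [mem_union, mem_Rsq] at hv
      obtain ⟨c1, c2, c3, c4⟩ := hy
      omega
    · obtain ⟨c1, c2, c3, c4⟩ := hy
      exact ⟨by omega, by omega, by omega, c4⟩
    · obtain ⟨c1, c2, c3, c4⟩ := hy
      omega
  have v1 : κ * κ * κ * κ ≤ VT Q e ((Rsq (X - 3 * s) (X + 2 * s) (Y - 2 * s) (Y - s)) ∪ ((Rsq (X - 3 * s) (X - 2 * s) (Y - 6 * s) (Y - s)) ∪ ((Rsq (X - 5 * s) (X - 2 * s) (Y - 6 * s) (Y - 5 * s)) ∪ (Rsq (X - 5 * s) (X - 4 * s) (Y - 6 * s) (Y + 5 * s))))) (Vs e (X + 2 * s) (Y - 2 * s) (Y - s)) (Hs e (Y + 5 * s) (X - 5 * s) (X - 4 * s)) := by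
    refine (tHB (e := e) hQ hQ1 h0 v2 ((hV e (X - 3 * s) (X + 2 * s) (Y - 2 * s) (Y - s) (by omega) (by omega)).1 (by omega)) (by omega) (by omega)
      (fun t ht ht' y hy y1 y2 y3 y4 => ?_) (fun y hy => ?_) (fun y hy => ?_) (fun y hy => ?_) (fun y hy y1 y2 y3 y4 => ?_)).2
    · simp only [mem_union, mem_Rsq] at ht ht'
      obtain ⟨c1, c2, c3⟩ := hy
      omega
    · refine bd_of (v := (y.1, y.2)) (fun hv => ?_) (by obtain ⟨c1, c2, c3, c4⟩ := hy; unfold Cor; dsimp only; omega)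
      simp only [mem_union, mem_Rsq] at hv
      obtain ⟨c1, c2, c3, c4⟩ := hy
      omega
    · refine bd_of (v := (y.1, y.2)) (fun hv => ?_) (by obtain ⟨c1, c2, c3, c4⟩ := hy; unfold Cor; dsimp only; omega)
      simp only [mem_union, mem_Rsq] at hv
      obtain ⟨c1, c2, c3, c4⟩ := hy
      omega
    · obtain ⟨c1, c2, c3, c4⟩ := hy
      exact ⟨by omega, by omega, by omega, c4⟩
    · obtain ⟨c1, c2, c3, c4⟩ := hy
      omega
  refine fin1_of hQ hQ1 v1 (G₁ := (Rsq (X - 2 * s) (X + 2 * s) (Y - 2 * s) (Y - s))) (G₂ := (Rsq (X - 5 * s) (X - 4 * s) (Y - 5 * s) (Y + 5 * s))) (fun t ht => ?_) (fun t ht => ?_)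
    (disjoint_left.2 fun t ht ht' => ?_) (fun y hy => ?_) (fun y hy => ?_) (fun x hx => ?_) (fun x hx => ?_) (fun t ht => ?_)
  · simp only [mem_union, mem_Rsq] at ht ⊢
    omega
  · simp only [mem_union, mem_Rsq] at ht ⊢
    omega
  · simp only [mem_Rsq] at ht ht'
    omega
  · refine bd_of (v := (y.1, y.2)) (fun hv => ?_) (by obtain ⟨c1, c2, c3, c4⟩ := hy; unfold Cor; dsimp only; omega)
    simp only [mem_union, mem_Rsq] at hv
    obtain ⟨c1, c2, c3, c4⟩ := hy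
    omega
  · refine bd_of (v := (y.1, y.2)) (fun hv => ?_) (by obtain ⟨c1, c2, c3, c4⟩ := hy; unfold Cor; dsimp only; omega)
    simp only [mem_union, mem_Rsq] at hv
    obtain ⟨c1, c2, c3, c4⟩ := hy
    omega
  · obtain ⟨x1, x2, x3, x4⟩ := wnd_R (by omega) (by omega) k1 hx
    refine ⟨fun t ht ht' htx => ?_, fun hxB => ?_⟩
    · simp only [mem_union, mem_Rsq] at ht ht'
      obtain ⟨c1, c2, c3⟩ := htx
      omega
    · obtain ⟨c1, c2, c3, c4⟩ := hxB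
      omega
  · obtain ⟨x1, x2, x3, x4⟩ := wnd_T (by omega) (by omega) k2 hx
    refine ⟨fun t ht ht' htx => ?_, fun hxB => ?_⟩
    · simp only [mem_union, mem_Rsq] at ht ht'
      obtain ⟨c1, c2, c3⟩ := htx
      omega
    · obtain ⟨c1, c2, c3, c4⟩ := hxB
      omega
  · simp only [mem_union, mem_Rsq] at ht
    rw [mem_Rg]
    dsimp only
    omega

theorem tb_RR (hQ : 0 < Q) (hQ1 : Q ≤ 1) {κ : ℝ} (h0 : 0 ≤ κ) (hV : VRc Q κ) {X Y s : ℤ} (hs : 1 ≤ s)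
    {K₁ K₂ : Finset Pt} (k1 : CrH e ↑K₁ (X + s) (X + 2 * s) (Y - 2 * s) (Y + 2 * s))
    (k2 : CrH e ↑K₂ (X + 4 * s) (X + 5 * s) (Y - 5 * s) (Y + 5 * s)) :
    Fin1 Q (κ * κ * κ) e X Y s K₁ K₂ := by
  have v3 : κ ≤ VT Q e (Rsq (X + 4 * s) (X + 5 * s) (Y - 5 * s) (Y + 6 * s)) (Hs e (Y + 6 * s) (X + 4 * s) (X + 5 * s)) (Hs e (Y - 5 * s) (X + 4 * s) (X + 5 * s)) := by
    rw [VT_comm hQ]
    exact (hV e (X + 4 * s) (X + 5 * s) (Y - 5 * s) (Y + 6 * s) (by omega) (by omega)).2 (by omega)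
  have v2 : κ * κ ≤ VT Q e ((Rsq (X + s) (X + 5 * s) (Y + 5 * s) (Y + 6 * s)) ∪ (Rsq (X + 4 * s) (X + 5 * s) (Y - 5 * s) (Y + 6 * s))) (Vs e (X + s) (Y + 5 * s) (Y + 6 * s)) (Hs e (Y - 5 * s) (X + 4 * s) (X + 5 * s)) := by
    refine (tHB (e := e) hQ hQ1 h0 v3 ((hV e (X + s) (X + 5 * s) (Y + 5 * s) (Y + 6 * s) (by omega) (by omega)).1 (by omega)) (by omega) (by omega)
      (fun t ht ht' y hy y1 y2 y3 y4 => ?_) (fun y hy => ?_) (fun y hy => ?_) (fun y hy => ?_) (fun y hy y1 y2 y3 y4 => ?_)).1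
    · simp only [mem_union, mem_Rsq] at ht ht'
      obtain ⟨c1, c2, c3⟩ := hy
      omega
    · refine bd_of (v := (y.1, y.2)) (fun hv => ?_) (by obtain ⟨c1, c2, c3, c4⟩ := hy; unfold Cor; dsimp only; omega)
      simp only [mem_union, mem_Rsq] at hv
      obtain ⟨c1, c2, c3, c4⟩ := hy
      omega
    · refine bd_of (v := (y.1, y.2 - 1)) (fun hv => ?_) (by obtain ⟨c1, c2, c3, c4⟩ := hy; unfold Cor; dsimp only; omega)
      simp only [mem_union, mem_Rsq] at hv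
      obtain ⟨c1, c2, c3, c4⟩ := hy
      omega
    · obtain ⟨c1, c2, c3, c4⟩ := hy
      exact ⟨by omega, by omega, by omega, c4⟩
    · obtain ⟨c1, c2, c3, c4⟩ := hy
      omega
  have v1 : κ * κ * κ ≤ VT Q e ((Rsq (X + s) (X + 2 * s) (Y - 2 * s) (Y + 6 * s)) ∪ ((Rsq (X + s) (X + 5 * s) (Y + 5 * s) (Y + 6 * s)) ∪ (Rsq (X + 4 * s) (X + 5 * s) (Y - 5 * s) (Y + 6 * s)))) (Hs e (Y - 2 * s) (X + s) (X + 2 * s)) (Hs e (Y - 5 * s) (X + 4 * s) (X + 5 * s)) := by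
    refine (tVR (e := e) hQ hQ1 h0 v2 ((hV e (X + s) (X + 2 * s) (Y - 2 * s) (Y + 6 * s) (by omega) (by omega)).2 (by omega)) (by omega) (by omega)
      (fun t ht ht' y hy y1 y2 y3 y4 => ?_) (fun y hy => ?_) (fun y hy => ?_) (fun y hy => ?_) (fun y hy y1 y2 y3 y4 => ?_)).1
    · simp only [mem_union, mem_Rsq] at ht ht'
      obtain ⟨c1, c2, c3⟩ := hy
      omega
    · refine bd_of (v := (y.1 - 1, y.2)) (fun hv => ?_) (by obtain ⟨c1, c2, c3, c4⟩ := hy; unfold Cor; dsimp only; omega)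
      simp only [mem_union, mem_Rsq] at hv
      obtain ⟨c1, c2, c3, c4⟩ := hy
      omega
    · refine bd_of (v := (y.1, y.2 - 1)) (fun hv => ?_) (by obtain ⟨c1, c2, c3, c4⟩ := hy; unfold Cor; dsimp only; omega)
      simp only [mem_union, mem_Rsq] at hv
      obtain ⟨c1, c2, c3, c4⟩ := hy
      omega
    · obtain ⟨c1, c2, c3, c4⟩ := hy
      exact ⟨by omega, by omega, by omega, c4⟩
    · obtain ⟨c1, c2, c3, c4⟩ := hy
      omega
  refine fin1_of hQ hQ1 v1 (G₁ := (Rsq (X + s) (X + 2 * s) (Y - 2 * s) (Y + 2 * s))) (G₂ := (Rsq (X + 4 * s) (X + 5 * s) (Y - 5 * s) (Y + 5 * s))) (fun t ht => ?_) (fun t ht => ?_)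
    (disjoint_left.2 fun t ht ht' => ?_) (fun y hy => ?_) (fun y hy => ?_) (fun x hx => ?_) (fun x hx => ?_) (fun t ht => ?_)
  · simp only [mem_union, mem_Rsq] at ht ⊢
    omega
  · simp only [mem_union, mem_Rsq] at ht ⊢
    omega
  · simp only [mem_Rsq] at ht ht'
    omega
  · refine bd_of (v := (y.1, y.2 - 1)) (fun hv => ?_) (by obtain ⟨c1, c2, c3, c4⟩ := hy; unfold Cor; dsimp only; omega)
    simp only [mem_union, mem_Rsq] at hv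
    obtain ⟨c1, c2, c3, c4⟩ := hy
    omega
  · refine bd_of (v := (y.1, y.2 - 1)) (fun hv => ?_) (by obtain ⟨c1, c2, c3, c4⟩ := hy; unfold Cor; dsimp only; omega)
    simp only [mem_union, mem_Rsq] at hv
    obtain ⟨c1, c2, c3, c4⟩ := hy
    omega
  · obtain ⟨x1, x2, x3, x4⟩ := wnd_B (by omega) (by omega) k1 hx
    refine ⟨fun t ht ht' htx => ?_, fun hxB => ?_⟩
    · simp only [mem_union, mem_Rsq] at ht ht'
      obtain ⟨c1, c2, c3⟩ := htx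
      omega
    · obtain ⟨c1, c2, c3, c4⟩ := hxB
      omega
  · obtain ⟨x1, x2, x3, x4⟩ := wnd_B (by omega) (by omega) k2 hx
    refine ⟨fun t ht ht' htx => ?_, fun hxB => ?_⟩
    · simp only [mem_union, mem_Rsq] at ht ht'
      obtain ⟨c1, c2, c3⟩ := htx
      omega
    · obtain ⟨c1, c2, c3, c4⟩ := hxB
      omega
  · simp only [mem_union, mem_Rsq] at ht
    rw [mem_Rg]
    dsimp only
    omega

theorem tb_RL (hQ : 0 < Q) (hQ1 : Q ≤ 1) {κ : ℝ} (h0 : 0 ≤ κ) (hV : VRc Q κ) {X Y s : ℤ} (hs : 1 ≤ s)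
    {K₁ K₂ : Finset Pt} (k1 : CrH e ↑K₁ (X + s) (X + 2 * s) (Y - 2 * s) (Y + 2 * s))
    (k2 : CrH e ↑K₂ (X - 5 * s) (X - 4 * s) (Y - 5 * s) (Y + 5 * s)) :
    Fin1 Q (κ * κ * κ) e X Y s K₁ K₂ := by
  have v3 : κ ≤ VT Q e (Rsq (X - 5 * s) (X - 4 * s) (Y - 5 * s) (Y + 6 * s)) (Hs e (Y + 6 * s) (X - 5 * s) (X - 4 * s)) (Hs e (Y - 5 * s) (X - 5 * s) (X - 4 * s)) := by
    rw [VT_comm hQ]
    exact (hV e (X - 5 * s) (X - 4 * s) (Y - 5 * s) (Y + 6 * s) (by omega) (by omega)).2 (by omega)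
  have v2 : κ * κ ≤ VT Q e ((Rsq (X - 5 * s) (X + 2 * s) (Y + 5 * s) (Y + 6 * s)) ∪ (Rsq (X - 5 * s) (X - 4 * s) (Y - 5 * s) (Y + 6 * s))) (Vs e (X + 2 * s) (Y + 5 * s) (Y + 6 * s)) (Hs e (Y - 5 * s) (X - 5 * s) (X - 4 * s)) := by
    refine (tHB (e := e) hQ hQ1 h0 v3 ((hV e (X - 5 * s) (X + 2 * s) (Y + 5 * s) (Y + 6 * s) (by omega) (by omega)).1 (by omega)) (by omega) (by omega)
      (fun t ht ht' y hy y1 y2 y3 y4 => ?_) (fun y hy => ?_) (fun y hy => ?_) (fun y hy => ?_) (fun y hy y1 y2 y3 y4 => ?_)).2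
    · simp only [mem_union, mem_Rsq] at ht ht'
      obtain ⟨c1, c2, c3⟩ := hy
      omega
    · refine bd_of (v := (y.1, y.2)) (fun hv => ?_) (by obtain ⟨c1, c2, c3, c4⟩ := hy; unfold Cor; dsimp only; omega)
      simp only [mem_union, mem_Rsq] at hv
      obtain ⟨c1, c2, c3, c4⟩ := hy
      omega
    · refine bd_of (v := (y.1, y.2 - 1)) (fun hv => ?_) (by obtain ⟨c1, c2, c3, c4⟩ := hy; unfold Cor; dsimp only; omega)
      simp only [mem_union, mem_Rsq] at hv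
      obtain ⟨c1, c2, c3, c4⟩ := hy
      omega
    · obtain ⟨c1, c2, c3, c4⟩ := hy
      exact ⟨by omega, by omega, by omega, c4⟩
    · obtain ⟨c1, c2, c3, c4⟩ := hy
      omega
  have v1 : κ * κ * κ ≤ VT Q e ((Rsq (X + s) (X + 2 * s) (Y - 2 * s) (Y + 6 * s)) ∪ ((Rsq (X - 5 * s) (X + 2 * s) (Y + 5 * s) (Y + 6 * s)) ∪ (Rsq (X - 5 * s) (X - 4 * s) (Y - 5 * s) (Y + 6 * s)))) (Hs e (Y - 2 * s) (X + s) (X + 2 * s)) (Hs e (Y - 5 * s) (X - 5 * s) (X - 4 * s)) := by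
    refine (tVL (e := e) hQ hQ1 h0 v2 ((hV e (X + s) (X + 2 * s) (Y - 2 * s) (Y + 6 * s) (by omega) (by omega)).2 (by omega)) (by omega) (by omega)
      (fun t ht ht' y hy y1 y2 y3 y4 => ?_) (fun y hy => ?_) (fun y hy => ?_) (fun y hy => ?_) (fun y hy y1 y2 y3 y4 => ?_)).1
    · simp only [mem_union, mem_Rsq] at ht ht'
      obtain ⟨c1, c2, c3⟩ := hy
      omega
    · refine bd_of (v := (y.1, y.2)) (fun hv => ?_) (by obtain ⟨c1, c2, c3, c4⟩ := hy; unfold Cor; dsimp only; omega)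
      simp only [mem_union, mem_Rsq] at hv
      obtain ⟨c1, c2, c3, c4⟩ := hy
      omega
    · refine bd_of (v := (y.1, y.2 - 1)) (fun hv => ?_) (by obtain ⟨c1, c2, c3, c4⟩ := hy; unfold Cor; dsimp only; omega)
      simp only [mem_union, mem_Rsq] at hv
      obtain ⟨c1, c2, c3, c4⟩ := hy
      omega
    · obtain ⟨c1, c2, c3, c4⟩ := hy
      exact ⟨by omega, by omega, by omega, c4⟩
    · obtain ⟨c1, c2, c3, c4⟩ := hy
      omega
  refine fin1_of hQ hQ1 v1 (G₁ := (Rsq (X + s) (X + 2 * s) (Y - 2 * s) (Y + 2 * s))) (G₂ := (Rsq (X - 5 * s) (X - 4 * s) (Y - 5 * s) (Y + 5 * s))) (fun t ht => ?_) (fun t ht => ?_)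
    (disjoint_left.2 fun t ht ht' => ?_) (fun y hy => ?_) (fun y hy => ?_) (fun x hx => ?_) (fun x hx => ?_) (fun t ht => ?_)
  · simp only [mem_union, mem_Rsq] at ht ⊢
    omega
  · simp only [mem_union, mem_Rsq] at ht ⊢
    omega
  · simp only [mem_Rsq] at ht ht'
    omega
  · refine bd_of (v := (y.1, y.2 - 1)) (fun hv => ?_) (by obtain ⟨c1, c2, c3, c4⟩ := hy; unfold Cor; dsimp only; omega)
    simp only [mem_union, mem_Rsq] at hv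
    obtain ⟨c1, c2, c3, c4⟩ := hy
    omega
  · refine bd_of (v := (y.1, y.2 - 1)) (fun hv => ?_) (by obtain ⟨c1, c2, c3, c4⟩ := hy; unfold Cor; dsimp only; omega)
    simp only [mem_union, mem_Rsq] at hv
    obtain ⟨c1, c2, c3, c4⟩ := hy
    omega
  · obtain ⟨x1, x2, x3, x4⟩ := wnd_B (by omega) (by omega) k1 hx
    refine ⟨fun t ht ht' htx => ?_, fun hxB => ?_⟩
    · simp only [mem_union, mem_Rsq] at ht ht'
      obtain ⟨c1, c2, c3⟩ := htx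
      omega
    · obtain ⟨c1, c2, c3, c4⟩ := hxB
      omega
  · obtain ⟨x1, x2, x3, x4⟩ := wnd_B (by omega) (by omega) k2 hx
    refine ⟨fun t ht ht' htx => ?_, fun hxB => ?_⟩
    · simp only [mem_union, mem_Rsq] at ht ht'
      obtain ⟨c1, c2, c3⟩ := htx
      omega
    · obtain ⟨c1, c2, c3, c4⟩ := hxB
      omega
  · simp only [mem_union, mem_Rsq] at ht
    rw [mem_Rg]
    dsimp only
    omega

theorem tb_RT (hQ : 0 < Q) (hQ1 : Q ≤ 1) {κ : ℝ} (h0 : 0 ≤ κ) (hV : VRc Q κ) {X Y s : ℤ} (hs : 1 ≤ s)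
    {K₁ K₂ : Finset Pt} (k1 : CrH e ↑K₁ (X + s) (X + 2 * s) (Y - 2 * s) (Y + 2 * s))
    (k2 : CrV e ↑K₂ (X - 5 * s) (X + 5 * s) (Y + 4 * s) (Y + 5 * s)) :
    Fin1 Q (κ * κ * κ * κ) e X Y s K₁ K₂ := by
  have v4 : κ ≤ VT Q e (Rsq (X - 5 * s) (X + 6 * s) (Y + 4 * s) (Y + 5 * s)) (Vs e (X + 6 * s) (Y + 4 * s) (Y + 5 * s)) (Vs e (X - 5 * s) (Y + 4 * s) (Y + 5 * s)) := by
    rw [VT_comm hQ]
    exact (hV e (X - 5 * s) (X + 6 * s) (Y + 4 * s) (Y + 5 * s) (by omega) (by omega)).1 (by omega)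
  have v3 : κ * κ ≤ VT Q e ((Rsq (X + 5 * s) (X + 6 * s) (Y + 2 * s) (Y + 5 * s)) ∪ (Rsq (X - 5 * s) (X + 6 * s) (Y + 4 * s) (Y + 5 * s))) (Hs e (Y + 2 * s) (X + 5 * s) (X + 6 * s)) (Vs e (X - 5 * s) (Y + 4 * s) (Y + 5 * s)) := by
    refine (tVL (e := e) hQ hQ1 h0 v4 ((hV e (X + 5 * s) (X + 6 * s) (Y + 2 * s) (Y + 5 * s) (by omega) (by omega)).2 (by omega)) (by omega) (by omega)
      (fun t ht ht' y hy y1 y2 y3 y4 => ?_) (fun y hy => ?_) (fun y hy => ?_) (fun y hy => ?_) (fun y hy y1 y2 y3 y4 => ?_)).1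
    · simp only [mem_union, mem_Rsq] at ht ht'
      obtain ⟨c1, c2, c3⟩ := hy
      omega
    · refine bd_of (v := (y.1, y.2)) (fun hv => ?_) (by obtain ⟨c1, c2, c3, c4⟩ := hy; unfold Cor; dsimp only; omega)
      simp only [mem_union, mem_Rsq] at hv
      obtain ⟨c1, c2, c3, c4⟩ := hy
      omega
    · refine bd_of (v := (y.1 - 1, y.2)) (fun hv => ?_) (by obtain ⟨c1, c2, c3, c4⟩ := hy; unfold Cor; dsimp only; omega)
      simp only [mem_union, mem_Rsq] at hv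
      obtain ⟨c1, c2, c3, c4⟩ := hy
      omega
    · obtain ⟨c1, c2, c3, c4⟩ := hy
      exact ⟨by omega, by omega, by omega, c4⟩
    · obtain ⟨c1, c2, c3, c4⟩ := hy
      omega
  have v2 : κ * κ * κ ≤ VT Q e ((Rsq (X + s) (X + 6 * s) (Y + 2 * s) (Y + 3 * s)) ∪ ((Rsq (X + 5 * s) (X + 6 * s) (Y + 2 * s) (Y + 5 * s)) ∪ (Rsq (X - 5 * s) (X + 6 * s) (Y + 4 * s) (Y + 5 * s)))) (Vs e (X + s) (Y + 2 * s) (Y + 3 * s)) (Vs e (X - 5 * s) (Y + 4 * s) (Y + 5 * s)) := by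
    refine (tHT (e := e) hQ hQ1 h0 v3 ((hV e (X + s) (X + 6 * s) (Y + 2 * s) (Y + 3 * s) (by omega) (by omega)).1 (by omega)) (by omega) (by omega)
      (fun t ht ht' y hy y1 y2 y3 y4 => ?_) (fun y hy => ?_) (fun y hy => ?_) (fun y hy => ?_) (fun y hy y1 y2 y3 y4 => ?_)).1
    · simp only [mem_union, mem_Rsq] at ht ht'
      obtain ⟨c1, c2, c3⟩ := hy
      omega
    · refine bd_of (v := (y.1, y.2 - 1)) (fun hv => ?_) (by obtain ⟨c1, c2, c3, c4⟩ := hy; unfold Cor; dsimp only; omega)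
      simp only [mem_union, mem_Rsq] at hv
      obtain ⟨c1, c2, c3, c4⟩ := hy
      omega
    · refine bd_of (v := (y.1 - 1, y.2)) (fun hv => ?_) (by obtain ⟨c1, c2, c3, c4⟩ := hy; unfold Cor; dsimp only; omega)
      simp only [mem_union, mem_Rsq] at hv
      obtain ⟨c1, c2, c3, c4⟩ := hy
      omega
    · obtain ⟨c1, c2, c3, c4⟩ := hy
      exact ⟨by omega, by omega, by omega, c4⟩
    · obtain ⟨c1, c2, c3, c4⟩ := hy
      omega
  have v1 : κ * κ * κ * κ ≤ VT Q e ((Rsq (X + s) (X + 2 * s) (Y - 2 * s) (Y + 3 * s)) ∪ ((Rsq (X + s) (X + 6 * s) (Y + 2 * s) (Y + 3 * s)) ∪ ((Rsq (X + 5 * s) (X + 6 * s) (Y + 2 * s) (Y + 5 * s)) ∪ (Rsq (X - 5 * s) (X + 6 * s) (Y + 4 * s) (Y + 5 * s))))) (Hs e (Y - 2 * s) (X + s) (X + 2 * s)) (Vs e (X - 5 * s) (Y + 4 * s) (Y + 5 * s)) := by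
    refine (tVR (e := e) hQ hQ1 h0 v2 ((hV e (X + s) (X + 2 * s) (Y - 2 * s) (Y + 3 * s) (by omega) (by omega)).2 (by omega)) (by omega) (by omega)
      (fun t ht ht' y hy y1 y2 y3 y4 => ?_) (fun y hy => ?_) (fun y hy => ?_) (fun y hy => ?_) (fun y hy y1 y2 y3 y4 => ?_)).1
    · simp only [mem_union, mem_Rsq] at ht ht'
      obtain ⟨c1, c2, c3⟩ := hy
      omega
    · refine bd_of (v := (y.1 - 1, y.2)) (fun hv => ?_) (by obtain ⟨c1, c2, c3, c4⟩ := hy; unfold Cor; dsimp only; omega)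
      simp only [mem_union, mem_Rsq] at hv
      obtain ⟨c1, c2, c3, c4⟩ := hy
      omega
    · refine bd_of (v := (y.1 - 1, y.2)) (fun hv => ?_) (by obtain ⟨c1, c2, c3, c4⟩ := hy; unfold Cor; dsimp only; omega)
      simp only [mem_union, mem_Rsq] at hv
      obtain ⟨c1, c2, c3, c4⟩ := hy
      omega
    · obtain ⟨c1, c2, c3, c4⟩ := hy
      exact ⟨by omega, by omega, by omega, c4⟩
    · obtain ⟨c1, c2, c3, c4⟩ := hy
      omega
  refine fin1_of hQ hQ1 v1 (G₁ := (Rsq (X + s) (X + 2 * s) (Y - 2 * s) (Y + 2 * s))) (G₂ := (Rsq (X - 5 * s) (X + 5 * s) (Y + 4 * s) (Y + 5 * s))) (fun t ht => ?_) (fun t ht => ?_)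
    (disjoint_left.2 fun t ht ht' => ?_) (fun y hy => ?_) (fun y hy => ?_) (fun x hx => ?_) (fun x hx => ?_) (fun t ht => ?_)
  · simp only [mem_union, mem_Rsq] at ht ⊢
    omega
  · simp only [mem_union, mem_Rsq] at ht ⊢
    omega
  · simp only [mem_Rsq] at ht ht'
    omega
  · refine bd_of (v := (y.1, y.2 - 1)) (fun hv => ?_) (by obtain ⟨c1, c2, c3, c4⟩ := hy; unfold Cor; dsimp only; omega)
    simp only [mem_union, mem_Rsq] at hv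
    obtain ⟨c1, c2, c3, c4⟩ := hy
    omega
  · refine bd_of (v := (y.1 - 1, y.2)) (fun hv => ?_) (by obtain ⟨c1, c2, c3, c4⟩ := hy; unfold Cor; dsimp only; omega)
    simp only [mem_union, mem_Rsq] at hv
    obtain ⟨c1, c2, c3, c4⟩ := hy
    omega
  · obtain ⟨x1, x2, x3, x4⟩ := wnd_B (by omega) (by omega) k1 hx
    refine ⟨fun t ht ht' htx => ?_, fun hxB => ?_⟩
    · simp only [mem_union, mem_Rsq] at ht ht'
      obtain ⟨c1, c2, c3⟩ := htx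
      omega
    · obtain ⟨c1, c2, c3, c4⟩ := hxB
      omega
  · obtain ⟨x1, x2, x3, x4⟩ := wnd_L (by omega) (by omega) k2 hx
    refine ⟨fun t ht ht' htx => ?_, fun hxB => ?_⟩
    · simp only [mem_union, mem_Rsq] at ht ht'
      obtain ⟨c1, c2, c3⟩ := htx
      omega
    · obtain ⟨c1, c2, c3, c4⟩ := hxB
      omega
  · simp only [mem_union, mem_Rsq] at ht
    rw [mem_Rg]
    dsimp only
    omega

theorem tb_RB (hQ : 0 < Q) (hQ1 : Q ≤ 1) {κ : ℝ} (h0 : 0 ≤ κ) (hV : VRc Q κ) {X Y s : ℤ} (hs : 1 ≤ s)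
    {K₁ K₂ : Finset Pt} (k1 : CrH e ↑K₁ (X + s) (X + 2 * s) (Y - 2 * s) (Y + 2 * s))
    (k2 : CrV e ↑K₂ (X - 5 * s) (X + 5 * s) (Y - 5 * s) (Y - 4 * s)) :
    Fin1 Q (κ * κ * κ * κ) e X Y s K₁ K₂ := by
  have v4 : κ ≤ VT Q e (Rsq (X - 5 * s) (X + 6 * s) (Y - 5 * s) (Y - 4 * s)) (Vs e (X + 6 * s) (Y - 5 * s) (Y - 4 * s)) (Vs e (X - 5 * s) (Y - 5 * s) (Y - 4 * s)) := by
    rw [VT_comm hQ]
    exact (hV e (X - 5 * s) (X + 6 * s) (Y - 5 * s) (Y - 4 * s) (by omega) (by omega)).1 (by omega)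
  have v3 : κ * κ ≤ VT Q e ((Rsq (X + 5 * s) (X + 6 * s) (Y - 5 * s) (Y - 2 * s)) ∪ (Rsq (X - 5 * s) (X + 6 * s) (Y - 5 * s) (Y - 4 * s))) (Hs e (Y - 2 * s) (X + 5 * s) (X + 6 * s)) (Vs e (X - 5 * s) (Y - 5 * s) (Y - 4 * s)) := by
    refine (tVL (e := e) hQ hQ1 h0 v4 ((hV e (X + 5 * s) (X + 6 * s) (Y - 5 * s) (Y - 2 * s) (by omega) (by omega)).2 (by omega)) (by omega) (by omega)
      (fun t ht ht' y hy y1 y2 y3 y4 => ?_) (fun y hy => ?_) (fun y hy => ?_) (fun y hy => ?_) (fun y hy y1 y2 y3 y4 => ?_)).2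
    · simp only [mem_union, mem_Rsq] at ht ht'
      obtain ⟨c1, c2, c3⟩ := hy
      omega
    · refine bd_of (v := (y.1, y.2)) (fun hv => ?_) (by obtain ⟨c1, c2, c3, c4⟩ := hy; unfold Cor; dsimp only; omega)
      simp only [mem_union, mem_Rsq] at hv
      obtain ⟨c1, c2, c3, c4⟩ := hy
      omega
    · refine bd_of (v := (y.1 - 1, y.2)) (fun hv => ?_) (by obtain ⟨c1, c2, c3, c4⟩ := hy; unfold Cor; dsimp only; omega)
      simp only [mem_union, mem_Rsq] at hv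
      obtain ⟨c1, c2, c3, c4⟩ := hy
      omega
    · obtain ⟨c1, c2, c3, c4⟩ := hy
      exact ⟨by omega, by omega, by omega, c4⟩
    · obtain ⟨c1, c2, c3, c4⟩ := hy
      omega
  have v2 : κ * κ * κ ≤ VT Q e ((Rsq (X + s) (X + 6 * s) (Y - 3 * s) (Y - 2 * s)) ∪ ((Rsq (X + 5 * s) (X + 6 * s) (Y - 5 * s) (Y - 2 * s)) ∪ (Rsq (X - 5 * s) (X + 6 * s) (Y - 5 * s) (Y - 4 * s)))) (Vs e (X + s) (Y - 3 * s) (Y - 2 * s)) (Vs e (X - 5 * s) (Y - 5 * s) (Y - 4 * s)) := by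
    refine (tHB (e := e) hQ hQ1 h0 v3 ((hV e (X + s) (X + 6 * s) (Y - 3 * s) (Y - 2 * s) (by omega) (by omega)).1 (by omega)) (by omega) (by omega)
      (fun t ht ht' y hy y1 y2 y3 y4 => ?_) (fun y hy => ?_) (fun y hy => ?_) (fun y hy => ?_) (fun y hy y1 y2 y3 y4 => ?_)).1
    · simp only [mem_union, mem_Rsq] at ht ht'
      obtain ⟨c1, c2, c3⟩ := hy
      omega
    · refine bd_of (v := (y.1, y.2)) (fun hv => ?_) (by obtain ⟨c1, c2, c3, c4⟩ := hy; unfold Cor; dsimp only; omega)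
      simp only [mem_union, mem_Rsq] at hv
      obtain ⟨c1, c2, c3, c4⟩ := hy
      omega
    · refine bd_of (v := (y.1 - 1, y.2)) (fun hv => ?_) (by obtain ⟨c1, c2, c3, c4⟩ := hy; unfold Cor; dsimp only; omega)
      simp only [mem_union, mem_Rsq] at hv
      obtain ⟨c1, c2, c3, c4⟩ := hy
      omega
    · obtain ⟨c1, c2, c3, c4⟩ := hy
      exact ⟨by omega, by omega, by omega, c4⟩
    · obtain ⟨c1, c2, c3, c4⟩ := hy
      omega
  have v1 : κ * κ * κ * κ ≤ VT Q e ((Rsq (X + s) (X + 2 * s) (Y - 3 * s) (Y + 2 * s)) ∪ ((Rsq (X + s) (X + 6 * s) (Y - 3 * s) (Y - 2 * s)) ∪ ((Rsq (X + 5 * s) (X + 6 * s) (Y - 5 * s) (Y - 2 * s)) ∪ (Rsq (X - 5 * s) (X + 6 * s) (Y - 5 * s) (Y - 4 * s))))) (Hs e (Y + 2 * s) (X + s) (X + 2 * s)) (Vs e (X - 5 * s) (Y - 5 * s) (Y - 4 * s)) := by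
    refine (tVR (e := e) hQ hQ1 h0 v2 ((hV e (X + s) (X + 2 * s) (Y - 3 * s) (Y + 2 * s) (by omega) (by omega)).2 (by omega)) (by omega) (by omega)
      (fun t ht ht' y hy y1 y2 y3 y4 => ?_) (fun y hy => ?_) (fun y hy => ?_) (fun y hy => ?_) (fun y hy y1 y2 y3 y4 => ?_)).2
    · simp only [mem_union, mem_Rsq] at ht ht'
      obtain ⟨c1, c2, c3⟩ := hy
      omega
    · refine bd_of (v := (y.1 - 1, y.2)) (fun hv => ?_) (by obtain ⟨c1, c2, c3, c4⟩ := hy; unfold Cor; dsimp only; omega)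
      simp only [mem_union, mem_Rsq] at hv
      obtain ⟨c1, c2, c3, c4⟩ := hy
      omega
    · refine bd_of (v := (y.1 - 1, y.2)) (fun hv => ?_) (by obtain ⟨c1, c2, c3, c4⟩ := hy; unfold Cor; dsimp only; omega)
      simp only [mem_union, mem_Rsq] at hv
      obtain ⟨c1, c2, c3, c4⟩ := hy
      omega
    · obtain ⟨c1, c2, c3, c4⟩ := hy
      exact ⟨by omega, by omega, by omega, c4⟩
    · obtain ⟨c1, c2, c3, c4⟩ := hy
      omega
  refine fin1_of hQ hQ1 v1 (G₁ := (Rsq (X + s) (X + 2 * s) (Y - 2 * s) (Y + 2 * s))) (G₂ := (Rsq (X - 5 * s) (X + 5 * s) (Y - 5 * s) (Y - 4 * s))) (fun t ht => ?_) (fun t ht => ?_)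
    (disjoint_left.2 fun t ht ht' => ?_) (fun y hy => ?_) (fun y hy => ?_) (fun x hx => ?_) (fun x hx => ?_) (fun t ht => ?_)
  · simp only [mem_union, mem_Rsq] at ht ⊢
    omega
  · simp only [mem_union, mem_Rsq] at ht ⊢
    omega
  · simp only [mem_Rsq] at ht ht'
    omega
  · refine bd_of (v := (y.1, y.2)) (fun hv => ?_) (by obtain ⟨c1, c2, c3, c4⟩ := hy; unfold Cor; dsimp only; omega)
    simp only [mem_union, mem_Rsq] at hv
    obtain ⟨c1, c2, c3, c4⟩ := hy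
    omega
  · refine bd_of (v := (y.1 - 1, y.2)) (fun hv => ?_) (by obtain ⟨c1, c2, c3, c4⟩ := hy; unfold Cor; dsimp only; omega)
    simp only [mem_union, mem_Rsq] at hv
    obtain ⟨c1, c2, c3, c4⟩ := hy
    omega
  · obtain ⟨x1, x2, x3, x4⟩ := wnd_T (by omega) (by omega) k1 hx
    refine ⟨fun t ht ht' htx => ?_, fun hxB => ?_⟩
    · simp only [mem_union, mem_Rsq] at ht ht'
      obtain ⟨c1, c2, c3⟩ := htx
      omega
    · obtain ⟨c1, c2, c3, c4⟩ := hxB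
      omega
  · obtain ⟨x1, x2, x3, x4⟩ := wnd_L (by omega) (by omega) k2 hx
    refine ⟨fun t ht ht' htx => ?_, fun hxB => ?_⟩
    · simp only [mem_union, mem_Rsq] at ht ht'
      obtain ⟨c1, c2, c3⟩ := htx
      omega
    · obtain ⟨c1, c2, c3, c4⟩ := hxB
      omega
  · simp only [mem_union, mem_Rsq] at ht
    rw [mem_Rg]
    dsimp only
    omega

theorem tb_LL (hQ : 0 < Q) (hQ1 : Q ≤ 1) {κ : ℝ} (h0 : 0 ≤ κ) (hV : VRc Q κ) {X Y s : ℤ} (hs : 1 ≤ s)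
    {K₁ K₂ : Finset Pt} (k1 : CrH e ↑K₁ (X - 2 * s) (X - s) (Y - 2 * s) (Y + 2 * s))
    (k2 : CrH e ↑K₂ (X - 5 * s) (X - 4 * s) (Y - 5 * s) (Y + 5 * s)) :
    Fin1 Q (κ * κ * κ) e X Y s K₁ K₂ := by
  have v3 : κ ≤ VT Q e (Rsq (X - 5 * s) (X - 4 * s) (Y - 5 * s) (Y + 6 * s)) (Hs e (Y + 6 * s) (X - 5 * s) (X - 4 * s)) (Hs e (Y - 5 * s) (X - 5 * s) (X - 4 * s)) := by
    rw [VT_comm hQ]
    exact (hV e (X - 5 * s) (X - 4 * s) (Y - 5 * s) (Y + 6 * s) (by omega) (by omega)).2 (by omega)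
  have v2 : κ * κ ≤ VT Q e ((Rsq (X - 5 * s) (X - s) (Y + 5 * s) (Y + 6 * s)) ∪ (Rsq (X - 5 * s) (X - 4 * s) (Y - 5 * s) (Y + 6 * s))) (Vs e (X - s) (Y + 5 * s) (Y + 6 * s)) (Hs e (Y - 5 * s) (X - 5 * s) (X - 4 * s)) := by
    refine (tHB (e := e) hQ hQ1 h0 v3 ((hV e (X - 5 * s) (X - s) (Y + 5 * s) (Y + 6 * s) (by omega) (by omega)).1 (by omega)) (by omega) (by omega)
      (fun t ht ht' y hy y1 y2 y3 y4 => ?_) (fun y hy => ?_) (fun y hy => ?_) (fun y hy => ?_) (fun y hy y1 y2 y3 y4 => ?_)).2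
    · simp only [mem_union, mem_Rsq] at ht ht'
      obtain ⟨c1, c2, c3⟩ := hy
      omega
    · refine bd_of (v := (y.1, y.2)) (fun hv => ?_) (by obtain ⟨c1, c2, c3, c4⟩ := hy; unfold Cor; dsimp only; omega)
      simp only [mem_union, mem_Rsq] at hv
      obtain ⟨c1, c2, c3, c4⟩ := hy
      omega
    · refine bd_of (v := (y.1, y.2 - 1)) (fun hv => ?_) (by obtain ⟨c1, c2, c3, c4⟩ := hy; unfold Cor; dsimp only; omega)
      simp only [mem_union, mem_Rsq] at hv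
      obtain ⟨c1, c2, c3, c4⟩ := hy
      omega
    · obtain ⟨c1, c2, c3, c4⟩ := hy
      exact ⟨by omega, by omega, by omega, c4⟩
    · obtain ⟨c1, c2, c3, c4⟩ := hy
      omega
  have v1 : κ * κ * κ ≤ VT Q e ((Rsq (X - 2 * s) (X - s) (Y - 2 * s) (Y + 6 * s)) ∪ ((Rsq (X - 5 * s) (X - s) (Y + 5 * s) (Y + 6 * s)) ∪ (Rsq (X - 5 * s) (X - 4 * s) (Y - 5 * s) (Y + 6 * s)))) (Hs e (Y - 2 * s) (X - 2 * s) (X - s)) (Hs e (Y - 5 * s) (X - 5 * s) (X - 4 * s)) := by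
    refine (tVL (e := e) hQ hQ1 h0 v2 ((hV e (X - 2 * s) (X - s) (Y - 2 * s) (Y + 6 * s) (by omega) (by omega)).2 (by omega)) (by omega) (by omega)
      (fun t ht ht' y hy y1 y2 y3 y4 => ?_) (fun y hy => ?_) (fun y hy => ?_) (fun y hy => ?_) (fun y hy y1 y2 y3 y4 => ?_)).1
    · simp only [mem_union, mem_Rsq] at ht ht'
      obtain ⟨c1, c2, c3⟩ := hy
      omega
    · refine bd_of (v := (y.1, y.2)) (fun hv => ?_) (by obtain ⟨c1, c2, c3, c4⟩ := hy; unfold Cor; dsimp only; omega)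
      simp only [mem_union, mem_Rsq] at hv
      obtain ⟨c1, c2, c3, c4⟩ := hy
      omega
    · refine bd_of (v := (y.1, y.2 - 1)) (fun hv => ?_) (by obtain ⟨c1, c2, c3, c4⟩ := hy; unfold Cor; dsimp only; omega)
      simp only [mem_union, mem_Rsq] at hv
      obtain ⟨c1, c2, c3, c4⟩ := hy
      omega
    · obtain ⟨c1, c2, c3, c4⟩ := hy
      exact ⟨by omega, by omega, by omega, c4⟩
    · obtain ⟨c1, c2, c3, c4⟩ := hy
      omega
  refine fin1_of hQ hQ1 v1 (G₁ := (Rsq (X - 2 * s) (X - s) (Y - 2 * s) (Y + 2 * s))) (G₂ := (Rsq (X - 5 * s) (X - 4 * s) (Y - 5 * s) (Y + 5 * s))) (fun t ht => ?_) (fun t ht => ?_)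
    (disjoint_left.2 fun t ht ht' => ?_) (fun y hy => ?_) (fun y hy => ?_) (fun x hx => ?_) (fun x hx => ?_) (fun t ht => ?_)
  · simp only [mem_union, mem_Rsq] at ht ⊢
    omega
  · simp only [mem_union, mem_Rsq] at ht ⊢
    omega
  · simp only [mem_Rsq] at ht ht'
    omega
  · refine bd_of (v := (y.1, y.2 - 1)) (fun hv => ?_) (by obtain ⟨c1, c2, c3, c4⟩ := hy; unfold Cor; dsimp only; omega)
    simp only [mem_union, mem_Rsq] at hv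
    obtain ⟨c1, c2, c3, c4⟩ := hy
    omega
  · refine bd_of (v := (y.1, y.2 - 1)) (fun hv => ?_) (by obtain ⟨c1, c2, c3, c4⟩ := hy; unfold Cor; dsimp only; omega)
    simp only [mem_union, mem_Rsq] at hv
    obtain ⟨c1, c2, c3, c4⟩ := hy
    omega
  · obtain ⟨x1, x2, x3, x4⟩ := wnd_B (by omega) (by omega) k1 hx
    refine ⟨fun t ht ht' htx => ?_, fun hxB => ?_⟩
    · simp only [mem_union, mem_Rsq] at ht ht'
      obtain ⟨c1, c2, c3⟩ := htx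
      omega
    · obtain ⟨c1, c2, c3, c4⟩ := hxB
      omega
  · obtain ⟨x1, x2, x3, x4⟩ := wnd_B (by omega) (by omega) k2 hx
    refine ⟨fun t ht ht' htx => ?_, fun hxB => ?_⟩
    · simp only [mem_union, mem_Rsq] at ht ht'
      obtain ⟨c1, c2, c3⟩ := htx
      omega
    · obtain ⟨c1, c2, c3, c4⟩ := hxB
      omega
  · simp only [mem_union, mem_Rsq] at ht
    rw [mem_Rg]
    dsimp only
    omega

theorem tb_LR (hQ : 0 < Q) (hQ1 : Q ≤ 1) {κ : ℝ} (h0 : 0 ≤ κ) (hV : VRc Q κ) {X Y s : ℤ} (hs : 1 ≤ s)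
    {K₁ K₂ : Finset Pt} (k1 : CrH e ↑K₁ (X - 2 * s) (X - s) (Y - 2 * s) (Y + 2 * s))
    (k2 : CrH e ↑K₂ (X + 4 * s) (X + 5 * s) (Y - 5 * s) (Y + 5 * s)) :
    Fin1 Q (κ * κ * κ) e X Y s K₁ K₂ := by
  have v3 : κ ≤ VT Q e (Rsq (X + 4 * s) (X + 5 * s) (Y - 5 * s) (Y + 6 * s)) (Hs e (Y + 6 * s) (X + 4 * s) (X + 5 * s)) (Hs e (Y - 5 * s) (X + 4 * s) (X + 5 * s)) := by
    rw [VT_comm hQ]
    exact (hV e (X + 4 * s) (X + 5 * s) (Y - 5 * s) (Y + 6 * s) (by omega) (by omega)).2 (by omega)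
  have v2 : κ * κ ≤ VT Q e ((Rsq (X - 2 * s) (X + 5 * s) (Y + 5 * s) (Y + 6 * s)) ∪ (Rsq (X + 4 * s) (X + 5 * s) (Y - 5 * s) (Y + 6 * s))) (Vs e (X - 2 * s) (Y + 5 * s) (Y + 6 * s)) (Hs e (Y - 5 * s) (X + 4 * s) (X + 5 * s)) := by
    refine (tHB (e := e) hQ hQ1 h0 v3 ((hV e (X - 2 * s) (X + 5 * s) (Y + 5 * s) (Y + 6 * s) (by omega) (by omega)).1 (by omega)) (by omega) (by omega)
      (fun t ht ht' y hy y1 y2 y3 y4 => ?_) (fun y hy => ?_) (fun y hy => ?_) (fun y hy => ?_) (fun y hy y1 y2 y3 y4 => ?_)).1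
    · simp only [mem_union, mem_Rsq] at ht ht'
      obtain ⟨c1, c2, c3⟩ := hy
      omega
    · refine bd_of (v := (y.1, y.2)) (fun hv => ?_) (by obtain ⟨c1, c2, c3, c4⟩ := hy; unfold Cor; dsimp only; omega)
      simp only [mem_union, mem_Rsq] at hv
      obtain ⟨c1, c2, c3, c4⟩ := hy
      omega
    · refine bd_of (v := (y.1, y.2 - 1)) (fun hv => ?_) (by obtain ⟨c1, c2, c3, c4⟩ := hy; unfold Cor; dsimp only; omega)
      simp only [mem_union, mem_Rsq] at hv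
      obtain ⟨c1, c2, c3, c4⟩ := hy
      omega
    · obtain ⟨c1, c2, c3, c4⟩ := hy
      exact ⟨by omega, by omega, by omega, c4⟩
    · obtain ⟨c1, c2, c3, c4⟩ := hy
      omega
  have v1 : κ * κ * κ ≤ VT Q e ((Rsq (X - 2 * s) (X - s) (Y - 2 * s) (Y + 6 * s)) ∪ ((Rsq (X - 2 * s) (X + 5 * s) (Y + 5 * s) (Y + 6 * s)) ∪ (Rsq (X + 4 * s) (X + 5 * s) (Y - 5 * s) (Y + 6 * s)))) (Hs e (Y - 2 * s) (X - 2 * s) (X - s)) (Hs e (Y - 5 * s) (X + 4 * s) (X + 5 * s)) := by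
    refine (tVR (e := e) hQ hQ1 h0 v2 ((hV e (X - 2 * s) (X - s) (Y - 2 * s) (Y + 6 * s) (by omega) (by omega)).2 (by omega)) (by omega) (by omega)
      (fun t ht ht' y hy y1 y2 y3 y4 => ?_) (fun y hy => ?_) (fun y hy => ?_) (fun y hy => ?_) (fun y hy y1 y2 y3 y4 => ?_)).1
    · simp only [mem_union, mem_Rsq] at ht ht'
      obtain ⟨c1, c2, c3⟩ := hy
      omega
    · refine bd_of (v := (y.1 - 1, y.2)) (fun hv => ?_) (by obtain ⟨c1, c2, c3, c4⟩ := hy; unfold Cor; dsimp only; omega)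
      simp only [mem_union, mem_Rsq] at hv
      obtain ⟨c1, c2, c3, c4⟩ := hy
      omega
    · refine bd_of (v := (y.1, y.2 - 1)) (fun hv => ?_) (by obtain ⟨c1, c2, c3, c4⟩ := hy; unfold Cor; dsimp only; omega)
      simp only [mem_union, mem_Rsq] at hv
      obtain ⟨c1, c2, c3, c4⟩ := hy
      omega
    · obtain ⟨c1, c2, c3, c4⟩ := hy
      exact ⟨by omega, by omega, by omega, c4⟩
    · obtain ⟨c1, c2, c3, c4⟩ := hy
      omega
  refine fin1_of hQ hQ1 v1 (G₁ := (Rsq (X - 2 * s) (X - s) (Y - 2 * s) (Y + 2 * s))) (G₂ := (Rsq (X + 4 * s) (X + 5 * s) (Y - 5 * s) (Y + 5 * s))) (fun t ht => ?_) (fun t ht => ?_)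
    (disjoint_left.2 fun t ht ht' => ?_) (fun y hy => ?_) (fun y hy => ?_) (fun x hx => ?_) (fun x hx => ?_) (fun t ht => ?_)
  · simp only [mem_union, mem_Rsq] at ht ⊢
    omega
  · simp only [mem_union, mem_Rsq] at ht ⊢
    omega
  · simp only [mem_Rsq] at ht ht'
    omega
  · refine bd_of (v := (y.1, y.2 - 1)) (fun hv => ?_) (by obtain ⟨c1, c2, c3, c4⟩ := hy; unfold Cor; dsimp only; omega)
    simp only [mem_union, mem_Rsq] at hv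
    obtain ⟨c1, c2, c3, c4⟩ := hy
    omega
  · refine bd_of (v := (y.1, y.2 - 1)) (fun hv => ?_) (by obtain ⟨c1, c2, c3, c4⟩ := hy; unfold Cor; dsimp only; omega)
    simp only [mem_union, mem_Rsq] at hv
    obtain ⟨c1, c2, c3, c4⟩ := hy
    omega
  · obtain ⟨x1, x2, x3, x4⟩ := wnd_B (by omega) (by omega) k1 hx
    refine ⟨fun t ht ht' htx => ?_, fun hxB => ?_⟩
    · simp only [mem_union, mem_Rsq] at ht ht'
      obtain ⟨c1, c2, c3⟩ := htx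
      omega
    · obtain ⟨c1, c2, c3, c4⟩ := hxB
      omega
  · obtain ⟨x1, x2, x3, x4⟩ := wnd_B (by omega) (by omega) k2 hx
    refine ⟨fun t ht ht' htx => ?_, fun hxB => ?_⟩
    · simp only [mem_union, mem_Rsq] at ht ht'
      obtain ⟨c1, c2, c3⟩ := htx
      omega
    · obtain ⟨c1, c2, c3, c4⟩ := hxB
      omega
  · simp only [mem_union, mem_Rsq] at ht
    rw [mem_Rg]
    dsimp only
    omega

theorem tb_LT (hQ : 0 < Q) (hQ1 : Q ≤ 1) {κ : ℝ} (h0 : 0 ≤ κ) (hV : VRc Q κ) {X Y s : ℤ} (hs : 1 ≤ s)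
    {K₁ K₂ : Finset Pt} (k1 : CrH e ↑K₁ (X - 2 * s) (X - s) (Y - 2 * s) (Y + 2 * s))
    (k2 : CrV e ↑K₂ (X - 5 * s) (X + 5 * s) (Y + 4 * s) (Y + 5 * s)) :
    Fin1 Q (κ * κ * κ * κ) e X Y s K₁ K₂ := by
  have v4 : κ ≤ VT Q e (Rsq (X - 6 * s) (X + 5 * s) (Y + 4 * s) (Y + 5 * s)) (Vs e (X - 6 * s) (Y + 4 * s) (Y + 5 * s)) (Vs e (X + 5 * s) (Y + 4 * s) (Y + 5 * s)) := (hV e (X - 6 * s) (X + 5 * s) (Y + 4 * s) (Y + 5 * s) (by omega) (by omega)).1 (by omega)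
  have v3 : κ * κ ≤ VT Q e ((Rsq (X - 6 * s) (X - 5 * s) (Y + 2 * s) (Y + 5 * s)) ∪ (Rsq (X - 6 * s) (X + 5 * s) (Y + 4 * s) (Y + 5 * s))) (Hs e (Y + 2 * s) (X - 6 * s) (X - 5 * s)) (Vs e (X + 5 * s) (Y + 4 * s) (Y + 5 * s)) := by
    refine (tVR (e := e) hQ hQ1 h0 v4 ((hV e (X - 6 * s) (X - 5 * s) (Y + 2 * s) (Y + 5 * s) (by omega) (by omega)).2 (by omega)) (by omega) (by omega)
      (fun t ht ht' y hy y1 y2 y3 y4 => ?_) (fun y hy => ?_) (fun y hy => ?_) (fun y hy => ?_) (fun y hy y1 y2 y3 y4 => ?_)).1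
    · simp only [mem_union, mem_Rsq] at ht ht'
      obtain ⟨c1, c2, c3⟩ := hy
      omega
    · refine bd_of (v := (y.1 - 1, y.2)) (fun hv => ?_) (by obtain ⟨c1, c2, c3, c4⟩ := hy; unfold Cor; dsimp only; omega)
      simp only [mem_union, mem_Rsq] at hv
      obtain ⟨c1, c2, c3, c4⟩ := hy
      omega
    · refine bd_of (v := (y.1, y.2)) (fun hv => ?_) (by obtain ⟨c1, c2, c3, c4⟩ := hy; unfold Cor; dsimp only; omega)
      simp only [mem_union, mem_Rsq] at hv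
      obtain ⟨c1, c2, c3, c4⟩ := hy
      omega
    · obtain ⟨c1, c2, c3, c4⟩ := hy
      exact ⟨by omega, by omega, by omega, c4⟩
    · obtain ⟨c1, c2, c3, c4⟩ := hy
      omega
  have v2 : κ * κ * κ ≤ VT Q e ((Rsq (X - 6 * s) (X - s) (Y + 2 * s) (Y + 3 * s)) ∪ ((Rsq (X - 6 * s) (X - 5 * s) (Y + 2 * s) (Y + 5 * s)) ∪ (Rsq (X - 6 * s) (X + 5 * s) (Y + 4 * s) (Y + 5 * s)))) (Vs e (X - s) (Y + 2 * s) (Y + 3 * s)) (Vs e (X + 5 * s) (Y + 4 * s) (Y + 5 * s)) := by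
    refine (tHT (e := e) hQ hQ1 h0 v3 ((hV e (X - 6 * s) (X - s) (Y + 2 * s) (Y + 3 * s) (by omega) (by omega)).1 (by omega)) (by omega) (by omega)
      (fun t ht ht' y hy y1 y2 y3 y4 => ?_) (fun y hy => ?_) (fun y hy => ?_) (fun y hy => ?_) (fun y hy y1 y2 y3 y4 => ?_)).2
    · simp only [mem_union, mem_Rsq] at ht ht'
      obtain ⟨c1, c2, c3⟩ := hy
      omega
    · refine bd_of (v := (y.1, y.2 - 1)) (fun hv => ?_) (by obtain ⟨c1, c2, c3, c4⟩ := hy; unfold Cor; dsimp only; omega)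
      simp only [mem_union, mem_Rsq] at hv
      obtain ⟨c1, c2, c3, c4⟩ := hy
      omega
    · refine bd_of (v := (y.1, y.2)) (fun hv => ?_) (by obtain ⟨c1, c2, c3, c4⟩ := hy; unfold Cor; dsimp only; omega)
      simp only [mem_union, mem_Rsq] at hv
      obtain ⟨c1, c2, c3, c4⟩ := hy
      omega
    · obtain ⟨c1, c2, c3, c4⟩ := hy
      exact ⟨by omega, by omega, by omega, c4⟩
    · obtain ⟨c1, c2, c3, c4⟩ := hy
      omega
  have v1 : κ * κ * κ * κ ≤ VT Q e ((Rsq (X - 2 * s) (X - s) (Y - 2 * s) (Y + 3 * s)) ∪ ((Rsq (X - 6 * s) (X - s) (Y + 2 * s) (Y + 3 * s)) ∪ ((Rsq (X - 6 * s) (X - 5 * s) (Y + 2 * s) (Y + 5 * s)) ∪ (Rsq (X - 6 * s) (X + 5 * s) (Y + 4 * s) (Y + 5 * s))))) (Hs e (Y - 2 * s) (X - 2 * s) (X - s)) (Vs e (X + 5 * s) (Y + 4 * s) (Y + 5 * s)) := by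
    refine (tVL (e := e) hQ hQ1 h0 v2 ((hV e (X - 2 * s) (X - s) (Y - 2 * s) (Y + 3 * s) (by omega) (by omega)).2 (by omega)) (by omega) (by omega)
      (fun t ht ht' y hy y1 y2 y3 y4 => ?_) (fun y hy => ?_) (fun y hy => ?_) (fun y hy => ?_) (fun y hy y1 y2 y3 y4 => ?_)).1
    · simp only [mem_union, mem_Rsq] at ht ht'
      obtain ⟨c1, c2, c3⟩ := hy
      omega
    · refine bd_of (v := (y.1, y.2)) (fun hv => ?_) (by obtain ⟨c1, c2, c3, c4⟩ := hy; unfold Cor; dsimp only; omega)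
      simp only [mem_union, mem_Rsq] at hv
      obtain ⟨c1, c2, c3, c4⟩ := hy
      omega
    · refine bd_of (v := (y.1, y.2)) (fun hv => ?_) (by obtain ⟨c1, c2, c3, c4⟩ := hy; unfold Cor; dsimp only; omega)
      simp only [mem_union, mem_Rsq] at hv
      obtain ⟨c1, c2, c3, c4⟩ := hy
      omega
    · obtain ⟨c1, c2, c3, c4⟩ := hy
      exact ⟨by omega, by omega, by omega, c4⟩
    · obtain ⟨c1, c2, c3, c4⟩ := hy
      omega
  refine fin1_of hQ hQ1 v1 (G₁ := (Rsq (X - 2 * s) (X - s) (Y - 2 * s) (Y + 2 * s))) (G₂ := (Rsq (X - 5 * s) (X + 5 * s) (Y + 4 * s) (Y + 5 * s))) (fun t ht => ?_) (fun t ht => ?_)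
    (disjoint_left.2 fun t ht ht' => ?_) (fun y hy => ?_) (fun y hy => ?_) (fun x hx => ?_) (fun x hx => ?_) (fun t ht => ?_)
  · simp only [mem_union, mem_Rsq] at ht ⊢
    omega
  · simp only [mem_union, mem_Rsq] at ht ⊢
    omega
  · simp only [mem_Rsq] at ht ht'
    omega
  · refine bd_of (v := (y.1, y.2 - 1)) (fun hv => ?_) (by obtain ⟨c1, c2, c3, c4⟩ := hy; unfold Cor; dsimp only; omega)
    simp only [mem_union, mem_Rsq] at hv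
    obtain ⟨c1, c2, c3, c4⟩ := hy
    omega
  · refine bd_of (v := (y.1, y.2)) (fun hv => ?_) (by obtain ⟨c1, c2, c3, c4⟩ := hy; unfold Cor; dsimp only; omega)
    simp only [mem_union, mem_Rsq] at hv
    obtain ⟨c1, c2, c3, c4⟩ := hy
    omega
  · obtain ⟨x1, x2, x3, x4⟩ := wnd_B (by omega) (by omega) k1 hx
    refine ⟨fun t ht ht' htx => ?_, fun hxB => ?_⟩
    · simp only [mem_union, mem_Rsq] at ht ht'
      obtain ⟨c1, c2, c3⟩ := htx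
      omega
    · obtain ⟨c1, c2, c3, c4⟩ := hxB
      omega
  · obtain ⟨x1, x2, x3, x4⟩ := wnd_R (by omega) (by omega) k2 hx
    refine ⟨fun t ht ht' htx => ?_, fun hxB => ?_⟩
    · simp only [mem_union, mem_Rsq] at ht ht'
      obtain ⟨c1, c2, c3⟩ := htx
      omega
    · obtain ⟨c1, c2, c3, c4⟩ := hxB
      omega
  · simp only [mem_union, mem_Rsq] at ht
    rw [mem_Rg]
    dsimp only
    omega

theorem tb_LB (hQ : 0 < Q) (hQ1 : Q ≤ 1) {κ : ℝ} (h0 : 0 ≤ κ) (hV : VRc Q κ) {X Y s : ℤ} (hs : 1 ≤ s)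
    {K₁ K₂ : Finset Pt} (k1 : CrH e ↑K₁ (X - 2 * s) (X - s) (Y - 2 * s) (Y + 2 * s))
    (k2 : CrV e ↑K₂ (X - 5 * s) (X + 5 * s) (Y - 5 * s) (Y - 4 * s)) :
    Fin1 Q (κ * κ * κ * κ) e X Y s K₁ K₂ := by
  have v4 : κ ≤ VT Q e (Rsq (X - 6 * s) (X + 5 * s) (Y - 5 * s) (Y - 4 * s)) (Vs e (X - 6 * s) (Y - 5 * s) (Y - 4 * s)) (Vs e (X + 5 * s) (Y - 5 * s) (Y - 4 * s)) := (hV e (X - 6 * s) (X + 5 * s) (Y - 5 * s) (Y - 4 * s) (by omega) (by omega)).1 (by omega)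
  have v3 : κ * κ ≤ VT Q e ((Rsq (X - 6 * s) (X - 5 * s) (Y - 5 * s) (Y - 2 * s)) ∪ (Rsq (X - 6 * s) (X + 5 * s) (Y - 5 * s) (Y - 4 * s))) (Hs e (Y - 2 * s) (X - 6 * s) (X - 5 * s)) (Vs e (X + 5 * s) (Y - 5 * s) (Y - 4 * s)) := by
    refine (tVR (e := e) hQ hQ1 h0 v4 ((hV e (X - 6 * s) (X - 5 * s) (Y - 5 * s) (Y - 2 * s) (by omega) (by omega)).2 (by omega)) (by omega) (by omega)
      (fun t ht ht' y hy y1 y2 y3 y4 => ?_) (fun y hy => ?_) (fun y hy => ?_) (fun y hy => ?_) (fun y hy y1 y2 y3 y4 => ?_)).2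
    · simp only [mem_union, mem_Rsq] at ht ht'
      obtain ⟨c1, c2, c3⟩ := hy
      omega
    · refine bd_of (v := (y.1 - 1, y.2)) (fun hv => ?_) (by obtain ⟨c1, c2, c3, c4⟩ := hy; unfold Cor; dsimp only; omega)
      simp only [mem_union, mem_Rsq] at hv
      obtain ⟨c1, c2, c3, c4⟩ := hy
      omega
    · refine bd_of (v := (y.1, y.2)) (fun hv => ?_) (by obtain ⟨c1, c2, c3, c4⟩ := hy; unfold Cor; dsimp only; omega)
      simp only [mem_union, mem_Rsq] at hv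
      obtain ⟨c1, c2, c3, c4⟩ := hy
      omega
    · obtain ⟨c1, c2, c3, c4⟩ := hy
      exact ⟨by omega, by omega, by omega, c4⟩
    · obtain ⟨c1, c2, c3, c4⟩ := hy
      omega
  have v2 : κ * κ * κ ≤ VT Q e ((Rsq (X - 6 * s) (X - s) (Y - 3 * s) (Y - 2 * s)) ∪ ((Rsq (X - 6 * s) (X - 5 * s) (Y - 5 * s) (Y - 2 * s)) ∪ (Rsq (X - 6 * s) (X + 5 * s) (Y - 5 * s) (Y - 4 * s)))) (Vs e (X - s) (Y - 3 * s) (Y - 2 * s)) (Vs e (X + 5 * s) (Y - 5 * s) (Y - 4 * s)) := by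
    refine (tHB (e := e) hQ hQ1 h0 v3 ((hV e (X - 6 * s) (X - s) (Y - 3 * s) (Y - 2 * s) (by omega) (by omega)).1 (by omega)) (by omega) (by omega)
      (fun t ht ht' y hy y1 y2 y3 y4 => ?_) (fun y hy => ?_) (fun y hy => ?_) (fun y hy => ?_) (fun y hy y1 y2 y3 y4 => ?_)).2
    · simp only [mem_union, mem_Rsq] at ht ht'
      obtain ⟨c1, c2, c3⟩ := hy
      omega
    · refine bd_of (v := (y.1, y.2)) (fun hv => ?_) (by obtain ⟨c1, c2, c3, c4⟩ := hy; unfold Cor; dsimp only; omega)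
      simp only [mem_union, mem_Rsq] at hv
      obtain ⟨c1, c2, c3, c4⟩ := hy
      omega
    · refine bd_of (v := (y.1, y.2)) (fun hv => ?_) (by obtain ⟨c1, c2, c3, c4⟩ := hy; unfold Cor; dsimp only; omega)
      simp only [mem_union, mem_Rsq] at hv
      obtain ⟨c1, c2, c3, c4⟩ := hy
      omega
    · obtain ⟨c1, c2, c3, c4⟩ := hy
      exact ⟨by omega, by omega, by omega, c4⟩
    · obtain ⟨c1, c2, c3, c4⟩ := hy
      omega
  have v1 : κ * κ * κ * κ ≤ VT Q e ((Rsq (X - 2 * s) (X - s) (Y - 3 * s) (Y + 2 * s)) ∪ ((Rsq (X - 6 * s) (X - s) (Y - 3 * s) (Y - 2 * s)) ∪ ((Rsq (X - 6 * s) (X - 5 * s) (Y - 5 * s) (Y - 2 * s)) ∪ (Rsq (X - 6 * s) (X + 5 * s) (Y - 5 * s) (Y - 4 * s))))) (Hs e (Y + 2 * s) (X - 2 * s) (X - s)) (Vs e (X + 5 * s) (Y - 5 * s) (Y - 4 * s)) := by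
    refine (tVL (e := e) hQ hQ1 h0 v2 ((hV e (X - 2 * s) (X - s) (Y - 3 * s) (Y + 2 * s) (by omega) (by omega)).2 (by omega)) (by omega) (by omega)
      (fun t ht ht' y hy y1 y2 y3 y4 => ?_) (fun y hy => ?_) (fun y hy => ?_) (fun y hy => ?_) (fun y hy y1 y2 y3 y4 => ?_)).2
    · simp only [mem_union, mem_Rsq] at ht ht'
      obtain ⟨c1, c2, c3⟩ := hy
      omega
    · refine bd_of (v := (y.1, y.2)) (fun hv => ?_) (by obtain ⟨c1, c2, c3, c4⟩ := hy; unfold Cor; dsimp only; omega)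
      simp only [mem_union, mem_Rsq] at hv
      obtain ⟨c1, c2, c3, c4⟩ := hy
      omega
    · refine bd_of (v := (y.1, y.2)) (fun hv => ?_) (by obtain ⟨c1, c2, c3, c4⟩ := hy; unfold Cor; dsimp only; omega)
      simp only [mem_union, mem_Rsq] at hv
      obtain ⟨c1, c2, c3, c4⟩ := hy
      omega
    · obtain ⟨c1, c2, c3, c4⟩ := hy
      exact ⟨by omega, by omega, by omega, c4⟩
    · obtain ⟨c1, c2, c3, c4⟩ := hy
      omega
  refine fin1_of hQ hQ1 v1 (G₁ := (Rsq (X - 2 * s) (X - s) (Y - 2 * s) (Y + 2 * s))) (G₂ := (Rsq (X - 5 * s) (X + 5 * s) (Y - 5 * s) (Y - 4 * s))) (fun t ht => ?_) (fun t ht => ?_)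
    (disjoint_left.2 fun t ht ht' => ?_) (fun y hy => ?_) (fun y hy => ?_) (fun x hx => ?_) (fun x hx => ?_) (fun t ht => ?_)
  · simp only [mem_union, mem_Rsq] at ht ⊢
    omega
  · simp only [mem_union, mem_Rsq] at ht ⊢
    omega
  · simp only [mem_Rsq] at ht ht'
    omega
  · refine bd_of (v := (y.1, y.2)) (fun hv => ?_) (by obtain ⟨c1, c2, c3, c4⟩ := hy; unfold Cor; dsimp only; omega)
    simp only [mem_union, mem_Rsq] at hv
    obtain ⟨c1, c2, c3, c4⟩ := hy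
    omega
  · refine bd_of (v := (y.1, y.2)) (fun hv => ?_) (by obtain ⟨c1, c2, c3, c4⟩ := hy; unfold Cor; dsimp only; omega)
    simp only [mem_union, mem_Rsq] at hv
    obtain ⟨c1, c2, c3, c4⟩ := hy
    omega
  · obtain ⟨x1, x2, x3, x4⟩ := wnd_T (by omega) (by omega) k1 hx
    refine ⟨fun t ht ht' htx => ?_, fun hxB => ?_⟩
    · simp only [mem_union, mem_Rsq] at ht ht'
      obtain ⟨c1, c2, c3⟩ := htx
      omega
    · obtain ⟨c1, c2, c3, c4⟩ := hxB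
      omega
  · obtain ⟨x1, x2, x3, x4⟩ := wnd_R (by omega) (by omega) k2 hx
    refine ⟨fun t ht ht' htx => ?_, fun hxB => ?_⟩
    · simp only [mem_union, mem_Rsq] at ht ht'
      obtain ⟨c1, c2, c3⟩ := htx
      omega
    · obtain ⟨c1, c2, c3, c4⟩ := hxB
      omega
  · simp only [mem_union, mem_Rsq] at ht
    rw [mem_Rg]
    dsimp only
    omega

end Vale.Agent.P167.H366.Clip
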