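import Vale.Agent.P167.H366.TA2

/-!
# P167, `q < 1`: the box lemma

`ta`: two sets of squares which cross a ring are joined by squares of the ring with a probability
which is bounded below, for every configuration outside.
-/

set_option autoImplicit false
set_option linter.unusedSectionVars false

namespace Vale.Agent.P167.H366

open Finset Vale.Agent.P167 Vale.Agent.P167.FK Vale.Agent.P167.H816 Vale.Agent.P167.H262
  Vale.Agent.P167.H632 Vale.Agent.P167.H871 Vale.Agent.P167.H192.TA Vale.Agent.P167.N.NET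
open Vale.Agent.P145.FB (PStep PConn)
open Vale.Agent.P153.Topo (Rect mem_rect)
open Relation (ReflTransGen)
open Vale.Agent.P167.H704 (cut2 row_inc col_inc)
open Vale.Agent.P167.H366.Clip

variable {Q : ℝ} {D T : Finset Pt} {η : Cfg} {e : Bool}

/-- The distance to the centre. -/
def lv (X Y : ℤ) (w : Pt) : ℤ := max (max (w.1 - X) (X - w.1)) (max (w.2 - Y) (Y - w.2))

theorem lv_inc {X Y : ℤ} {G : Set Pt} : ∀ u v : Pt, PStep G u v → lv X Y v ≤ lv X Y u + 1 :=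
  fun u v h => by
    obtain ⟨h1, h2, -⟩ := h
    unfold lv
    omega

/-- **A path which crosses a ring crosses one of the four rectangles of the ring the short way.** -/
theorem ring_win {K : Set Pt} {X Y s r R : ℤ} (hr : s ≤ r) (hrR : r < R) (hR : R ≤ 6 * s)
    (h : Wl e K (X, Y) s) :
    CrV e K (X - R) (X + R) (Y + r) (Y + R) ∨ CrV e K (X - R) (X + R) (Y - R) (Y - r) ∨
      CrH e K (X + r) (X + R) (Y - R) (Y + R) ∨ CrH e K (X - R) (X - r) (Y - R) (Y + R) := by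
  obtain ⟨u, v, hp, ⟨u1, u2, u3, u4⟩, hv, hK⟩ := h
  dsimp only at u1 u2 u3 u4 hv
  have hK' : PConn K Set.univ u v := by
    refine ⟨Set.mem_univ _, ?_⟩
    exact ReflTransGen.mono (fun a b hab => ⟨hab, Set.mem_univ _⟩) _ _ hK
  obtain ⟨z', h1, h2, -⟩ := pconn_cut_first (lv X Y) lv_inc hK' (R := R)
    (by unfold lv; omega) (by unfold lv; omega)
  have hz : z'.2 = Y + R ∨ z'.2 = Y - R ∨ z'.1 = X + R ∨ z'.1 = X - R := by
    unfold lv at h1
    omega
  have key : ∀ w : Pt, w ∈ Set.univ ∩ {w | lv X Y w ≤ R} →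
      X - R ≤ w.1 ∧ w.1 ≤ X + R ∧ Y - R ≤ w.2 ∧ w.2 ≤ Y + R := by
    rintro w ⟨-, hw⟩
    simp only [Set.mem_ofPred_eq, lv] at hw
    omega
  rcases hz with hz | hz | hz | hz
  · obtain ⟨p, p', a1, a2, a3, a4, -⟩ := cut2 (fun w => w.2) row_inc (r := Y + r) (R := Y + R)
      (by omega) h2 (by omega) (by omega)
    refine Or.inl ⟨p, p', a1, a2, by rw [← a3.parity]; exact hp, a4.mono subset_rfl ?_⟩
    rintro w ⟨hw, hw1, hw2⟩
    have := key w hw
    rw [mem_rect]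
    omega
  · obtain ⟨p, p', a1, a2, a3, a4, -⟩ := cut2 (G := K) (fun w => -w.2)
      (fun u v h => by have := h.2.1; omega) (r := -Y + r) (R := -Y + R)
      (by omega) h2 (by omega) (by omega)
    refine Or.inr (Or.inl ⟨p', p, by omega, by omega,
      by rw [← a4.parity, ← a3.parity]; exact hp, a4.symm.mono subset_rfl ?_⟩)
    rintro w ⟨hw, hw1, hw2⟩
    have := key w hw
    rw [mem_rect]
    omega
  · obtain ⟨p, p', a1, a2, a3, a4, -⟩ := cut2 (fun w => w.1) col_inc (r := X + r) (R := X + R)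
      (by omega) h2 (by omega) (by omega)
    refine Or.inr (Or.inr (Or.inl ⟨p, p', a1, a2, by rw [← a3.parity]; exact hp,
      a4.mono subset_rfl ?_⟩))
    rintro w ⟨hw, hw1, hw2⟩
    have := key w hw
    rw [mem_rect]
    omega
  · obtain ⟨p, p', a1, a2, a3, a4, -⟩ := cut2 (G := K) (fun w => -w.1)
      (fun u v h => by have := h.1; omega) (r := -X + r) (R := -X + R)
      (by omega) h2 (by omega) (by omega)
    refine Or.inr (Or.inr (Or.inr ⟨p', p, by omega, by omega,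
      by rw [← a4.parity, ← a3.parity]; exact hp, a4.symm.mono subset_rfl ?_⟩))
    rintro w ⟨hw, hw1, hw2⟩
    have := key w hw
    rw [mem_rect]
    omega

/-- **The box lemma.** -/
theorem ta (hQ : 0 < Q) (hQ1 : Q ≤ 1) (hV : VRS Q) : TA Q := by
  obtain ⟨κ, hκ, hκ1, hV⟩ := hV 11
  have hc : VRc Q κ := by
    intro e a b c d hab hcd
    have h := hV e a b c d hab hcd
    push_cast at h
    exact h
  refine ⟨κ * κ * κ * κ, by positivity, ?_, ?_⟩
  · have h3 : κ * κ * κ ≤ 1 := by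
      have := pow_le_one₀ hκ.le hκ1 (n := 3)
      nlinarith
    nlinarith [mul_nonneg (mul_nonneg hκ.le hκ.le) hκ.le]
  rintro e ⟨X, Y⟩ s hs K₁ K₂ D η hη w1 w2 hD
  have hle : κ * κ * κ * κ ≤ κ * κ * κ := by
    nlinarith [mul_pos (mul_pos hκ hκ) hκ]
  have h4 : ∀ {K₁ K₂ : Finset Pt}, Fin1 Q (κ * κ * κ) e X Y s K₁ K₂ →
      Fin1 Q (κ * κ * κ * κ) e X Y s K₁ K₂ := fun h D η hη hD => hle.trans (h D η hη hD)
  have k1 := ring_win (r := s) (R := 2 * s) le_rfl (by omega) (by omega) w1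
  have k2 := ring_win (r := 4 * s) (R := 5 * s) (by omega) (by omega) (by omega) w2
  suffices h : Fin1 Q (κ * κ * κ * κ) e X Y s K₁ K₂ from h D η hη hD
  rcases k1 with k1 | k1 | k1 | k1 <;> rcases k2 with k2 | k2 | k2 | k2
  · exact h4 (tb_TT hQ hQ1 hκ.le hc hs k1 k2)
  · exact h4 (tb_TB hQ hQ1 hκ.le hc hs k1 k2)
  · exact tb_TR hQ hQ1 hκ.le hc hs k1 k2
  · exact tb_TL hQ hQ1 hκ.le hc hs k1 k2
  · exact h4 (tb_BT hQ hQ1 hκ.le hc hs k1 k2)
  · exact h4 (tb_BB hQ hQ1 hκ.le hc hs k1 k2)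
  · exact tb_BR hQ hQ1 hκ.le hc hs k1 k2
  · exact tb_BL hQ hQ1 hκ.le hc hs k1 k2
  · exact tb_RT hQ hQ1 hκ.le hc hs k1 k2
  · exact tb_RB hQ hQ1 hκ.le hc hs k1 k2
  · exact h4 (tb_RR hQ hQ1 hκ.le hc hs k1 k2)
  · exact h4 (tb_RL hQ hQ1 hκ.le hc hs k1 k2)
  · exact tb_LT hQ hQ1 hκ.le hc hs k1 k2
  · exact tb_LB hQ hQ1 hκ.le hc hs k1 k2
  · exact h4 (tb_LR hQ hQ1 hκ.le hc hs k1 k2)
  · exact h4 (tb_LL hQ hQ1 hκ.le hc hs k1 k2)

end Vale.Agent.P167.H366
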