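import Vale.Agent.P167.H366.Arch

/-!
# P167, v-RSW: tubes, and the assembly
-/

set_option autoImplicit false
set_option linter.unusedSectionVars false

namespace Vale.Agent.P167.H366

open Finset Vale.Agent.P167.H623 Vale.Agent.P167.H92 Vale.Agent.P167.H816 Vale.Agent.P167.FK
open Vale.Agent.P167.H262 (Rsq mem_Rsq)

variable {Q : ℝ} {S : Finset (ℤ × ℤ)} {A A' B B' : Set (ℤ × ℤ)} {a b c d n : ℤ}

theorem mem_EvS_of_conf {s t : ℤ × ℤ} (h : conf pa pb S s t) (hne : s ≠ t) : t ∈ EvS S := by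
  by_contra hn
  exact hne (conf_eq_of_notMem (fun e he => ⟨fun h => hn ⟨e, he, Or.inl h⟩,
    fun h => hn ⟨e, he, Or.inr h⟩⟩) (Setoid.symm' _ h)).symm

/-- The even sites of the left side. -/
def LI (n a : ℤ) : Set (ℤ × ℤ) := {p | p.1 = a ∧ 0 ≤ p.2 ∧ p.2 ≤ n ∧ Even (p.1 + p.2)}

theorem mem_LI {p : ℤ × ℤ} : p ∈ LI n a ↔ p.1 = a ∧ 0 ≤ p.2 ∧ p.2 ≤ n ∧ Even (p.1 + p.2) :=
  Iff.rfl

theorem mem_RI {p : ℤ × ℤ} : p ∈ RI n b ↔ p.1 = b ∧ 0 ≤ p.2 ∧ p.2 ≤ n ∧ Even (p.1 + p.2) :=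
  Iff.rfl

theorem LI_Yo : LI n a ⊆ Yo a b 0 n := fun _ h => Or.inl h.1.le

theorem RI_Yo : RI n b ⊆ Yo a b 0 n := fun _ h => Or.inr (Or.inl h.1.ge)

theorem M_sides (hQ : 0 < Q) (hab : a < b) :
    M Q a b 0 n (Lf a) (Rg b) ≤ M Q a b 0 n (LI n a) (RI n b) := by
  refine mu_mono hQ fun S hS => ?_
  rintro ⟨s, hs, t, ht, h⟩
  have hne : s ≠ t := by
    rintro rfl
    have := hs.2
    have := ht.2
    omega
  have h1 := EvS_box (EvS_mono hS (mem_EvS_of_conf h hne))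
  have h2 := EvS_box (EvS_mono hS (mem_EvS_of_conf (Setoid.symm' _ h) hne.symm))
  have := hs.2
  have := ht.2
  exact ⟨s, ⟨by omega, by omega, by omega, hs.1⟩, t, ⟨by omega, by omega, by omega, ht.1⟩, h⟩

/-- From the strip to a tube. -/
theorem tube_split (hQ : 0 < Q) (hQ1 : Q ≤ 1) {k s w : ℤ} (hk : s = 2 * k) {x : ℝ}
    (g : G Q n x (TI n 0 s) (TI 0 (-2 * s) (3 * s))) :
    x ≤ M Q (k - w) (k + w) 0 n (TI n 0 s) (TI 0 (-2 * s) (3 * s)) +
      2 * M Q (k - w) (k + w) 0 n (TI n 0 s) (Rg (k + w)) := by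
  obtain ⟨L, hL, h⟩ := g.box hQ hQ1 TI_top
  obtain ⟨a, ha1, ha2⟩ : ∃ a : ℤ, a ≤ -L ∧ a ≤ k - w := ⟨min (-L) (k - w), by omega, by omega⟩
  obtain ⟨b, hb1, hb2⟩ : ∃ b : ℤ, L ≤ b ∧ k + w ≤ b := ⟨max L (k + w), by omega, by omega⟩
  have h1 := (h a b ha1 hb1).trans (M_tube hQ hQ1 ha2 hb2 (TI_top.trans Ho_Yo)
    (TI_bot.trans Ho_Yo))
  have h2 := h1.trans (M_union_le hQ)
  have h3 : M Q (k - w) (k + w) 0 n (TI n 0 s) (Lf (k - w) ∪ Rg (k + w)) ≤ _ := M_union_le hQ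
  have h4 : M Q (k - w) (k + w) 0 n (TI n 0 s) (Lf (k - w)) =
      M Q (k - w) (k + w) 0 n (TI n 0 s) (Rg (k + w)) := by
    have hr : Even (2 * k) := even_two_mul k
    refine M_map hQ (rx (2 * k - 1)) (rx (2 * k)) (fun e => rx_ends hr e) (fun e => ?_)
      (fun x => ?_) (fun x => ?_) fun x => ?_
    · rw [mem_Rsq, mem_Rsq, rx_apply]; simp only; omega
    · simp only [Yo, Set.mem_ofPred_eq, rx_apply]; omega
    · rw [mem_TI, mem_TI, Int.even_iff, Int.even_iff, rx_apply]; simp only; omega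
    · simp only [Lf, Rg, Set.mem_ofPred_eq, rx_apply, Int.even_iff]; omega
  linarith

/-- **The mirror step** in the strip. -/
theorem mirror_strip (hTR : QuadTR) (hQ : 0 < Q) (hQ1 : Q ≤ 1) (hn : 1 ≤ n) (hne : Even n)
    {k s : ℤ} (hk : s = 2 * k) (h0 : 4 ≤ s) {x y : ℝ} (hx : 0 ≤ x)
    (g : G Q n x (TI n 0 s) (TI 0 (-2 * s) (3 * s)))
    (h : y ≤ M Q (k - 5 * s) (k + 5 * s) 0 n (TI n 0 s) (Rg (k + 5 * s))) :
    G Q n (y * x / 2) (TI n 0 s) (TI 0 (3 * s) (8 * s)) := by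
  have hse : Even s := by rw [hk]; exact even_two_mul k
  have hs5 : Even (5 * s) := Even.mul_left hse 5
  have g' := g.shift hQ hs5
  rw [show 0 + 5 * s = 5 * s by ring, show s + 5 * s = 6 * s by ring,
    show -2 * s + 5 * s = 3 * s by ring, show 3 * s + 5 * s = 8 * s by ring] at g'
  obtain ⟨L₀, hL₀, h1⟩ := g'.box hQ hQ1 TI_top
  set x₁ := k + 5 * s with hx₁
  obtain ⟨Λ, hΛ1, hΛ2⟩ : ∃ Λ : ℤ, L₀ + x₁ + 1 ≤ Λ ∧ 10 * s + 1 ≤ Λ :=
    ⟨max (L₀ + x₁ + 1) (10 * s + 1), le_max_left _ _, le_max_right _ _⟩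
  set a := x₁ - Λ with ha
  set b := x₁ + Λ with hb
  have h2 := h1 a b (by omega) (by omega)
  have hs' := Int.even_iff.1 hse
  have hn' := Int.even_iff.1 hne
  have hq := hTR a x₁ n 0 s hn (by rwa [zero_add]) (hse.add hne) (by omega) (by omega) (by omega)
  have hr : Even (2 * x₁) := even_two_mul x₁
  have hi : Inv (rx (2 * x₁ - 1)) (rx (2 * x₁)) := by
    refine ⟨fun e => ?_, fun x => ?_, fun e => rx_ends hr e⟩
    · rw [rx_apply, rx_apply]
      ext <;> simp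
    · rw [rx_apply, rx_apply]
      ext <;> simp
  have h3 := mirror (Q := Q) (Y := Yo a b 0 n) (I' := TI n (5 * s) (6 * s))
    (J' := TI 0 (3 * s) (8 * s)) (D := Rsq a b 0 n) (L := Rsq a x₁ 0 n) (R := Rsq x₁ b 0 n)
    hQ hQ1 hi
    (by
      ext e
      rw [mem_union, mem_Rsq, mem_Rsq, mem_Rsq]
      omega)
    (by
      rw [disjoint_left]
      intro e he he'
      rw [mem_Rsq] at he he'
      omega)
    (fun e => by
      rw [mem_Rsq, mem_Rsq, rx_apply]
      simp only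
      omega)
    hq (fan_box a x₁ 0 n)
    (fun x hx => by
      simp only [Yo, Set.mem_ofPred_eq, rx_apply] at *
      omega)
    (TI_top.trans Ho_Yo) (TI_bot.trans Ho_Yo)
    (fun x hx => by
      rw [mem_TI, Int.even_iff] at *
      rw [rx_apply]
      simp only
      omega)
    (fun x hx => by
      rw [mem_TI, Int.even_iff] at *
      rw [rx_apply]
      simp only
      omega)
    (fun s hs hs' => by
      have h4 := EvS_box hs
      have h5 := EvS_box hs'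
      rw [rx_apply]
      ext
      · simp only
        omega
      · rfl)
    (fun s hs => by
      rw [mem_TI] at hs
      refine ⟨mem_EvS_box hs.2.2.2 (by omega) (by omega) (by omega) (by omega) (by omega)
        (by omega), fun e he hse => OB_row hse he (by omega) (by omega) fun g h5 h6 h7 h8 => ?_⟩
      omega)
    (fun s hs e he hse => by
      rw [mem_TI] at hs
      refine OB_row hse he (by omega) (by omega) fun g h5 h6 h7 h8 => ?_
      omega)
  refine ⟨a, b, ?_⟩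
  have h4 : y ≤ mu Q (Rsq a b 0 n) (wir (Yo a b 0 n))
      (fun S => J (S ∩ Rsq a x₁ 0 n) (TI n 0 s) (RI n x₁)) := by
    refine h.trans ((M_inner (a := a) (b := b) (c := 0) (d := n) hQ hQ1 (by omega) (by omega)
      le_rfl le_rfl (TI_top.trans Ho_Yo)).trans (mu_mono hQ fun S hS => ?_))
    rintro ⟨u, hu, v, hv, h4⟩
    rw [mem_TI] at hu
    have hv2 := hv.2
    have hne : u ≠ v := by
      rintro rfl
      omega
    have h5 := EvS_box (EvS_mono inter_subset_right (mem_EvS_of_conf h4 hne))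
    refine ⟨u, mem_TI.2 hu, v, ⟨by omega, by omega, by omega, hv.1⟩, conf_mono'' ?_ h4⟩
    intro e he
    rw [mem_inter, mem_Rsq] at he ⊢
    exact ⟨he.1, by omega⟩
  have h5 : y * x ≤ mu Q (Rsq a b 0 n) (wir (Yo a b 0 n))
      (fun S => J (S ∩ Rsq a x₁ 0 n) (TI n 0 s) (RI n x₁)) *
      m Q (Rsq a b 0 n) (Yo a b 0 n) (TI n (5 * s) (6 * s)) (TI 0 (3 * s) (8 * s)) :=
    mul_le_mul h4 h2 hx (mu_nonneg hQ _)
  have h6 := h5.trans h3
  rw [div_le_iff₀ two_pos, mul_comm (M _ _ _ _ _ _ _)]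
  exact h6

/-- Arches of length at least `3 s`. -/
def Arch (Q : ℝ) (n s : ℤ) (x : ℝ) : Prop :=
  ∃ α : ℤ, Even α ∧ 3 * s ≤ α ∧ G Q n x (TI n 0 s) (TI n α (α + s))

theorem mirror_arch (hTB : QuadTB) (hTR : QuadTR) (hQ : 0 < Q) (hQ1 : Q ≤ 1) (hn : 1 ≤ n)
    (hne : Even n) {k s : ℤ} (hk : s = 2 * k) (h0 : 4 ≤ s) {x y : ℝ} (hx : 0 ≤ x) (hy : 0 ≤ y)
    (g : G Q n x (TI n 0 s) (TI 0 (-2 * s) (3 * s)))
    (h : y ≤ M Q (k - 5 * s) (k + 5 * s) 0 n (TI n 0 s) (Rg (k + 5 * s))) :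
    Arch Q n s ((y * x / 10) * (y * x / 10)) := by
  have hse : Even s := by rw [hk]; exact even_two_mul k
  obtain ⟨a, b, h1⟩ := mirror_strip hTR hQ hQ1 hn hne hk h0 hx g h
  have h2 : TI 0 (3 * s) (8 * s) ⊆
      ⋃ i ∈ range 5, TI 0 ((3 + (i : ℤ)) * s) ((3 + (i : ℤ)) * s + s) := by
    intro p hp
    rw [mem_TI] at hp
    simp only [Set.mem_iUnion, mem_range, mem_TI, exists_prop]
    obtain ⟨i, hi, h3, h4⟩ : ∃ i : ℕ, i < 5 ∧ (3 + (i : ℤ)) * s ≤ p.1 ∧
        p.1 ≤ (3 + (i : ℤ)) * s + s := by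
      by_cases h3 : p.1 ≤ 4 * s
      · exact ⟨0, by norm_num, by push_cast; linarith, by push_cast; linarith⟩
      by_cases h4 : p.1 ≤ 5 * s
      · exact ⟨1, by norm_num, by push_cast; linarith, by push_cast; linarith⟩
      by_cases h5 : p.1 ≤ 6 * s
      · exact ⟨2, by norm_num, by push_cast; linarith, by push_cast; linarith⟩
      by_cases h6 : p.1 ≤ 7 * s
      · exact ⟨3, by norm_num, by push_cast; linarith, by push_cast; linarith⟩
      · exact ⟨4, by norm_num, by push_cast; linarith, by push_cast; linarith⟩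
    exact ⟨i, hi, hp.1, h3, h4, hp.2.2.2⟩
  obtain ⟨i, hi, h3⟩ := M_pigeon hQ (I := range 5) (by simp) _
    (h1.trans (M_mono_sets hQ (Set.Subset.refl _) h2))
  rw [card_range] at h3
  have h4 : y * x / 10 ≤ _ := le_trans (le_of_eq (by push_cast; ring)) h3
  have he : Even ((3 + (i : ℤ)) * s) := Even.mul_left hse _
  have h5 : 3 * s ≤ (3 + (i : ℤ)) * s := by
    have : (0 : ℤ) ≤ i * s := mul_nonneg (Nat.cast_nonneg i) (by omega)
    linarith
  refine ⟨(3 + (i : ℤ)) * s, he, h5, G.arch hTB hQ hQ1 hn hne hse he (by omega) (by omega)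
    (by positivity) ⟨a, b, h4⟩⟩

/-- Crossings of a tube. -/
theorem tube_arch (hTB : QuadTB) (hQ : 0 < Q) (hQ1 : Q ≤ 1) {k s : ℤ} (hn : n = 20 * s)
    (hk : s = 2 * k) (h0 : 4 ≤ s) {y : ℝ} (hy : 0 ≤ y)
    (h : y ≤ M Q (k - 5 * s) (k + 5 * s) 0 n (TI n 0 s) (TI 0 (-2 * s) (3 * s))) :
    Arch Q n s (y * (y * y)) := by
  have hse : Even s := by rw [hk]; exact even_two_mul k
  have hne : Even n := by rw [hn]; exact Even.mul_left hse 20
  have hs' := Int.even_iff.1 hse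
  have hn' := Int.even_iff.1 hne
  have hs10 : Even (10 * s) := Even.mul_left hse 10
  have hs11 : Even (11 * s) := Even.mul_left hse 11
  have hs8 : Even (8 * s) := Even.mul_left hse 8
  have hs13 : Even (13 * s) := Even.mul_left hse 13
  have hsm2 : Even (-2 * s) := Even.mul_left hse _
  have hs3 : Even (3 * s) := Even.mul_left hse 3
  refine ⟨10 * s, hs10, by omega, k - 5 * s, k + 15 * s, ?_⟩
  rw [show 10 * s + s = 11 * s by ring]
  set a := k - 5 * s with ha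
  set b := k + 15 * s with hb
  -- the left tube
  have v0 : y ≤ M Q a b 0 n (TI n 0 s) (TI 0 (-2 * s) (3 * s)) :=
    h.trans (M_mono hQ hQ1 le_rfl (by omega) le_rfl le_rfl (TI_top.trans Ho_Yo))
  -- the right tube
  have v1 : y ≤ M Q a b 0 n (TI n (10 * s) (11 * s)) (TI 0 (8 * s) (13 * s)) := by
    have e : M Q (k + 5 * s) b 0 n (TI n (10 * s) (11 * s)) (TI 0 (8 * s) (13 * s)) =
        M Q (k - 5 * s) (k + 5 * s) 0 n (TI n 0 s) (TI 0 (-2 * s) (3 * s)) := by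
      have h1 : Even ((10 * s, (0 : ℤ)).1 + (10 * s, (0 : ℤ)).2) := by simpa using hs10
      have h2 := Int.even_iff.1 hs10
      refine M_map hQ (tr (10 * s, 0)) (tr (10 * s, 0)) (fun e => tr_ends h1 e) (fun e => ?_)
        (fun x => ?_) (fun x => ?_) fun x => ?_
      · rw [mem_Rsq, mem_Rsq, tr_apply]; simp only; omega
      · simp only [Yo, Set.mem_ofPred_eq, tr_apply]; omega
      · rw [mem_TI, mem_TI, Int.even_iff, Int.even_iff, tr_apply]; simp only; omega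
      · rw [mem_TI, mem_TI, Int.even_iff, Int.even_iff, tr_apply]; simp only; omega
    rw [← e] at h
    exact h.trans (M_mono hQ hQ1 (by omega) le_rfl le_rfl le_rfl (TI_top.trans Ho_Yo))
  -- the horizontal crossing
  have hh : y ≤ M Q a b 0 n (LI n a) (RI n b) := by
    refine le_trans ?_ (M_sides hQ (by omega))
    rw [M_eq_cH hQ]
    have h1 : y ≤ cV Q (k - 5 * s) (k + 5 * s) 0 n := by
      rw [← M_eq_cV hQ, M_symm hQ]
      exact h.trans (M_mono_sets hQ (fun p hp => ⟨hp.2.2.2, hp.1.ge⟩)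
        (fun p hp => ⟨hp.2.2.2, hp.1.le⟩))
    rw [cV_eq hQ] at h1
    have h2 := cH_shift (Q := Q) (a := 0) (b := n) (c := k - 5 * s) (d := k + 5 * s) hQ
      (t := (k - 5 * s, 6 * s - k)) (by
        rw [Int.even_iff]
        simp only
        omega)
    simp only at h2
    rw [← h2] at h1
    exact h1.trans (cH_mono hQ hQ1 (by omega) (by omega) (by omega) (by omega))
  -- first gluing
  have q0 := hTB a b n 0 s (-2 * s) (3 * s) (by omega) (by rwa [zero_add]) (hse.add hne) hsm2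
    hs3 (by omega) (by omega) (by omega) (by omega) (by omega) (by omega)
  have q1 := hTB a b n (10 * s) (11 * s) (8 * s) (13 * s) (by omega) (hs10.add hne)
    (hs11.add hne) hs8 hs13 (by omega) (by omega) (by omega) (by omega) (by omega) (by omega)
  have g1 : y * y ≤ M Q a b 0 n (TI n 0 s) (RI n b) := by
    refine (mul_le_mul v0 hh hy (M_nonneg hQ)).trans ?_
    refine glue hQ hQ1 q0 (fan_box a b 0 n) (TI_top.trans Ho_Yo) LI_Yo RI_Yo
      (fun s hs => ?_) fun s hs e he hse => ?_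
    · rw [mem_LI] at hs
      refine ⟨mem_EvS_box hs.2.2.2 (by omega) (by omega) (by omega) (by omega) (by omega)
        (by omega), fun e he hse => OB_col hse he (by omega) (by omega) fun g h5 h6 h7 h8 => ?_⟩
      exact Or.inl (by omega)
    · rw [mem_RI] at hs
      refine OB_col hse he (by omega) (by omega) fun g h5 h6 h7 h8 => ?_
      exact Or.inl (by omega)
  have g2 : y * (y * y) ≤ M Q a b 0 n (TI n (10 * s) (11 * s)) (TI n 0 s) := by
    rw [M_symm hQ] at g1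
    refine (mul_le_mul v1 g1 (by positivity) (M_nonneg hQ)).trans ?_
    refine glue hQ hQ1 q1.swap (fan_box a b 0 n) (TI_top.trans Ho_Yo) RI_Yo
      (TI_top.trans Ho_Yo) (fun s hs => ?_) fun s hs e he hse => ?_
    · rw [mem_RI] at hs
      refine ⟨mem_EvS_box hs.2.2.2 (by omega) (by omega) (by omega) (by omega) (by omega)
        (by omega), fun e he hse => OB_col hse he (by omega) (by omega) fun g h5 h6 h7 h8 => ?_⟩
      exact Or.inl (by omega)
    · rw [mem_TI] at hs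
      refine OB_row hse he (by omega) (by omega) fun g h5 h6 h7 h8 => ?_
      exact Or.inr (Or.inl ⟨by omega, by omega⟩)
  rwa [M_symm hQ] at g2

/-- The intervals of length `s`. -/
theorem TI_cover {s m : ℤ} (hs : 0 < s) {K : ℕ} (hK : 1 ≤ K) :
    TI m (-(K * s)) (K * s) ⊆ ⋃ i ∈ Finset.Ico (-(K : ℤ)) K, TI m (i * s) (i * s + s) := by
  intro p hp
  rw [mem_TI] at hp
  simp only [Set.mem_iUnion, Finset.mem_Ico, mem_TI, exists_prop]
  by_cases h : p.1 = K * s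
  · refine ⟨K - 1, ⟨by omega, by omega⟩, hp.1, ?_, ?_, hp.2.2.2⟩
    · rw [h]; nlinarith
    · rw [h]; nlinarith
  · have h1 := Int.emod_nonneg p.1 hs.ne'
    have h2 := Int.emod_lt_of_pos p.1 hs
    have h3 := Int.emod_add_mul_ediv p.1 s
    refine ⟨p.1 / s, ⟨?_, ?_⟩, hp.1, ?_, ?_, hp.2.2.2⟩
    · rw [Int.le_ediv_iff_mul_le hs]
      linarith [hp.2.1]
    · rw [Int.ediv_lt_iff_lt_mul hs]
      exact lt_of_le_of_ne hp.2.2.1 h
    · rw [mul_comm]; linarith
    · rw [mul_comm]; linarith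

/-- **Arches.** -/
theorem arch_of (hTB : QuadTB) (hTR : QuadTR) (hQ : 0 < Q) (hQ1 : Q ≤ 1) {K : ℕ} (hK : 1 ≤ K)
    {κ : ℝ} (hκ : 0 < κ) :
    ∃ c : ℝ, 0 < c ∧ ∀ s n : ℤ, 4 ≤ s → Even s → n = 20 * s →
      κ ≤ M Q (-(K * s)) (K * s) 0 n (TI n (-(K * s)) (K * s)) (TI 0 (-(K * s)) (K * s)) →
      Arch Q n s c := by
  have hK0 : (0 : ℝ) < K := by exact_mod_cast hK
  set x : ℝ := κ / (4 * (K : ℝ) ^ 2) with hx
  have hx0 : 0 < x := by positivity
  -- the constant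
  set y : ℝ := x / 3 with hy
  have hy0 : 0 < y := by positivity
  refine ⟨min (x * x) (min ((y * x / 10) * (y * x / 10)) (y * (y * y))), by positivity,
    fun s n h0 hse hn h => ?_⟩
  obtain ⟨k, hk⟩ : ∃ k, s = 2 * k := by
    obtain ⟨k, hk⟩ := hse
    exact ⟨k, by omega⟩
  have hne : Even n := by rw [hn]; exact Even.mul_left hse 20
  have arch_mono : ∀ z, min (x * x) (min ((y * x / 10) * (y * x / 10)) (y * (y * y))) ≤ z →
      Arch Q n s z → Arch Q n s (min (x * x) (min ((y * x / 10) * (y * x / 10)) (y * (y * y)))) :=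
    fun z hz ⟨α, h1, h2, h3⟩ => ⟨α, h1, h2, h3.mono hz⟩
  -- pigeonhole
  have hI : (Finset.Ico (-(K : ℤ)) K).Nonempty := by
    rw [Finset.nonempty_Ico]
    omega
  have hcard : ((Finset.Ico (-(K : ℤ)) K).card : ℝ) = 2 * K := by
    rw [Int.card_Ico, show ((K : ℤ) - -(K : ℤ)).toNat = 2 * K by omega]
    push_cast
    ring
  obtain ⟨j, hj, h1⟩ := M_pigeon hQ hI _
    (h.trans (M_mono_sets hQ (Set.Subset.refl _) (TI_cover (by omega) hK)))
  rw [M_symm hQ] at h1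
  obtain ⟨i, hi, h2⟩ := M_pigeon hQ hI _
    (h1.trans (M_mono_sets hQ (Set.Subset.refl _) (TI_cover (by omega) hK)))
  rw [hcard] at h2
  rw [M_symm hQ] at h2
  have h3 : x ≤ M Q (-(K * s)) (K * s) 0 n (TI n (i * s) (i * s + s))
      (TI 0 (j * s) (j * s + s)) := by
    refine le_trans (le_of_eq ?_) h2
    rw [hx]
    field_simp
    norm_num
  have g0 : G Q n x (TI n (i * s) (i * s + s)) (TI 0 (j * s) (j * s + s)) := ⟨_, _, h3⟩
  have g1 := g0.shift hQ (t := -(i * s)) (Even.mul_left hse i).neg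
  rw [show i * s + -(i * s) = 0 by ring, show i * s + s + -(i * s) = s by ring,
    show j * s + -(i * s) = (j - i) * s by ring,
    show j * s + s + -(i * s) = (j - i) * s + s by ring] at g1
  have he : Even ((j - i) * s) := Even.mul_left hse _
  by_cases c1 : 3 ≤ j - i
  · have h4 : 3 * s ≤ (j - i) * s := by nlinarith
    exact arch_mono _ (min_le_left _ _) ⟨(j - i) * s, he, h4,
      g1.arch hTB hQ hQ1 (by omega) hne hse he (by omega) (by omega) hx0.le⟩
  by_cases c2 : j - i ≤ -3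
  · have g2 := g1.refl hQ hse
    rw [sub_self, sub_zero, show s - ((j - i) * s + s) = (i - j) * s by ring,
      show s - (j - i) * s = (i - j) * s + s by ring] at g2
    have he' : Even ((i - j) * s) := Even.mul_left hse _
    have h4 : 3 * s ≤ (i - j) * s := by nlinarith
    exact arch_mono _ (min_le_left _ _) ⟨(i - j) * s, he', h4,
      g2.arch hTB hQ hQ1 (by omega) hne hse he' (by omega) (by omega) hx0.le⟩
  have g2 : G Q n x (TI n 0 s) (TI 0 (-2 * s) (3 * s)) := by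
    refine g1.mono_sets hQ (Set.Subset.refl _) fun p hp => ?_
    rw [mem_TI] at hp ⊢
    refine ⟨hp.1, ?_, ?_, hp.2.2.2⟩
    · have : -2 * s ≤ (j - i) * s := by nlinarith
      linarith [hp.2.1]
    · have : (j - i) * s ≤ 2 * s := by nlinarith
      linarith [hp.2.2.1]
  have h4 := tube_split hQ hQ1 (w := 5 * s) hk g2
  by_cases c3 : y ≤ M Q (k - 5 * s) (k + 5 * s) 0 n (TI n 0 s) (TI 0 (-2 * s) (3 * s))
  · exact arch_mono _ ((min_le_right _ _).trans (min_le_right _ _))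
      (tube_arch hTB hQ hQ1 hn hk h0 hy0.le c3)
  · have h5 : y ≤ M Q (k - 5 * s) (k + 5 * s) 0 n (TI n 0 s) (Rg (k + 5 * s)) := by
      push Not at c3
      rw [hy] at c3 ⊢
      linarith
    exact arch_mono _ ((min_le_right _ _).trans (min_le_left _ _))
      (mirror_arch hTB hTR hQ hQ1 (by omega) hne hk h0 hx0.le hy0.le g2 h5)

/-- **Crossings of long rectangles.** -/
theorem cross_of (hTT : QuadTT) (hTB : QuadTB) (hTR : QuadTR) (hQ : 0 < Q) (hQ1 : Q ≤ 1)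
    {K : ℕ} (hK : 1 ≤ K) {κ : ℝ} (hκ : 0 < κ) {s₀ : ℤ}
    (hA : ∀ s n : ℤ, s₀ ≤ s → 4 ≤ s → Even s → n = 20 * s →
      κ ≤ M Q (-(K * s)) (K * s) 0 n (TI n (-(K * s)) (K * s)) (TI 0 (-(K * s)) (K * s)))
    (k : ℕ) : ∃ c : ℝ, 0 < c ∧ ∃ n₀ : ℤ, ∀ n : ℤ, n₀ ≤ n → c ≤ cH Q 0 (k * n) 0 n := by
  obtain ⟨c, hc, h⟩ := arch_of hTB hTR hQ hQ1 hK hκ
  refine ⟨c ^ (40 * k + 1), pow_pos hc _, max 80 (20 * s₀ + 80), fun N hN' => ?_⟩
  have hN := (le_max_left _ _).trans hN'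
  have hN2 := (le_max_right _ _).trans hN'
  clear hN'
  set s : ℤ := 2 * (N / 40) with hs
  have h0 : 4 ≤ s := by omega
  have hse : Even s := even_two_mul _
  have hne : Even (20 * s) := Even.mul_left hse 20
  obtain ⟨α, hα, hα3, g⟩ := h s (20 * s) h0 hse rfl (hA s (20 * s) (by omega) h0 hse rfl)
  have g1 := g.chain hTT hQ hQ1 (by omega) hne hse hα h0 hα3 hc.le (40 * k)
  have h1 : s + (2 * (k : ℤ)) * (20 * s) ≤ α + ((40 * k : ℕ) : ℤ) * (α - s - 2) := by
    have h2 : s ≤ α - s - 2 := by omega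
    have h3 : ((40 * k : ℕ) : ℤ) * s ≤ ((40 * k : ℕ) : ℤ) * (α - s - 2) :=
      mul_le_mul_of_nonneg_left h2 (Nat.cast_nonneg _)
    have h4 : ((40 * k : ℕ) : ℤ) * s = (2 * (k : ℤ)) * (20 * s) := by
      push_cast
      ring
    linarith
  have h2 := g1.cross hQ hQ1 hse h1
  refine h2.trans (cH_mono hQ hQ1 le_rfl ?_ le_rfl (by omega))
  have h3 : N ≤ 2 * (20 * s) := by omega
  have h4 : (0 : ℤ) ≤ k := Nat.cast_nonneg k
  nlinarith

end Vale.Agent.P167.H366
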